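import Vale.Agent.P167.H365.Q.Fin
import Vale.Agent.P167.QM.ConsFin
import Vale.Agent.P167.H469.SrswAll

/-!
# P167, general `q`, block Q-NRED, `√q = 2 cos μ`
-/

namespace Vale.Agent.P167.H365.NQ

open Finset Vale.Agent.P167.BR Vale.Agent.P167.FK Vale.Agent.P167.FKA

/-- **Q-NRED** for every `Q ≥ 1` with RSW and strong RSW. -/
theorem nredq {Q : ℝ} (hQ : 1 ≤ Q) (hR : RSW Q) (hS : H192.Q.SRSW Q) (t : Fin 3 → ℝ) {K : ℤ}
    (hK : 1 ≤ K) : NREDQ Q t K :=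
  nredq_rel hQ hR hS (QM.rel_fin hQ hR) t hK

/-- **Q-NRED** for `√q = 2 cos μ`, `0 < μ ≤ π / 3`. -/
theorem nredq_cos {μ : ℝ} (h0 : 0 < μ) (h1 : μ ≤ Real.pi / 3) (t : Fin 3 → ℝ) {K : ℤ}
    (hK : 1 ≤ K) : NREDQ (2 * Real.cos μ) t K := by
  have hpi := Real.pi_pos
  have hQ : 1 ≤ 2 * Real.cos μ := by
    have : Real.cos (Real.pi / 3) ≤ Real.cos μ :=
      Real.cos_le_cos_of_nonneg_of_le_pi h0.le (by linarith) h1
    rw [Real.cos_pi_div_three] at this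
    linarith
  exact nredq hQ (K8.k_rsw μ h0.le h1) (H469.srsw_cos h0 h1) t hK

end Vale.Agent.P167.H365.NQ
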