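import Vale.Agent.P167.H365.Q.Mom2

/-!
# P167, general `q`: the piece of an edge at a flat side is small
-/

namespace Vale.Agent.P167.H365.NQ

open Finset Vale.Agent.P167.BR Vale.Agent.P167.FK Vale.Agent.P167.FKA
open Vale.Agent.P167.H192.Q (FlatA I2Q)

variable {Q : ℝ} {D : Finset (ℤ × ℤ)} {η : Cfg} {b : ℤ × ℤ} {R m : ℤ} {ω : Cfg} {A : Finset Ed}

/-- A piece with an edge at `b` visits a square near `b`. -/
theorem visI_edge (hA : A ∈ pcs ω D) {e : Ed} (he : e ∈ A)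
    (h : (hdv e ∈ D ∧ nm (hdv e - b) < m) ∨ (tlv e ∈ D ∧ nm (tlv e - b) < m)) : VisI D b m A := by
  rcases h with ⟨h1, h2⟩ | ⟨h1, h2⟩
  · exact ⟨e, he, h1, h2⟩
  · obtain ⟨e0, k1, -, k3⟩ := pred_mem hA he h1
    exact ⟨e0, k1, by rw [k3]; exact h1, by rw [k3]; exact h2⟩

/-- **The piece of an edge at a flat side goes far with probability `O(1 / R)`** (free or wired side,
any factor `G` which does not depend on the half annulus). -/
theorem edge_far (h : I2Q Q) (hQ : 0 < Q) : ∃ C : ℝ, 0 < C ∧ ∀ (s : Bool) (D : Finset (ℤ × ℤ))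
    (η : Cfg) (b : ℤ × ℤ) (m R : ℤ) (G : Cfg → ℝ) (e : Ed), Good η → FlatA s D η b 0 (R + 1) →
    1 ≤ m → m ≤ R → (∀ ω, 0 ≤ G ω) → Ind (hA b m R) G → e ∈ eds D →
    ((hdv e ∈ D ∧ nm (hdv e - b) < m) ∨ (tlv e ∈ D ∧ nm (tlv e - b) < m)) →
    Ex Q D η (fun ω => G ω * {ω | FarA D b R (piece ω D e)}.indicator 1 ω) ≤
      C * ((m : ℝ) / R) * Ex Q D η G := by
  classical
  obtain ⟨C, hC, h⟩ := h
  refine ⟨C, hC, fun s D η b m R G e hη hfl hm hmR hG0 hG he hvis => ?_⟩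
  have hF : Fl D b (R + 1) := fun v hv => (hfl v (nm_nonneg _) hv).1
  have hfl' : FlatA s D η b m R := fun v h1 h2 => hfl v (nm_nonneg _) (by omega)
  refine le_trans (Ex_mono hQ fun S _ => ?_) (h s D η b m R G hη hfl' hm hmR hG0 hG)
  refine mul_le_mul_of_nonneg_left ?_ (hG0 _)
  set ω := cf D η S
  by_cases hf : FarA D b R (piece ω D e)
  · have hA : piece ω D e ∈ pcs ω D := piece_mem_pcs he
    obtain ⟨c, -, hc⟩ := exists_cro hF hmR hA (visI_edge hA (self_mem_piece he) hvis) hf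
    have h2 : ω ∈ {ω | TwoS b m R ω} := ⟨c, hc⟩
    rw [Set.indicator_of_mem h2]
    exact ind_le_one _ _
  · rw [Set.indicator_of_notMem (show ω ∉ {ω | FarA D b R (piece ω D e)} from hf)]
    exact ind_nonneg _ _

end Vale.Agent.P167.H365.NQ
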