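import Vale.Agent.P167.H718.Par6
import Vale.Agent.P167.H601.LG.Idx

/-!
# P167, general `q`, block Q-LAM: the number of closed pieces and the base

Free or wired boundary conditions: if the base of the polygon is moved, the number of closed pieces
changes by at most one. Hence the partition functions with the staggered phases do not depend on the
base, up to a factor `2 cos θ`.
-/

namespace Vale.Agent.P167.H365.NQ

open Finset Vale.Agent.P167.BR Vale.Agent.P167.FK
open Vale.Agent.P167.E6 (IsPolygon Encloses dir face)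
open Vale.Agent.P167.E2 (ro ro_spec ro_unique)
open Vale.Agent.P167.H718 (IsXY IsCl Cl NC isCl_strand prod_nat ZQ_stag_pos cast_inj exists_in exists_out)
open Vale.Agent.P167.QX (exists_xy ZQ stag XQ XQ_stag XB_zero)

variable {n k s x y r : ℕ} {q q' : ZMod n → ℤ × ℤ} {D : Finset (ℤ × ℤ)} {ω : Cfg} {A : Finset Ed}

/-! ### alternating predicates -/

theorem card_alt {p : ℕ → Prop} [DecidablePred p] (h : ∀ i, p (i + 1) ↔ ¬ p i) (r : ℕ) :
    ((range r).filter p).card ≤ ((range r).filter fun i => ¬ p i).card + 1 ∧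
      ((range r).filter fun i => ¬ p i).card ≤ ((range r).filter p).card + 1 := by
  by_cases h0 : p 0
  · have key : ∀ r, (p r ∧ ((range r).filter p).card = ((range r).filter fun i => ¬ p i).card) ∨
        (¬ p r ∧ ((range r).filter p).card = ((range r).filter fun i => ¬ p i).card + 1) := by
      intro r
      induction r with
      | zero => exact Or.inl ⟨h0, rfl⟩
      | succ r ih =>
        rw [range_add_one, filter_insert, filter_insert, h r]
        rcases ih with ⟨h1, h2⟩ | ⟨h1, h2⟩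
        · rw [if_pos h1, if_neg (not_not.2 h1), card_insert_of_notMem (by simp)]
          exact Or.inr ⟨not_not.2 h1, by omega⟩
        · rw [if_neg h1, if_pos h1, card_insert_of_notMem (by simp)]
          exact Or.inl ⟨h1, by omega⟩
    rcases key r with h1 | h1 <;> omega
  · have key : ∀ r, (¬ p r ∧ ((range r).filter p).card = ((range r).filter fun i => ¬ p i).card) ∨
        (p r ∧ ((range r).filter fun i => ¬ p i).card = ((range r).filter p).card + 1) := by
      intro r
      induction r with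
      | zero => exact Or.inl ⟨h0, rfl⟩
      | succ r ih =>
        rw [range_add_one, filter_insert, filter_insert, h r]
        rcases ih with ⟨h1, h2⟩ | ⟨h1, h2⟩
        · rw [if_neg h1, if_pos h1, card_insert_of_notMem (by simp)]
          exact Or.inr ⟨h1, by omega⟩
        · rw [if_pos h1, if_neg (not_not.2 h1), card_insert_of_notMem (by simp)]
          exact Or.inl ⟨not_not.2 h1, by omega⟩
    rcases key r with h1 | h1 <;> omega

theorem even_next (hq : IsPolygon q) (i : ℕ) :
    Even ((q ((i + 1 : ℕ) : ZMod n)).1 + (q ((i + 1 : ℕ) : ZMod n)).2) ↔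
      ¬ Even ((q (i : ZMod n)).1 + (q (i : ZMod n)).2) := by
  obtain ⟨r, hr⟩ := hq.2.2 (i : ZMod n)
  rw [Nat.cast_add, Nat.cast_one, hr, Int.even_iff, Int.even_iff]
  fin_cases r <;> simp [dir] <;> omega

/-! ### strands and indices -/

section

variable (hq : IsPolygon q) (hD : Encloses q D)
include hq hD

open Classical in
/-- The strands which enter before the index `r`. -/
theorem card_in (hr : r ≤ n) :
    ((pcs ω D).filter fun A => ∃ x y, IsXY q A x y ∧ x < r).card =
      ((range r).filter fun i : ℕ => Even ((q (i : ZMod n)).1 + (q (i : ZMod n)).2)).card := by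
  symm
  have key : ∀ i : ℕ, i < r → Even ((q (i : ZMod n)).1 + (q (i : ZMod n)).2) →
      piece ω D (be q (i : ZMod n)) ∈ pcs ω D ∧
      ∃ y, IsXY q (piece ω D (be q (i : ZMod n))) i y := by
    intro i hi hev
    have h1 := be_even hq hD hev
    have he : be q (i : ZMod n) ∈ eds D := mem_eds.2 (Or.inl h1.2.2.1)
    have hA := piece_mem_pcs (ω := ω) he
    have hs := self_mem_piece (ω := ω) he
    have hl : ¬ IsLp D (piece ω D (be q (i : ZMod n))) := fun h => h1.2.2.2 (h.tl hA hs)
    obtain ⟨x, y, hxy⟩ := exists_xy hq hD hA hl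
    rcases (hxy.iff hq hD hA (lt_of_lt_of_le hi hr)).1 hs with h2 | h2
    · exact ⟨hA, y, by rw [h2]; rw [← h2]; exact h2 ▸ hxy⟩
    · exact absurd (h2 ▸ hev) hxy.2.2.2.2.2
  refine card_bij (fun i _ => piece ω D (be q (i : ZMod n))) ?_ ?_ ?_
  · intro i hi
    rw [mem_filter, mem_range] at hi
    obtain ⟨h1, y, h2⟩ := key i hi.1 hi.2
    exact mem_filter.2 ⟨h1, i, y, h2, hi.1⟩
  · intro i hi j hj h
    rw [mem_filter, mem_range] at hi hj
    obtain ⟨h1, y, h2⟩ := key i hi.1 hi.2
    obtain ⟨h3, y', h4⟩ := key j hj.1 hj.2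
    rw [h] at h2
    exact (h2.unique hq hD h3 h4).1
  · intro A hA
    rw [mem_filter] at hA
    obtain ⟨hA, x, y, h1, h2⟩ := hA
    exact ⟨x, mem_filter.2 ⟨mem_range.2 h2, h1.2.2.2.2.1⟩, (eq_piece_of_mem hA h1.2.2.1).symm⟩

open Classical in
/-- The strands which leave before the index `r`. -/
theorem card_out (hr : r ≤ n) :
    ((pcs ω D).filter fun A => ∃ x y, IsXY q A x y ∧ y < r).card =
      ((range r).filter fun i : ℕ => ¬ Even ((q (i : ZMod n)).1 + (q (i : ZMod n)).2)).card := by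
  symm
  have key : ∀ i : ℕ, i < r → ¬ Even ((q (i : ZMod n)).1 + (q (i : ZMod n)).2) →
      piece ω D (be q (i : ZMod n)) ∈ pcs ω D ∧
      ∃ x, IsXY q (piece ω D (be q (i : ZMod n))) x i := by
    intro i hi hev
    have h1 := be_odd hq hD hev
    have he : be q (i : ZMod n) ∈ eds D := mem_eds.2 (Or.inr h1.2.2.1)
    have hA := piece_mem_pcs (ω := ω) he
    have hs := self_mem_piece (ω := ω) he
    have hl : ¬ IsLp D (piece ω D (be q (i : ZMod n))) := fun h => h1.2.2.2 (h _ hs)
    obtain ⟨x, y, hxy⟩ := exists_xy hq hD hA hl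
    rcases (hxy.iff hq hD hA (lt_of_lt_of_le hi hr)).1 hs with h2 | h2
    · exact absurd (h2 ▸ hxy.2.2.2.2.1) hev
    · exact ⟨hA, x, by rw [h2]; rw [← h2]; exact h2 ▸ hxy⟩
  refine card_bij (fun i _ => piece ω D (be q (i : ZMod n))) ?_ ?_ ?_
  · intro i hi
    rw [mem_filter, mem_range] at hi
    obtain ⟨h1, x, h2⟩ := key i hi.1 hi.2
    exact mem_filter.2 ⟨h1, x, i, h2, hi.1⟩
  · intro i hi j hj h
    rw [mem_filter, mem_range] at hi hj
    obtain ⟨h1, y, h2⟩ := key i hi.1 hi.2
    obtain ⟨h3, y', h4⟩ := key j hj.1 hj.2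
    rw [h] at h2
    exact (h2.unique hq hD h3 h4).2
  · intro A hA
    rw [mem_filter] at hA
    obtain ⟨hA, x, y, h1, h2⟩ := hA
    exact ⟨y, mem_filter.2 ⟨mem_range.2 h2, h1.2.2.2.2.2⟩, (eq_piece_of_mem hA h1.2.2.2.1).symm⟩

/-- The numbers of the strands which enter and which leave before `r` differ by at most one. -/
theorem card_in_out [DecidablePred fun A => ∃ x y, IsXY q A x y ∧ x < r]
    [DecidablePred fun A => ∃ x y, IsXY q A x y ∧ y < r] (hr : r ≤ n) :
    ((pcs ω D).filter fun A => ∃ x y, IsXY q A x y ∧ x < r).card ≤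
        ((pcs ω D).filter fun A => ∃ x y, IsXY q A x y ∧ y < r).card + 1 ∧
      ((pcs ω D).filter fun A => ∃ x y, IsXY q A x y ∧ y < r).card ≤
        ((pcs ω D).filter fun A => ∃ x y, IsXY q A x y ∧ x < r).card + 1 := by
  classical
  have h1 := card_in (ω := ω) hq hD hr
  have h2 := card_out (ω := ω) hq hD hr
  have h3 := card_alt (p := fun i : ℕ => Even ((q (i : ZMod n)).1 + (q (i : ZMod n)).2))
    (even_next hq) r
  have e1 : ((pcs ω D).filter fun A => ∃ x y, IsXY q A x y ∧ x < r).card =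
      ((range r).filter fun i : ℕ => Even ((q (i : ZMod n)).1 + (q (i : ZMod n)).2)).card := by
    rw [← h1]
    congr!
  have e2 : ((pcs ω D).filter fun A => ∃ x y, IsXY q A x y ∧ y < r).card =
      ((range r).filter fun i : ℕ => ¬ Even ((q (i : ZMod n)).1 + (q (i : ZMod n)).2)).card := by
    rw [← h2]
    congr!
  rw [e1, e2]
  exact h3

end

/-! ### the rotation -/

/-- The new number of the side `x` if the base is moved to `s`. -/
def newi (n s x : ℕ) : ℕ := if s ≤ x then x - s else x + n - s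

theorem newi_lt (hs : s < n) (hx : x < n) : newi n s x < n := by
  unfold newi
  split_ifs <;> omega

theorem newi_cast (hs : s < n) (x : ℕ) : ((s + newi n s x : ℕ) : ZMod n) = (x : ZMod n) := by
  unfold newi
  split_ifs with h
  · rw [Nat.add_sub_cancel' h]
  · have : s + (x + n - s) = x + n := by omega
    rw [this, Nat.cast_add, ZMod.natCast_self, add_zero]

section

variable (hq : IsPolygon q) (hq' : IsPolygon q')
  (hs : s < n) (hqq : ∀ j : ℕ, q' (j : ZMod n) = q ((s + j : ℕ) : ZMod n))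
include hq hq' hs hqq

theorem be_new (x : ℕ) : be q' ((newi n s x : ℕ) : ZMod n) = be q (x : ZMod n) := by
  have h1 : q' ((newi n s x : ℕ) : ZMod n) = q (x : ZMod n) := by
    rw [hqq, newi_cast hs]
  have h2 : q' ((newi n s x : ℕ) + 1 : ZMod n) = q ((x : ZMod n) + 1) := by
    have h3 := hqq (newi n s x + 1)
    rw [← add_assoc] at h3
    push_cast at h3
    have h4 := newi_cast hs x
    push_cast at h4
    rw [h4] at h3
    exact h3
  have h3 : ro q (x : ZMod n) = ro q' ((newi n s x : ℕ) : ZMod n) := by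
    refine ro_unique hq' ?_
    rw [h2, h1, ro_spec hq]
  unfold be
  rw [h1, ← h3]

theorem xy_new (h : IsXY q A x y) : IsXY q' A (newi n s x) (newi n s y) := by
  obtain ⟨h1, h2, h3, h4, h5, h6⟩ := h
  refine ⟨newi_lt hs h1, newi_lt hs h2, ?_, ?_, ?_, ?_⟩
  · rw [be_new hq hq' hs hqq]; exact h3
  · rw [be_new hq hq' hs hqq]; exact h4
  · rw [hqq, newi_cast hs]; exact h5
  · rw [hqq, newi_cast hs]; exact h6

end

theorem ite_add (P₁ P₂ P₃ P₄ : Prop) [Decidable P₁] [Decidable P₂] [Decidable P₃] [Decidable P₄]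
    (h : P₁ ∧ P₂ ↔ P₃ ∧ P₄) (h' : P₁ ∨ P₂ ↔ P₃ ∨ P₄) :
    (if P₁ then 1 else 0) + (if P₂ then 1 else 0) =
      (if P₃ then 1 else 0) + (if P₄ then (1 : ℕ) else 0) := by
  by_cases h1 : P₁ <;> by_cases h2 : P₂ <;> by_cases h3 : P₃ <;> by_cases h4 : P₄ <;> simp_all

section

variable (hq : IsPolygon q) (hD : Encloses q D) (hq' : IsPolygon q') (hD' : Encloses q' D)
include hq hD hq' hD'

/-- **The number of closed pieces changes by at most one.** -/
theorem NC_base (hk : k = 0 ∨ k = n) : NC ω D q' k ≤ NC ω D q k + 1 := by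
  classical
  obtain ⟨-, s₀, hs₀⟩ := H601.LG.poly_rot hq' hD' hq hD
  have hn : 0 < n := by have := hq.1; omega
  obtain ⟨s, hs, hqq⟩ : ∃ s < n, ∀ j : ℕ, q' (j : ZMod n) = q ((s + j : ℕ) : ZMod n) := by
    refine ⟨s₀ % n, Nat.mod_lt _ hn, fun j => ?_⟩
    rw [hs₀ j, Nat.cast_add, Nat.cast_add, ZMod.natCast_mod]
  obtain ⟨c1, c2⟩ := card_in_out (ω := ω) hq hD hs.le
  have hlp : ∀ A ∈ pcs ω D, IsLp D A → ¬ ∃ x y, IsXY q A x y := by
    rintro A hA hl ⟨x, y, h⟩
    exact (be_even hq hD h.2.2.2.2.1).2.2.2 (hl.tl hA h.2.2.1)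
  unfold NC
  rw [card_filter, card_filter]
  rw [card_filter, card_filter] at c1 c2
  rcases hk with rfl | rfl
  · -- wired
    have key : ∑ A ∈ pcs ω D, ((if IsCl D q' 0 A then 1 else 0) +
        (if ∃ x y, IsXY q A x y ∧ x < s then 1 else 0)) =
        ∑ A ∈ pcs ω D, ((if IsCl D q 0 A then 1 else 0) +
        (if ∃ x y, IsXY q A x y ∧ y < s then 1 else 0)) := by
      refine sum_congr rfl fun A hA => ?_
      by_cases hl : IsLp D A
      · have i1 : IsCl D q' 0 A := Or.inl hl
        have i2 : IsCl D q 0 A := Or.inl hl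
        rw [if_pos i1, if_pos i2, if_neg, if_neg]
        · rintro ⟨x, y, h, -⟩; exact hlp A hA hl ⟨x, y, h⟩
        · rintro ⟨x, y, h, -⟩; exact hlp A hA hl ⟨x, y, h⟩
      · obtain ⟨x, y, h⟩ := exists_xy hq hD hA hl
        have h' := xy_new hq hq' hs hqq h
        have e1 : (∃ x y, IsXY q A x y ∧ x < s) ↔ x < s :=
          ⟨fun ⟨x', y', h1, h2⟩ => by rw [(h.unique hq hD hA h1).1]; exact h2,
            fun h1 => ⟨x, y, h, h1⟩⟩
        have e2 : (∃ x y, IsXY q A x y ∧ y < s) ↔ y < s :=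
          ⟨fun ⟨x', y', h1, h2⟩ => by rw [(h.unique hq hD hA h1).2]; exact h2,
            fun h1 => ⟨x, y, h, h1⟩⟩
        have hx := h.1
        have hy := h.2.1
        have hxy := h.ne
        refine ite_add _ _ _ _ ?_ ?_ <;>
          rw [e1, e2, isCl_strand hq hD hA hl h, isCl_strand hq' hD' hA hl h'] <;>
          unfold Cl newi <;> split_ifs <;> omega
    rw [sum_add_distrib, sum_add_distrib] at key
    omega
  · -- free
    have key : ∑ A ∈ pcs ω D, ((if IsCl D q' k A then 1 else 0) +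
        (if ∃ x y, IsXY q A x y ∧ y < s then 1 else 0)) =
        ∑ A ∈ pcs ω D, ((if IsCl D q k A then 1 else 0) +
        (if ∃ x y, IsXY q A x y ∧ x < s then 1 else 0)) := by
      refine sum_congr rfl fun A hA => ?_
      by_cases hl : IsLp D A
      · have i1 : IsCl D q' k A := Or.inl hl
        have i2 : IsCl D q k A := Or.inl hl
        rw [if_pos i1, if_pos i2, if_neg, if_neg]
        · rintro ⟨x, y, h, -⟩; exact hlp A hA hl ⟨x, y, h⟩
        · rintro ⟨x, y, h, -⟩; exact hlp A hA hl ⟨x, y, h⟩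
      · obtain ⟨x, y, h⟩ := exists_xy hq hD hA hl
        have h' := xy_new hq hq' hs hqq h
        have e1 : (∃ x y, IsXY q A x y ∧ x < s) ↔ x < s :=
          ⟨fun ⟨x', y', h1, h2⟩ => by rw [(h.unique hq hD hA h1).1]; exact h2,
            fun h1 => ⟨x, y, h, h1⟩⟩
        have e2 : (∃ x y, IsXY q A x y ∧ y < s) ↔ y < s :=
          ⟨fun ⟨x', y', h1, h2⟩ => by rw [(h.unique hq hD hA h1).2]; exact h2,
            fun h1 => ⟨x, y, h, h1⟩⟩
        have hx := h.1
        have hy := h.2.1
        have hxy := h.ne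
        refine ite_add _ _ _ _ ?_ ?_ <;>
          rw [e1, e2, isCl_strand hq hD hA hl h, isCl_strand hq' hD' hA hl h'] <;>
          unfold Cl newi <;> split_ifs <;> omega
    rw [sum_add_distrib, sum_add_distrib] at key
    omega

/-- **The partition functions with the staggered phases and the base.** -/
theorem ZQ_base {θ β : ℝ} (hk : k = 0 ∨ k = n) (h0 : 0 < θ) (h1 : θ ≤ Real.pi / 3)
    (hβ : Real.cos (θ / 2 + β) = Real.sin θ) :
    ZQ θ q D (stag θ β q k) 0 ≤ 2 * Real.cos θ * ZQ θ q' D (stag θ β q' k) 0 := by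
  classical
  have hpi := Real.pi_pos
  have hs : 0 < Real.sin θ := Real.sin_pos_of_pos_of_lt_pi h0 (by linarith)
  have hc : 1 / 2 ≤ Real.cos θ := by
    rw [← Real.cos_pi_div_three]
    exact Real.cos_le_cos_of_nonneg_of_le_pi h0.le (by linarith) h1
  have hc0 : Real.cos θ ≠ 0 := by linarith
  have hQ : (1 : ℝ) ≤ 2 * Real.cos θ := by linarith
  unfold ZQ
  rw [mul_sum]
  refine sum_le_sum fun S _ => ?_
  rw [XQ_stag hq hD hs.ne' hc0, XQ_stag hq' hD' hs.ne' hc0, XB_zero hs.ne' hc0 hβ,
    XB_zero hs.ne' hc0 hβ, mul_one, mul_one]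
  have e : ∀ q : ZMod n → ℤ × ℤ, (∏ A ∈ pcs (cf D eta0 S) D,
      if IsCl D q k A then 2 * Real.cos θ else 1) =
      (2 * Real.cos θ) ^ NC (cf D eta0 S) D q k := by
    intro q
    rw [prod_ite, prod_const, prod_const_one, mul_one]
    rfl
  rw [e, e]
  have h2 := NC_base (ω := cf D eta0 S) hq' hD' hq hD hk
  have h3 : (2 * Real.cos θ) ^ NC (cf D eta0 S) D q k ≤
      2 * Real.cos θ * (2 * Real.cos θ) ^ NC (cf D eta0 S) D q' k := by
    rw [← pow_succ']
    exact pow_le_pow_right₀ hQ h2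
  calc (2 * Real.sin θ) ^ ((XDL.bS D).filter fun e => hdv e ∈ D).card *
        (2 * Real.cos θ) ^ NC (cf D eta0 S) D q k
      ≤ (2 * Real.sin θ) ^ ((XDL.bS D).filter fun e => hdv e ∈ D).card *
        (2 * Real.cos θ * (2 * Real.cos θ) ^ NC (cf D eta0 S) D q' k) :=
        mul_le_mul_of_nonneg_left h3 (by positivity)
    _ = _ := by ring

end

end Vale.Agent.P167.H365.NQ
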