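import Vale.Agent.P167.H718.Lam.Cut
import Vale.Agent.P167.H365.Q.BaseQ1

/-!
# P167, general `q`, block Q-LAM: helper718's `BaseQ`
-/

namespace Vale.Agent.P167.H365.NQ

/-- **[BASE]** -/
theorem baseQ {θ : ℝ} (h0 : 0 < θ) (h1 : θ ≤ Real.pi / 3) : H718.Lam.BaseQ θ :=
  fun _ _ _ _ _ hk hq hq' hD hD' => ZQ_base hq hD hq' hD' hk h0 h1 QX.gauge_two

end Vale.Agent.P167.H365.NQ
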