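import Vale.Agent.P167.H365.Q.NearB

/-!
# P167, general `q`, block Q-NRED: the small loops around the sites at height `k` (block sums)
-/

namespace Vale.Agent.P167.H365.NQ

open Finset Vale.Agent.P167.BR Vale.Agent.P167.FK Vale.Agent.P167.FKA
open Vale.Agent.P167.H562.QM (FltQ)
open Vale.Agent.P167.H166 (bxx mem_bxx)
open Vale.Agent.P167.H167 (Bg)
open Vale.Agent.P167.H192.Q (FlatA I2Q I3Q)

variable {Q : ℝ} {D H D1 D2 : Finset (ℤ × ℤ)} {η : Cfg} {y u p c x z z1 z2 : ℤ × ℤ}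
  {a d r r' R K L m : ℤ} {ω ω' : Cfg} {A : Finset Ed} {t : Fin 3 → ℝ} {X Y N' : Cfg → ℝ}
  {M B : ℝ} {Cm C2 γ Ce γb Cb : ℝ}

/-- The block estimate with fixed constants. -/
def BL1 (Q γb Cb : ℝ) : Prop := ∀ (D : Finset (ℤ × ℤ)) (η : Cfg) (D0 : Finset (ℤ × ℤ)) (η0 : Cfg)
    (h0 : ℤ) (I : Finset ℤ) (k ρ : ℤ) (N : ℤ → Cfg → ℝ) (φ : ℤ → ℝ) (B : ℝ) (G : Cfg → ℝ),
    Good η → Good η0 → 0 ≤ B → 1 ≤ ρ → 4 * ρ ≤ k →
    (∀ x ∈ I, Bq (x, h0) k ⊆ D ∧ Bq (x, h0) k ⊆ D0) →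
    (∀ x ∈ I, ∀ x' ∈ I, |x - x'| ≤ 2 * k) → (∀ x ∈ I, Loc (Bq (x, h0) ρ) (N x)) →
    (∀ x ∈ I, ∀ ξ, Good ξ → Ex Q (Bq (x, h0) (2 * ρ)) ξ (fun ω => N x ω ^ 2) ≤ B ^ 2) →
    (∀ x ∈ I, |φ x| ≤ 1) → (∀ ω, 0 ≤ G ω) → Ind (I.biUnion fun x => Bq (x, h0) k) G →
    Ex Q D η (fun ω => G ω * |∑ x ∈ I, φ x * (N x ω - Ex Q D0 η0 (N x))|) ≤
      Cb * k * ((ρ : ℝ) / k) ^ γb * B * Ex Q D η G

theorem er_const (a : ℝ) (hQ : 0 < Q) : er Q D η H X (fun _ => a) = 0 := by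
  unfold er
  rw [Ex_mul_left, Ex_const hQ]
  ring

/-- One block. -/
theorem block_er (S : Cs Q K Cm C2 γ Ce) (hBL : BL1 Q γb Cb) (hCb : 0 < Cb)
    (h : XY Q K R D η p u X Y M) {k : ℕ} (hL : 1 ≤ L) (hLk : 12 * L ≤ k) {xI : ℤ}
    (hxI : nm ((xI, u.2) - u) ≤ R / 2) (hkR : 8 * (k : ℤ) ≤ R) {I : Finset ℤ}
    (hI : ∀ x ∈ I, xI ≤ x ∧ x < xI + k) {φ : ℤ → ℝ} (hφ : ∀ x, |φ x| ≤ 1) {N : ℤ → Cfg → ℝ}
    (hloc : ∀ x ∈ I, Loc (bxx (x, u.2 + k) L) (N x)) (hB0 : 0 ≤ B)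
    (hL2 : ∀ x ∈ I, ∀ ξ, Good ξ → Ex Q (Bq (x, u.2 + k) (6 * L)) ξ (fun ω => N x ω ^ 2) ≤ B ^ 2) :
    |∑ x ∈ I, φ x * er Q D η (HR K R u) X (N x)| ≤
      Ce * ((4 * k : ℝ) / R) ^ (1 + γ) * ((Cb * k * ((3 * L : ℝ) / k) ^ γb * B) * M) := by
  have hR1 := h.gq.geo.R1
  have hK := h.gq.geo.one_le
  have hL8 := h.gq.geo.L8
  have hg := gq_HR (u := u) hK hR1
  have hn := nm_nonneg ((xI, u.2) - u)
  have hn1 := nm_le'.1 hxI
  simp only [Prod.fst_sub, Prod.snd_sub] at hn1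
  set H := HR K R u with hH
  set F : Cfg → ℝ := fun ω => ∑ x ∈ I, φ x * (N x ω - Ex Q H eta0 (N x)) with hF
  have hsub : ∀ (D' : Finset (ℤ × ℤ)) (η' : Cfg) (p' : ℤ × ℤ), GQ K R D' η' p' u → ∀ x ∈ I,
      Bq (x, u.2 + k) k ⊆ D' := by
    intro D' η' p' E' x hx v hv
    have := hI x hx
    rw [QM.consBq] at hv
    simp only at hv
    refine (E'.geo.fl v ?_).2 (by omega)
    rw [nm_le']
    simp only [Prod.fst_sub, Prod.snd_sub]
    omega
  have hbd : ∀ (D' : Finset (ℤ × ℤ)) (η' : Cfg) (p' : ℤ × ℤ), GQ K R D' η' p' u →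
      ∀ G : Cfg → ℝ, (∀ ω, 0 ≤ G ω) → Ind (hB (xI, u.2) (4 * k)) G →
      Ex Q D' η' (fun ω => G ω * |F ω|) ≤
        (Cb * k * ((3 * L : ℝ) / k) ^ γb * B) * Ex Q D' η' G := by
    intro D' η' p' E' G hG0 hG
    have h1 := hBL D' η' H eta0 (u.2 + k) I k (3 * L) N φ B G E'.good good_eta0 hB0 (by omega)
      (by omega) (fun x hx => ⟨hsub D' η' p' E' x hx, hsub H eta0 _ hg x hx⟩)
      (fun x hx x' hx' => by
        have := hI x hx
        have := hI x' hx'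
        rw [abs_le]; omega)
      (fun x hx ω ω' h' => hloc x hx ω ω' fun v hv => h' v (by
        rw [mem_bxx, nm_le'] at hv
        simp only [Prod.fst_sub, Prod.snd_sub] at hv
        rw [QM.consBq]
        omega))
      (fun x hx ξ hξ => by
        have := hL2 x hx ξ hξ
        rwa [show 2 * (3 * L) = 6 * L by ring]) (fun x _ => hφ x) hG0
      (hG.mono fun v hv => by
        rw [mem_biUnion] at hv
        obtain ⟨x, hx, hv⟩ := hv
        have := hI x hx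
        rw [QM.consBq] at hv
        simp only at hv
        rw [mem_hB']
        simp only
        omega)
    have e : (((3 * L : ℤ) : ℝ)) = 3 * (L : ℝ) := by push_cast; ring
    rw [e] at h1
    exact h1
  have hLB : LocB Q D η H eta0 (xI, u.2) (4 * k) F (Cb * k * ((3 * L : ℝ) / k) ^ γb * B) := by
    refine ⟨fun ω ω' h' => ?_, hbd D η p h.gq, ?_⟩
    · simp only [hF]
      refine Finset.sum_congr rfl fun x hx => ?_
      rw [hloc x hx ω ω' fun v hv => h' v ?_]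
      have := hI x hx
      rw [mem_bxx, nm_le'] at hv
      simp only [Prod.fst_sub, Prod.snd_sub] at hv
      rw [mem_hB']
      simp only
      omega
    · have := hbd H eta0 _ hg (fun _ => 1) (fun _ => zero_le_one) fun _ _ _ => rfl
      simp only [one_mul] at this
      rwa [Ex_const S.hQ0, mul_one] at this
  have h1 := S.err K R D η p u X Y M h (xI, u.2) (4 * k) F _ hxI rfl (by omega) (by omega) hLB
  have e1 : er Q D η H X F = ∑ x ∈ I, φ x * er Q D η H X (N x) := by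
    rw [hF, er_sum]
    refine Finset.sum_congr rfl fun x _ => ?_
    rw [er_mul, er_sub (N := N x) (N' := fun _ => Ex Q H eta0 (N x)), er_const _ S.hQ0, sub_zero]
  rw [e1] at h1
  have e2 : (((4 * (k : ℤ) : ℤ)) : ℝ) = 4 * (k : ℝ) := by push_cast; ring
  rw [e2] at h1
  exact h1

/-- The sum over the blocks. -/
theorem sum_blocks {k : ℕ} {w b : ℤ} (hk : 1 ≤ k) (hkw : (k : ℤ) ≤ w) {I : Finset ℤ}
    (hI : ∀ x ∈ I, |x - b| ≤ w) (f : ℤ → ℝ) {B : ℝ} (hB0 : 0 ≤ B)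
    (h : ∀ j : ℤ, |j * k - b| ≤ w + k → |∑ x ∈ I.filter fun x => x / k = j, f x| ≤ B) :
    |∑ x ∈ I, f x| ≤ 4 * ((w : ℝ) / k) * B := by
  have hk0 : (0 : ℤ) < k := by omega
  have hkr : (0 : ℝ) < k := by exact_mod_cast hk0
  set J := Icc ((b - w) / k) ((b + w) / k) with hJ
  have hmaps : ∀ x ∈ I, x / (k : ℤ) ∈ J := by
    intro x hx
    have := abs_le.1 (hI x hx)
    rw [hJ, mem_Icc]
    exact ⟨Int.ediv_le_ediv hk0 (by omega), Int.ediv_le_ediv hk0 (by omega)⟩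
  rw [← Finset.sum_fiberwise_of_maps_to hmaps]
  have hcard : (J.card : ℝ) ≤ 4 * ((w : ℝ) / k) := by
    have e1 : ((b + w) / k) * k ≤ b + w := Int.ediv_mul_le _ (by omega)
    have e2 : b - w < ((b - w) / k + 1) * k := Int.lt_ediv_add_one_mul_self _ hk0
    have h1 : (J.card : ℤ) * k ≤ 2 * w + 2 * k := by
      rw [hJ, Int.card_Icc]
      rcases le_or_gt 0 ((b + w) / k + 1 - (b - w) / k) with h | h
      · rw [Int.toNat_of_nonneg h]
        nlinarith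
      · rw [Int.toNat_of_nonpos h.le]
        push_cast
        nlinarith
    have h2 : (J.card : ℤ) * k ≤ 4 * w := by omega
    have h3 : (J.card : ℝ) * k ≤ 4 * w := by exact_mod_cast h2
    rw [← mul_div_assoc, le_div_iff₀ hkr]
    exact h3
  calc |∑ j ∈ J, ∑ x ∈ I.filter (fun x => x / (k : ℤ) = j), f x|
      ≤ ∑ j ∈ J, |∑ x ∈ I.filter (fun x => x / (k : ℤ) = j), f x| := Finset.abs_sum_le_sum_abs _ _
    _ ≤ ∑ _j ∈ J, B := by
        refine Finset.sum_le_sum fun j hj => h j ?_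
        rw [hJ, mem_Icc] at hj
        have e1 : ((b + w) / k) * k ≤ b + w := Int.ediv_mul_le _ (by omega)
        have e2 : b - w < ((b - w) / k + 1) * k := Int.lt_ediv_add_one_mul_self _ hk0
        have e3 : j * k ≤ ((b + w) / k) * k := mul_le_mul_of_nonneg_right hj.2 hk0.le
        have e4 : ((b - w) / k) * k ≤ j * k := mul_le_mul_of_nonneg_right hj.1 hk0.le
        rw [abs_le]
        constructor <;> nlinarith
    _ = J.card * B := by rw [Finset.sum_const, nsmul_eq_mul]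
    _ ≤ 4 * ((w : ℝ) / k) * B := mul_le_mul_of_nonneg_right hcard hB0

/-- One scale of loops around the sites at height `k`. -/
theorem scale_er (S : Cs Q K Cm C2 γ Ce) (hBL : BL1 Q γb Cb) (hCb : 0 < Cb)
    (h : XY Q K R D η p u X Y M) {k : ℕ} {w : ℤ} (hL : 1 ≤ L) (hLk : 12 * L ≤ k)
    (hkw : (k : ℤ) ≤ w) (hwR : 8 * w ≤ R) {I : Finset ℤ} (hI : ∀ x ∈ I, |x - u.1| ≤ w) {φ : ℤ → ℝ}
    (hφ : ∀ x, |φ x| ≤ 1) {N : ℤ → Cfg → ℝ} (hloc : ∀ x ∈ I, Loc (bxx (x, u.2 + k) L) (N x))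
    (hB0 : 0 ≤ B)
    (hL2 : ∀ x ∈ I, ∀ ξ, Good ξ → Ex Q (Bq (x, u.2 + k) (6 * L)) ξ (fun ω => N x ω ^ 2) ≤ B ^ 2) :
    |∑ x ∈ I, φ x * er Q D η (HR K R u) X (N x)| ≤
      16 * 4 ^ γ * Ce * Cb * B * M * (w * ((k : ℝ) / R) ^ (1 + γ) * ((3 * L : ℝ) / k) ^ γb) := by
  have hM := h.M0 S.hQ0
  have hCe := S.Ce0
  have hR1 := h.gq.geo.R1
  have hk0 : (0 : ℤ) < k := by omega
  have hkr : (0 : ℝ) < k := by exact_mod_cast hk0
  have hR0 : (0 : ℝ) < R := by exact_mod_cast (by omega : 0 < R)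
  have hLr : (0 : ℝ) < L := by exact_mod_cast (by omega : 0 < L)
  refine (sum_blocks (k := k) (w := w) (b := u.1) (by omega) hkw hI _ (B := Ce *
    ((4 * k : ℝ) / R) ^ (1 + γ) * ((Cb * k * ((3 * L : ℝ) / k) ^ γb * B) * M)) (by positivity)
    fun j hj => ?_).trans (le_of_eq ?_)
  · refine block_er S hBL hCb h hL hLk (xI := j * k) ?_ (by omega) (fun x hx => ?_) hφ
      (fun x hx => hloc x (mem_filter.1 hx).1) hB0 fun x hx => hL2 x (mem_filter.1 hx).1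
    · rw [abs_le] at hj
      rw [nm_le']
      simp only [Prod.fst_sub, Prod.snd_sub]
      omega
    · obtain ⟨h1, h2⟩ := mem_filter.1 hx
      have e1 : (x / k) * k ≤ x := Int.ediv_mul_le _ (by omega)
      have e2 : x < (x / k + 1) * k := Int.lt_ediv_add_one_mul_self _ hk0
      rw [h2] at e1 e2
      exact ⟨e1, by linarith⟩
  · have e : ((4 * k : ℝ) / R) ^ (1 + γ) = 4 * 4 ^ γ * ((k : ℝ) / R) ^ (1 + γ) := by
      rw [mul_div_assoc, Real.mul_rpow (by norm_num) (by positivity),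
        Real.rpow_add (by norm_num : (0 : ℝ) < 4), Real.rpow_one]
    rw [e]
    field_simp
    ring

end Vale.Agent.P167.H365.NQ
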