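import Vale.Agent.P167.H365.Q.Defs
import Vale.Agent.P167.H192.Q.IDefs
import Vale.Agent.P167.QM.Cons

/-!
# P167, general `q`, block Q-NRED: the covariance of a functional with a local function near the side

`X` is a functional which does not depend on the inside of a half box if the half annulus around it is
crossed at most once. `N` depends on the squares of the half box of radius `r`.
-/

namespace Vale.Agent.P167.H365.NQ

open Finset Vale.Agent.P167.BR Vale.Agent.P167.FK Vale.Agent.P167.FKA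
open Vale.Agent.P167.H562.QM (FltQ)
open Vale.Agent.P167.H166 (bxx mem_bxx)
open Vale.Agent.P167.H192.Q (FlatA I2Q I3Q)
open Vale.Agent.P167.QM (Side HS)
open Vale.Agent.P167.H558 (glue glue_mem glue_not_mem)

variable {Q : ℝ} {D : Finset (ℤ × ℤ)} {η : Cfg} {y : ℤ × ℤ} {r R : ℤ} {ω ω' : Cfg}
  {Y : Cfg → ℝ}

/-- Relative mixing at a flat free side (bottom). -/
def REL (Q : ℝ) (K : ℤ) (c C : ℝ) : Prop :=
  ∀ (z : ℤ × ℤ) (d R : ℤ), 1 ≤ d → K * d ≤ R →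
    ∀ (D : Finset (ℤ × ℤ)) (η : Cfg), Side 0 false D η z R → Good η →
    ∀ F : Cfg → ℝ, Loc (HS 0 z d) F →
      (∀ (D' : Finset (ℤ × ℤ)) (η' : Cfg), Side 0 false D' η' z R → Good η' →
        |Ex Q D η F - Ex Q D' η' F| ≤ C * ((d : ℝ) / R) ^ (1 + c) * Ex Q D η (fun ω => |F ω|)) ∧
      (∀ X : Cfg → ℝ, Ind (HS 0 z R) X →
        |Ex Q D η (fun ω => F ω * X ω) - Ex Q D η F * Ex Q D η X| ≤
          C * ((d : ℝ) / R) ^ (1 + c) * Ex Q D η (fun ω => |F ω|) *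
            Ex Q D η (fun ω => |X ω|))

theorem mem_HS0 {z v : ℤ × ℤ} {R : ℤ} : v ∈ HS 0 z R ↔
    ((z.1 - R ≤ v.1 ∧ v.1 < z.1 + R) ∧ (z.2 - R ≤ v.2 ∧ v.2 < z.2 + R)) ∧ z.2 ≤ v.2 := by
  rw [QM.mem_HS, QM.consBq]
  rfl

theorem nm_of_HS {z v : ℤ × ℤ} {R : ℤ} (h : v ∈ HS 0 z R) : nm (v - z) ≤ R := by
  rw [mem_HS0] at h
  rw [nm_le']
  simp only [Prod.fst_sub, Prod.snd_sub]
  omega

theorem HS_of_hB {z v : ℤ × ℤ} {R : ℤ} (h : v ∈ hB z R) : v ∈ HS 0 z (R + 1) := by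
  unfold hB at h
  rw [mem_hA, nm_le'] at h
  simp only [Prod.fst_sub, Prod.snd_sub] at h
  rw [mem_HS0]
  omega

theorem flt_side (h : FltQ D η y R false false) {ρ : ℤ} (hρ : ρ ≤ R) : Side 0 false D η y ρ := by
  refine ⟨fun v hv => ?_, fun v hv hp => ?_⟩
  · exact (h.dom v ((nm_of_HS hv).trans hρ)).2 (mem_HS0.1 hv).2
  · have hv' : nm (v - y) ≤ ρ := by
      rw [QM.consBq] at hv
      rw [nm_le']
      simp only [Prod.fst_sub, Prod.snd_sub]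
      omega
    have hv2 : v.2 < y.2 := not_le.1 hp
    refine ⟨fun hvD => ?_, ?_⟩
    · have := (h.dom v (hv'.trans hρ)).1 hvD
      omega
    · rw [h.out v (hv'.trans hρ) hv2]
      simp

theorem flt_flatA (h : FltQ D η y R false false) (r : ℤ) : FlatA false D η y r R :=
  fun v _ h2 => ⟨h.dom v h2, fun h3 => by rw [h.out v h2 h3]; simp⟩

/-- Glue closed squares in the box of radius `s`. -/
noncomputable def gl (y : ℤ × ℤ) (s : ℤ) (X : Cfg → ℝ) (ω : Cfg) : ℝ :=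
  X (glue {v | nm (v - y) ≤ s} (fun _ => false) ω)

theorem gl_ind {X : Cfg → ℝ} {s : ℤ} {A : Finset (ℤ × ℤ)} (hA : ∀ v ∈ A, nm (v - y) ≤ s) :
    Ind A (gl y s X) := by
  intro ω ω' h
  unfold gl
  congr 1
  funext v
  by_cases hv : v ∈ {v : ℤ × ℤ | nm (v - y) ≤ s}
  · rw [glue_mem hv, glue_mem hv]
  · rw [glue_not_mem hv, glue_not_mem hv]
    exact h v fun hvA => hv (hA v hvA)

theorem gl_abs {X Y : Cfg → ℝ} {s : ℤ} (hXY : ∀ ω, |X ω| ≤ Y ω) (hY : Ind (bxx y R) Y)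
    (hs : s ≤ R) (ω : Cfg) : |gl y s X ω| ≤ Y ω := by
  unfold gl
  refine (hXY _).trans (le_of_eq (hY _ _ fun v hv => ?_))
  refine glue_not_mem fun hv' => hv (mem_bxx.2 ?_)
  have hv'' : nm (v - y) ≤ s := hv'
  omega

/-- `X` does not depend on the inside if there is at most one crossing. -/
def OneCr (D : Finset (ℤ × ℤ)) (y : ℤ × ℤ) (R : ℤ) (X : Cfg → ℝ) : Prop :=
  ∀ (a m : ℤ) (ω ω' : Cfg), 1 ≤ a → a ≤ m → m ≤ R → Agr D y a ω ω' → ¬ ThrS y a m ω → X ω = X ω'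

theorem gl_eq {X : Cfg → ℝ} (hX : OneCr D y R X) {s : ℤ} (hs0 : 0 ≤ s) (hs : s + 1 ≤ R)
    (h : ¬ ThrS y (s + 1) R ω) : X ω = gl y s X ω := by
  refine hX (s + 1) R _ _ (by omega) hs le_rfl (fun v _ hv2 => ?_) h
  exact (glue_not_mem fun hv => by
    have hv' : nm (v - y) ≤ s := hv
    omega).symm

theorem gl_eq2 {X : Cfg → ℝ} (hX : OneCr D y R X) {s s' : ℤ} (hss : s ≤ s') (hs0 : 0 ≤ s')
    (hs : s' + 1 ≤ R) (h : ¬ ThrS y (s' + 1) R ω) : gl y s X ω = gl y s' X ω := by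
  unfold gl
  refine hX (s' + 1) R _ _ (by omega) hs le_rfl (fun v _ hv2 => ?_) ?_
  · rw [glue_not_mem fun hv => by
      have hv' : nm (v - y) ≤ s := hv
      omega, glue_not_mem fun hv => by
      have hv' : nm (v - y) ≤ s' := hv
      omega]
  · rwa [thrS_congr (ω' := ω) fun v hv => ?_]
    refine glue_not_mem fun hv' => ?_
    have hv'' : nm (v - y) ≤ s := hv'
    have := (mem_hA.1 hv).2.1
    omega

/-- The indicator of two crossings. -/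
noncomputable def i3 (y : ℤ × ℤ) (r R : ℤ) : Cfg → ℝ := {ω | ThrS y r R ω}.indicator 1

theorem i3_nonneg (y : ℤ × ℤ) (r R : ℤ) (ω : Cfg) : 0 ≤ i3 y r R ω := ind_nonneg _ _

theorem i3_one (h : ThrS y r R ω) : i3 y r R ω = 1 := by
  unfold i3
  rw [Set.indicator_of_mem (show ω ∈ {ω | ThrS y r R ω} from h)]
  rfl

theorem gl_sub {X Y : Cfg → ℝ} (hX : OneCr D y R X) (hXY : ∀ ω, |X ω| ≤ Y ω)
    (hY : Ind (bxx y R) Y) {s : ℤ} (hs0 : 0 ≤ s) (hs : s + 1 ≤ R) (ω : Cfg) :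
    |X ω - gl y s X ω| ≤ 2 * (Y ω * i3 y (s + 1) R ω) := by
  have hY0 : 0 ≤ Y ω := (abs_nonneg _).trans (hXY ω)
  by_cases h : ThrS y (s + 1) R ω
  · rw [i3_one h, mul_one]
    have h1 := hXY ω
    have h2 := gl_abs (s := s) hXY hY (by omega) ω
    calc _ ≤ |X ω| + |gl y s X ω| := abs_sub _ _
      _ ≤ _ := by linarith
  · rw [gl_eq hX hs0 hs h, sub_self, abs_zero]
    have := i3_nonneg y (s + 1) R ω
    positivity

theorem gl_sub2 {X Y : Cfg → ℝ} (hX : OneCr D y R X) (hXY : ∀ ω, |X ω| ≤ Y ω)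
    (hY : Ind (bxx y R) Y) {s s' : ℤ} (hss : s ≤ s') (hs0 : 0 ≤ s') (hs : s' + 1 ≤ R) (ω : Cfg) :
    |gl y s X ω - gl y s' X ω| ≤ 2 * (Y ω * i3 y (s' + 1) R ω) := by
  have hY0 : 0 ≤ Y ω := (abs_nonneg _).trans (hXY ω)
  by_cases h : ThrS y (s' + 1) R ω
  · rw [i3_one h, mul_one]
    have h1 := gl_abs (s := s) hXY hY (by omega) ω
    have h2 := gl_abs (s := s') hXY hY (by omega) ω
    calc _ ≤ |gl y s X ω| + |gl y s' X ω| := abs_sub _ _
      _ ≤ _ := by linarith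
  · rw [gl_eq2 hX hss hs0 hs h, sub_self, abs_zero]
    have := i3_nonneg y (s' + 1) R ω
    positivity

theorem ind_sub {A : Finset (ℤ × ℤ)} {F G : Cfg → ℝ} (hF : Ind A F) (hG : Ind A G) :
    Ind A (fun ω => F ω - G ω) := fun ω ω' h => by simp only [hF ω ω' h, hG ω ω' h]

theorem ind_hA (hY : Ind (bxx y R) Y) (s : ℤ) : Ind (hA y s R) Y :=
  hY.mono fun v hv => mem_bxx.2 (mem_hA.1 hv).2.2

theorem ind_hB (hY : Ind (bxx y R) Y) {s : ℤ} (hs : s ≤ R) : Ind (hB y s) Y :=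
  hY.mono fun v hv => by
    unfold hB at hv
    exact mem_bxx.2 ((mem_hA.1 hv).2.2.trans hs)

/-- Geometric sum with ratio `2 ^ (-γ)`. -/
theorem geom_neg (γ : ℝ) (hγ : 0 < γ) : ∃ C : ℝ, 0 < C ∧ ∀ J : ℕ,
    ∑ i ∈ range J, ((2 : ℝ) ^ i)⁻¹ ^ γ ≤ C := by
  have h2 : (2 : ℝ)⁻¹ ^ γ < 1 := Real.rpow_lt_one (by norm_num) (by norm_num) hγ
  have h0 : (0 : ℝ) ≤ (2 : ℝ)⁻¹ ^ γ := by positivity
  refine ⟨1 / (1 - (2 : ℝ)⁻¹ ^ γ), by apply div_pos one_pos; linarith, fun J => ?_⟩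
  have e : ∀ i : ℕ, ((2 : ℝ) ^ i)⁻¹ ^ γ = ((2 : ℝ)⁻¹ ^ γ) ^ i := fun i => by
    rw [← inv_pow, ← Real.rpow_natCast, ← Real.rpow_mul (by norm_num), mul_comm,
      Real.rpow_mul (by norm_num), Real.rpow_natCast]
  simp only [e]
  rw [← inv_mul_eq_div, mul_one, ← tsum_geometric_of_lt_one h0 h2]
  exact Summable.sum_le_tsum _ (fun i _ => pow_nonneg h0 i) (summable_geometric_of_lt_one h0 h2)

end Vale.Agent.P167.H365.NQ
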