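import Vale.Agent.P167.H365.Q.Core

/-!
# P167, general `q`, block Q-NRED: the core estimate
-/

namespace Vale.Agent.P167.H365.NQ

open Finset Vale.Agent.P167.BR Vale.Agent.P167.FK Vale.Agent.P167.FKA
open Vale.Agent.P167.H562.QM (FltQ)
open Vale.Agent.P167.H166 (bxx mem_bxx)
open Vale.Agent.P167.H192.Q (FlatA I2Q I3Q)
open Vale.Agent.P167.QM (Side HS)

variable {Q : ℝ} {D : Finset (ℤ × ℤ)} {η : Cfg} {y : ℤ × ℤ} {r R : ℤ} {ω ω' : Cfg}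

/-- The covariance with respect to the reference mean `n`. -/
noncomputable def dlt (Q : ℝ) (D : Finset (ℤ × ℤ)) (η : Cfg) (N : Cfg → ℝ) (n : ℝ) (Z : Cfg → ℝ) :
    ℝ := Ex Q D η (fun ω => N ω * Z ω) - n * Ex Q D η Z

theorem dlt_sub {N : Cfg → ℝ} {n : ℝ} (Z Z' : Cfg → ℝ) :
    dlt Q D η N n Z = dlt Q D η N n (fun ω => Z ω - Z' ω) + dlt Q D η N n Z' := by
  unfold dlt
  simp only [mul_sub]
  rw [Ex_sub, Ex_sub]
  ring

/-- The three-arm bound with fixed constants. -/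
def I3c (Q C α : ℝ) : Prop := ∀ (D : Finset (ℤ × ℤ)) (η : Cfg)
  (b : ℤ × ℤ) (r R : ℤ) (G : Cfg → ℝ), Good η → FlatA false D η b r R → 1 ≤ r → r ≤ R →
  (∀ ω, 0 ≤ G ω) → Ind (hA b r R) G →
  Ex Q D η (fun ω => G ω * i3 b r R ω) ≤ C * ((r : ℝ) / R) ^ (1 + α) * Ex Q D η G

theorem i3c_of (h : I3Q Q) : ∃ C α : ℝ, 0 < C ∧ 0 < α ∧ I3c Q C α := by
  obtain ⟨C, α, hC, hα, h⟩ := h
  exact ⟨C, α, hC, hα, fun D η b r R G h1 h2 h3 h4 h5 h6 => h false D η b r R G h1 h2 h3 h4 h5 h6⟩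

/-- The expectation of the majorant on the event of two crossings. -/
theorem ex_Yi3 {C3 α : ℝ} (hQ : 0 < Q) (hα : 0 < α) (hC3 : 0 < C3) (h3 : I3c Q C3 α) {Y : Cfg → ℝ}
    (hη : Good η) (hF : FltQ D η y R false false) (hY0 : ∀ ω, 0 ≤ Y ω) (hY : Ind (bxx y R) Y) {s : ℤ}
    (hs0 : 1 ≤ s) (hs : s + 1 ≤ R) :
    Ex Q D η (fun ω => Y ω * i3 y (s + 1) R ω) ≤
      C3 * (2 * (s : ℝ) / R) ^ (1 + α) * Ex Q D η Y := by
  have hR0 : (0 : ℝ) < R := by exact_mod_cast (by omega : 0 < R)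
  have hs1 : (1 : ℝ) ≤ s := by exact_mod_cast hs0
  refine (h3 D η y (s + 1) R Y hη (flt_flatA hF _) (by omega) hs hY0 (ind_hA hY _)).trans ?_
  refine mul_le_mul_of_nonneg_right (mul_le_mul_of_nonneg_left ?_ hC3.le)
    (Ex_nonneg hQ fun _ _ => hY0 _)
  refine Real.rpow_le_rpow (by positivity) ?_ (by linarith)
  refine div_le_div_of_nonneg_right ?_ hR0.le
  push_cast
  linarith

/-- Functions off a box of radius `ρ`. -/
theorem dlt_rel {K : ℤ} {c C : ℝ} (hQ : 0 < Q) (hc : 0 < c) (hC : 0 < C) (hrel : REL Q K c C)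
    (hη : Good η) (hF : FltQ D η y R false false) {D' : Finset (ℤ × ℤ)} {η' : Cfg} (hη' : Good η')
    (hF' : FltQ D' η' y R false false) (hr : 1 ≤ r) {N : Cfg → ℝ} (hN : Loc (hB y r) N) {B : ℝ}
    (hB0 : 0 ≤ B) (hNB : Ex Q D η (fun ω => |N ω|) ≤ B) {ρ : ℤ} (hρ : K * (r + 1) ≤ ρ) (hρ0 : 1 ≤ ρ)
    (hρR : ρ ≤ R) {Z : Cfg → ℝ} (hZ : Ind (HS 0 y ρ) Z) :
    |dlt Q D η N (Ex Q D' η' N) Z| ≤
      2 * C * (2 * (r : ℝ) / ρ) ^ (1 + c) * B * Ex Q D η (fun ω => |Z ω|) := by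
  have hN' : Loc (HS 0 y (r + 1)) N := fun ω ω' h => hN ω ω' fun v hv => h v (HS_of_hB hv)
  obtain ⟨h1, h2⟩ := hrel y (r + 1) ρ (by omega) hρ D η (flt_side hF hρR) hη N hN'
  have h3 := h1 D' η' (flt_side hF' hρR) hη'
  have h4 := h2 Z hZ
  have hρr : (0 : ℝ) < ρ := by exact_mod_cast (by omega : 0 < ρ)
  have hr1 : (1 : ℝ) ≤ r := by exact_mod_cast hr
  set E := Ex Q D η (fun ω => |N ω|)
  have hE0 : 0 ≤ E := Ex_nonneg hQ fun _ _ => abs_nonneg _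
  set EZ := Ex Q D η (fun ω => |Z ω|)
  have hEZ0 : 0 ≤ EZ := Ex_nonneg hQ fun _ _ => abs_nonneg _
  set q : ℝ := (((r + 1 : ℤ) : ℝ) / ρ) ^ (1 + c)
  have hq0 : 0 ≤ q := by
    have : (0 : ℝ) ≤ ((r + 1 : ℤ) : ℝ) := by push_cast; linarith
    positivity
  have hzz : |Ex Q D η Z| ≤ EZ := abs_Ex_le hQ Z
  have key : |dlt Q D η N (Ex Q D' η' N) Z| ≤ 2 * C * q * B * EZ := by
    have e : dlt Q D η N (Ex Q D' η' N) Z = (Ex Q D η (fun ω => N ω * Z ω) - Ex Q D η N * Ex Q D η Z)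
        + (Ex Q D η N - Ex Q D' η' N) * Ex Q D η Z := by unfold dlt; ring
    rw [e]
    refine (abs_add_le _ _).trans ?_
    rw [abs_mul]
    calc _ ≤ C * q * E * EZ + (C * q * E) * EZ :=
          add_le_add h4 (mul_le_mul h3 hzz (abs_nonneg _) (by positivity))
      _ = 2 * C * q * E * EZ := by ring
      _ ≤ 2 * C * q * B * EZ := by gcongr
  refine key.trans ?_
  have : q ≤ (2 * (r : ℝ) / ρ) ^ (1 + c) := by
    refine Real.rpow_le_rpow ?_ ?_ (by linarith)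
    · have : (0 : ℝ) ≤ ((r + 1 : ℤ) : ℝ) := by push_cast; linarith
      positivity
    · refine div_le_div_of_nonneg_right ?_ hρr.le
      push_cast; linarith
  gcongr

end Vale.Agent.P167.H365.NQ
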