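import Vale.Agent.P167.H365.Q.Core2

/-!
# P167, general `q`, block Q-NRED: the core estimate, conclusion
-/

namespace Vale.Agent.P167.H365.NQ

open Finset Vale.Agent.P167.BR Vale.Agent.P167.FK Vale.Agent.P167.FKA
open Vale.Agent.P167.H562.QM (FltQ)
open Vale.Agent.P167.H166 (bxx mem_bxx)
open Vale.Agent.P167.H192.Q (FlatA I2Q I3Q)
open Vale.Agent.P167.QM (Side HS)

variable {Q : ℝ} {D : Finset (ℤ × ℤ)} {η : Cfg} {y : ℤ × ℤ} {r R : ℤ} {ω ω' : Cfg}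

/-- `N` is a function of the half box of radius `r` with a uniformly bounded first moment. -/
structure LocB (Q : ℝ) (D : Finset (ℤ × ℤ)) (η : Cfg) (D' : Finset (ℤ × ℤ)) (η' : Cfg) (y : ℤ × ℤ)
    (r : ℤ) (N : Cfg → ℝ) (B : ℝ) : Prop where
  loc : Loc (hB y r) N
  bd : ∀ G : Cfg → ℝ, (∀ ω, 0 ≤ G ω) → Ind (hB y r) G →
    Ex Q D η (fun ω => G ω * |N ω|) ≤ B * Ex Q D η G
  bd' : Ex Q D' η' (fun ω => |N ω|) ≤ B

theorem dlt_triv {D' : Finset (ℤ × ℤ)} {η' : Cfg} {N : Cfg → ℝ} {B : ℝ} (hQ : 0 < Q)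
    (hN : LocB Q D η D' η' y r N B) {Z T : Cfg → ℝ} (hT0 : ∀ ω, 0 ≤ T ω) (hT : Ind (hB y r) T)
    (hZ : ∀ ω, |Z ω| ≤ 2 * T ω) : |dlt Q D η N (Ex Q D' η' N) Z| ≤ 4 * B * Ex Q D η T := by
  have h1 : |Ex Q D η (fun ω => N ω * Z ω)| ≤ 2 * (B * Ex Q D η T) := by
    calc |Ex Q D η (fun ω => N ω * Z ω)| ≤ Ex Q D η (fun ω => |N ω * Z ω|) := abs_Ex_le hQ _
      _ ≤ Ex Q D η (fun ω => 2 * (T ω * |N ω|)) := Ex_mono hQ fun S _ => by
          rw [abs_mul]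
          have := hZ (cf D η S)
          have := abs_nonneg (N (cf D η S))
          nlinarith
      _ = 2 * Ex Q D η (fun ω => T ω * |N ω|) := Ex_mul_left _ _
      _ ≤ _ := mul_le_mul_of_nonneg_left (hN.bd T hT0 hT) (by norm_num)
  have h2 : |Ex Q D' η' N| ≤ B := (abs_Ex_le hQ _).trans hN.bd'
  have h3 : |Ex Q D η Z| ≤ 2 * Ex Q D η T := by
    rw [← Ex_mul_left]
    exact (abs_Ex_le hQ _).trans (Ex_mono hQ fun S _ => hZ _)
  have hB : 0 ≤ B := (abs_nonneg _).trans h2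
  unfold dlt
  calc |Ex Q D η (fun ω => N ω * Z ω) - Ex Q D' η' N * Ex Q D η Z|
      ≤ |Ex Q D η (fun ω => N ω * Z ω)| + |Ex Q D' η' N * Ex Q D η Z| := abs_sub _ _
    _ ≤ 2 * (B * Ex Q D η T) + B * (2 * Ex Q D η T) := by
        rw [abs_mul]
        exact add_le_add h1 (mul_le_mul h2 h3 (abs_nonneg _) hB)
    _ = _ := by ring

/-- The number of the scales. -/
theorem exists_J {K r R : ℤ} (hK : 1 ≤ K) (hr : 1 ≤ r) (h : 16 * K * r ≤ R) :
    ∃ J : ℕ, 2 ^ J * r ≤ R / 2 ∧ R ≤ 4 * (2 ^ J * r) := by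
  have hKr : r ≤ K * r := by nlinarith
  have h1 : 1 ≤ R / 2 / r := by
    rw [Int.le_ediv_iff_mul_le (by omega)]
    have : 16 * (K * r) ≤ R := by linarith
    omega
  obtain ⟨J, hJ1, hJ2⟩ := exists_log (N := (R / 2 / r).toNat) (by omega)
  have h0 : 0 ≤ R / 2 / r := by omega
  have e1 : (2 : ℤ) ^ J ≤ R / 2 / r := by
    have : ((2 ^ J : ℕ) : ℤ) ≤ ((R / 2 / r).toNat : ℤ) := by exact_mod_cast hJ1
    rw [Int.toNat_of_nonneg h0] at this
    exact_mod_cast this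
  have e2 : R / 2 / r < 2 * 2 ^ J := by
    have : ((R / 2 / r).toNat : ℤ) < ((2 ^ (J + 1) : ℕ) : ℤ) := by exact_mod_cast hJ2
    rw [Int.toNat_of_nonneg h0] at this
    have h5 : ((2 ^ (J + 1) : ℕ) : ℤ) = 2 * 2 ^ J := by push_cast; ring
    omega
  refine ⟨J, ?_, ?_⟩
  · calc (2 : ℤ) ^ J * r ≤ R / 2 / r * r := mul_le_mul_of_nonneg_right e1 (by omega)
      _ ≤ R / 2 := Int.ediv_mul_le _ (by omega)
  · have h5 : R / 2 < (R / 2 / r + 1) * r := Int.lt_ediv_add_one_mul_self _ (by omega)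
    have h6 : (R / 2 / r + 1) * r ≤ (2 * 2 ^ J) * r :=
      mul_le_mul_of_nonneg_right (by omega) (by omega)
    have h7 : (2 * 2 ^ J) * r = 2 * (2 ^ J * r) := by ring
    omega

theorem rpow_le_rpow_exp {x a b : ℝ} (hx0 : 0 < x) (hx1 : x ≤ 1) (h : a ≤ b) : x ^ b ≤ x ^ a :=
  Real.rpow_le_rpow_of_exponent_ge hx0 hx1 h

/-- The constants of the inputs. -/
structure Cst (Q C3 α c C : ℝ) (K : ℤ) : Prop where
  hQ : 1 ≤ Q
  hα : 0 < α
  hC3 : 0 < C3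
  h3 : I3c Q C3 α
  hK : 1 ≤ K
  hc : 0 < c
  hC : 0 < C
  hrel : REL Q K c C

/-- The hypotheses of the core estimate. -/
structure CH (Q : ℝ) (D : Finset (ℤ × ℤ)) (η : Cfg) (D' : Finset (ℤ × ℤ)) (η' : Cfg) (y : ℤ × ℤ)
    (r R : ℤ) (X Y N : Cfg → ℝ) (B : ℝ) : Prop where
  hη : Good η
  hF : FltQ D η y R false false
  hη' : Good η'
  hF' : FltQ D' η' y R false false
  hr : 1 ≤ r
  hrR : r ≤ R
  hXY : ∀ ω, |X ω| ≤ Y ω
  hY : Ind (bxx y R) Y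
  hX : OneCr D y R X
  hN : LocB Q D η D' η' y r N B

namespace CH

variable {D' : Finset (ℤ × ℤ)} {η' : Cfg} {X Y N : Cfg → ℝ} {B : ℝ} {C3 α c C : ℝ} {K : ℤ}

theorem Y0 (H : CH Q D η D' η' y r R X Y N B) (ω : Cfg) : 0 ≤ Y ω := (abs_nonneg _).trans (H.hXY ω)

theorem EY (H : CH Q D η D' η' y r R X Y N B) (hQ : 0 < Q) : 0 ≤ Ex Q D η Y :=
  Ex_nonneg hQ fun _ _ => H.Y0 _

theorem B0 (H : CH Q D η D' η' y r R X Y N B) (hQ : 0 < Q) : 0 ≤ B :=
  (Ex_nonneg hQ fun _ _ => abs_nonneg _).trans H.hN.bd'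

theorem NB (H : CH Q D η D' η' y r R X Y N B) (hQ : 0 < Q) : Ex Q D η (fun ω => |N ω|) ≤ B := by
  have := H.hN.bd (fun _ => 1) (fun _ => zero_le_one) fun _ _ _ => rfl
  simp only [one_mul] at this
  rwa [Ex_const hQ, mul_one] at this

theorem rR0 (H : CH Q D η D' η' y r R X Y N B) : 0 < (r : ℝ) / R := by
  have h1 : (1 : ℝ) ≤ r := by exact_mod_cast H.hr
  have h2 : (r : ℝ) ≤ R := by exact_mod_cast H.hrR
  have : (0 : ℝ) < R := by linarith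
  positivity

theorem R0 (H : CH Q D η D' η' y r R X Y N B) : (0 : ℝ) < R := by
  have h1 : (1 : ℝ) ≤ r := by exact_mod_cast H.hr
  have h2 : (r : ℝ) ≤ R := by exact_mod_cast H.hrR
  linarith

theorem rR1 (H : CH Q D η D' η' y r R X Y N B) : (r : ℝ) / R ≤ 1 := by
  rw [div_le_one H.R0]
  exact_mod_cast H.hrR

/-- Few scales. -/
theorem few (H : CH Q D η D' η' y r R X Y N B) (hQ : 0 < Q) (hK : 1 ≤ K) {γ : ℝ} (hγ : 0 < γ)
    (hsm : R < 16 * K * r) : |dlt Q D η N (Ex Q D' η' N) X| ≤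
      4 * (16 * K) ^ (1 + γ) * ((r : ℝ) / R) ^ (1 + γ) * (B * Ex Q D η Y) := by
  have hB0 := H.B0 hQ
  have hEY := H.EY hQ
  have hKr : (1 : ℝ) ≤ K := by exact_mod_cast hK
  have h1 := dlt_triv hQ H.hN H.Y0 (ind_hB H.hY H.hrR) (Z := X) fun ω => by
    have := H.hXY ω
    have := H.Y0 ω
    linarith
  have h2 : 1 ≤ (16 * (K : ℝ)) ^ (1 + γ) * ((r : ℝ) / R) ^ (1 + γ) := by
    rw [← Real.mul_rpow (by positivity) H.rR0.le]
    refine Real.one_le_rpow ?_ (by linarith)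
    rw [← mul_div_assoc, le_div_iff₀ H.R0, one_mul]
    exact_mod_cast hsm.le
  calc _ ≤ 4 * B * Ex Q D η Y := h1
    _ = 4 * (B * Ex Q D η Y) * 1 := by ring
    _ ≤ 4 * (B * Ex Q D η Y) * ((16 * (K : ℝ)) ^ (1 + γ) * ((r : ℝ) / R) ^ (1 + γ)) :=
        mul_le_mul_of_nonneg_left h2 (by positivity)
    _ = _ := by ring

/-- The majorant of the term `i`. -/
noncomputable def tm (y : ℤ × ℤ) (r R : ℤ) (Y : Cfg → ℝ) (i : ℕ) (ω : Cfg) : ℝ :=
  Y ω * i3 y (2 ^ i * r + 1) R ω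

theorem s1 (H : CH Q D η D' η' y r R X Y N B) (i : ℕ) : r ≤ 2 ^ i * r := by
  have h1 : (1 : ℤ) ≤ 2 ^ i := one_le_pow₀ (by norm_num)
  have := H.hr
  nlinarith

theorem tm0 (H : CH Q D η D' η' y r R X Y N B) (i : ℕ) (ω : Cfg) : 0 ≤ tm y r R Y i ω :=
  mul_nonneg (H.Y0 ω) (i3_nonneg _ _ _ _)

theorem tmI (H : CH Q D η D' η' y r R X Y N B) (i : ℕ) : Ind (hB y r) (tm y r R Y i) := by
  refine (ind_hB H.hY H.hrR).mul ?_
  intro ω ω' h
  unfold i3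
  have : ThrS y (2 ^ i * r + 1) R ω ↔ ThrS y (2 ^ i * r + 1) R ω' := by
    refine thrS_congr fun v hv => h v fun hv' => ?_
    unfold hB at hv'
    have h1 := (mem_hA.1 hv').2.2
    have h2 := (mem_hA.1 hv).2.1
    have h3 := H.s1 i
    omega
  by_cases hh : ThrS y (2 ^ i * r + 1) R ω
  · rw [Set.indicator_of_mem (show ω ∈ {ω | ThrS y (2 ^ i * r + 1) R ω} from hh),
      Set.indicator_of_mem (show ω' ∈ {ω | ThrS y (2 ^ i * r + 1) R ω} from this.1 hh)]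
    rfl
  · rw [Set.indicator_of_notMem (show ω ∉ {ω | ThrS y (2 ^ i * r + 1) R ω} from hh),
      Set.indicator_of_notMem
        (show ω' ∉ {ω | ThrS y (2 ^ i * r + 1) R ω} from fun h' => hh (this.2 h'))]

theorem tmE (H : CH Q D η D' η' y r R X Y N B) (P : Cst Q C3 α c C K) {i : ℕ}
    (hi : 2 ^ i * r + 1 ≤ R) : Ex Q D η (tm y r R Y i) ≤
      C3 * (2 * ((2 ^ i * r : ℤ) : ℝ) / R) ^ (1 + α) * Ex Q D η Y :=
  ex_Yi3 (by linarith [P.hQ]) P.hα P.hC3 P.h3 H.hη H.hF H.Y0 H.hY (H.hr.trans (H.s1 i)) hi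

/-- The first term. -/
theorem first (H : CH Q D η D' η' y r R X Y N B) (P : Cst Q C3 α c C K) {γ : ℝ} (hγ : γ ≤ α)
    (hR : r + 1 ≤ R) :
    |dlt Q D η N (Ex Q D' η' N) (fun ω => X ω - gl y (2 ^ 0 * r) X ω)| ≤
      4 * C3 * 2 ^ (1 + α) * ((r : ℝ) / R) ^ (1 + γ) * (B * Ex Q D η Y) := by
  have hQ0 : 0 < Q := by linarith [P.hQ]
  have hB0 := H.B0 hQ0
  have hEY := H.EY hQ0
  have hC3 := P.hC3
  have e0 : (2 : ℤ) ^ 0 * r = r := by ring
  have h1 := dlt_triv hQ0 H.hN (H.tm0 0) (H.tmI 0) (Z := fun ω => X ω - gl y (2 ^ 0 * r) X ω)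
    fun ω => gl_sub H.hX H.hXY H.hY (by have := H.hr; omega) (by omega) ω
  have h2 := H.tmE P (i := 0) (by omega)
  have h4 : (2 * ((2 ^ 0 * r : ℤ) : ℝ) / R) ^ (1 + α) ≤
      2 ^ (1 + α) * ((r : ℝ) / R) ^ (1 + γ) := by
    rw [show (2 * ((2 ^ 0 * r : ℤ) : ℝ) / R) = 2 * ((r : ℝ) / R) by push_cast; ring,
      Real.mul_rpow (by norm_num) H.rR0.le]
    exact mul_le_mul_of_nonneg_left (rpow_le_rpow_exp H.rR0 H.rR1 (by linarith)) (by positivity)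
  calc _ ≤ 4 * B * Ex Q D η (tm y r R Y 0) := h1
    _ ≤ 4 * B * (C3 * (2 ^ (1 + α) * ((r : ℝ) / R) ^ (1 + γ)) * Ex Q D η Y) := by
        refine mul_le_mul_of_nonneg_left (h2.trans ?_) (by positivity)
        exact mul_le_mul_of_nonneg_right (mul_le_mul_of_nonneg_left h4 hC3.le) hEY
    _ = _ := by ring

/-- The terms, before the exponents. -/
theorem term0 (H : CH Q D η D' η' y r R X Y N B) (P : Cst Q C3 α c C K) {i : ℕ}
    (hi : 2 ^ (i + 1) * r + 1 ≤ R) :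
    |dlt Q D η N (Ex Q D' η' N) (fun ω => gl y (2 ^ i * r) X ω - gl y (2 ^ (i + 1) * r) X ω)| ≤
      4 * B * (C * 2 ^ (1 + c) + (2 * K) ^ (1 + c)) * ((2 : ℝ) ^ i)⁻¹ ^ (1 + c) *
        Ex Q D η (tm y r R Y (i + 1)) := by
  have hQ0 : 0 < Q := by linarith [P.hQ]
  have hB0 := H.B0 hQ0
  have hC := P.hC
  have hc := P.hc
  have hKr : (1 : ℝ) ≤ K := by exact_mod_cast P.hK
  have hK := P.hK
  have hs1 := H.s1 i
  have hr := H.hr
  set s : ℤ := 2 ^ i * r with hs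
  have hsr : (s : ℝ) = 2 ^ i * r := by rw [hs]; push_cast; ring
  have hs0 : (0 : ℝ) < s := by exact_mod_cast (by omega : 0 < s)
  have hss' : (2 : ℤ) ^ (i + 1) * r = 2 * s := by rw [hs]; ring
  have hZ : ∀ ω, |gl y s X ω - gl y (2 ^ (i + 1) * r) X ω| ≤ 2 * tm y r R Y (i + 1) ω := fun ω =>
    gl_sub2 H.hX H.hXY H.hY (by rw [hss']; omega) (by omega) hi ω
  have hEZ : Ex Q D η (fun ω => |gl y s X ω - gl y (2 ^ (i + 1) * r) X ω|) ≤
      2 * Ex Q D η (tm y r R Y (i + 1)) := by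
    rw [← Ex_mul_left]
    exact Ex_mono hQ0 fun S _ => hZ _
  have hEt0 : 0 ≤ Ex Q D η (tm y r R Y (i + 1)) := Ex_nonneg hQ0 fun _ _ => H.tm0 _ _
  set p : ℝ := ((2 : ℝ) ^ i)⁻¹ with hp
  have hp0 : 0 < p := by positivity
  have hps : p * s = r := by
    rw [hp, hsr]
    field_simp
  rcases le_or_gt (K * (r + 1)) s with hKs | hKs
  · have h1 := dlt_rel hQ0 P.hc P.hC P.hrel H.hη H.hF H.hη' H.hF' hr H.hN.loc hB0 (H.NB hQ0)
      (ρ := s) hKs (by omega) (by omega)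
      (Z := fun ω => gl y s X ω - gl y (2 ^ (i + 1) * r) X ω)
      (ind_sub (gl_ind fun v hv => nm_of_HS hv)
        (gl_ind fun v hv => (nm_of_HS hv).trans (by rw [hss']; omega)))
    have e1 : (2 * (r : ℝ) / s) ^ (1 + c) = 2 ^ (1 + c) * p ^ (1 + c) := by
      rw [← Real.mul_rpow (by norm_num) hp0.le]
      congr 1
      rw [← hps]
      field_simp
    rw [e1] at h1
    calc _ ≤ _ := h1
      _ ≤ 2 * C * (2 ^ (1 + c) * p ^ (1 + c)) * B * (2 * Ex Q D η (tm y r R Y (i + 1))) :=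
          mul_le_mul_of_nonneg_left hEZ (by positivity)
      _ = 4 * B * (C * 2 ^ (1 + c)) * p ^ (1 + c) * Ex Q D η (tm y r R Y (i + 1)) := by ring
      _ ≤ _ := by
          have : (0 : ℝ) ≤ (2 * (K : ℝ)) ^ (1 + c) := by positivity
          refine mul_le_mul_of_nonneg_right (mul_le_mul_of_nonneg_right
            (mul_le_mul_of_nonneg_left (by linarith) (by positivity)) (by positivity)) hEt0
  · have h1 := dlt_triv hQ0 H.hN (H.tm0 (i + 1)) (H.tmI (i + 1)) hZ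
    have h2 : 1 ≤ (2 * (K : ℝ)) ^ (1 + c) * p ^ (1 + c) := by
      rw [← Real.mul_rpow (by positivity) hp0.le]
      refine Real.one_le_rpow ?_ (by linarith)
      have h5 : s < K * (2 * r) := lt_of_lt_of_le hKs (mul_le_mul_of_nonneg_left (by omega)
        (by omega))
      have h6 : (s : ℝ) < K * (2 * r) := by exact_mod_cast h5
      rw [← hps] at h6
      have h7 : s * 1 < s * (2 * K * p) := by nlinarith
      exact (lt_of_mul_lt_mul_left h7 hs0.le).le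
    calc _ ≤ 4 * B * Ex Q D η (tm y r R Y (i + 1)) * 1 := by rw [mul_one]; exact h1
      _ ≤ 4 * B * Ex Q D η (tm y r R Y (i + 1)) * ((2 * (K : ℝ)) ^ (1 + c) * p ^ (1 + c)) :=
          mul_le_mul_of_nonneg_left h2 (by positivity)
      _ = 4 * B * ((2 * (K : ℝ)) ^ (1 + c)) * p ^ (1 + c) * Ex Q D η (tm y r R Y (i + 1)) := by
          ring
      _ ≤ _ := by
          have : (0 : ℝ) ≤ C * 2 ^ (1 + c) := by positivity
          refine mul_le_mul_of_nonneg_right (mul_le_mul_of_nonneg_right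
            (mul_le_mul_of_nonneg_left (by linarith) (by positivity)) (by positivity)) hEt0

/-- The terms. -/
theorem term (H : CH Q D η D' η' y r R X Y N B) (P : Cst Q C3 α c C K) {γ : ℝ} (hγ0 : 0 < γ)
    (hγc : 2 * γ ≤ c) (hγα : γ ≤ α) {i : ℕ} (hi : 2 ^ (i + 1) * r + 1 ≤ R) :
    |dlt Q D η N (Ex Q D' η' N) (fun ω => gl y (2 ^ i * r) X ω - gl y (2 ^ (i + 1) * r) X ω)| ≤
      4 * C3 * 4 ^ (1 + α) * (C * 2 ^ (1 + c) + (2 * K) ^ (1 + c)) * ((r : ℝ) / R) ^ (1 + γ) *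
        (B * Ex Q D η Y) * ((2 : ℝ) ^ i)⁻¹ ^ γ := by
  have hQ0 : 0 < Q := by linarith [P.hQ]
  have hB0 := H.B0 hQ0
  have hEY := H.EY hQ0
  have hC3 := P.hC3
  have hC := P.hC
  have hR0 := H.R0
  have hKr : (1 : ℝ) ≤ K := by exact_mod_cast P.hK
  have hs1 := H.s1 i
  have hr := H.hr
  have main := H.term0 P hi
  have hE0 := H.tmE P hi
  set s : ℤ := 2 ^ i * r with hs
  have hsr : (s : ℝ) = 2 ^ i * r := by rw [hs]; push_cast; ring
  have hs0 : (0 : ℝ) < s := by exact_mod_cast (by omega : 0 < s)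
  have hss' : (2 : ℤ) ^ (i + 1) * r = 2 * s := by rw [hs]; ring
  have hsR' : (s : ℝ) / R ≤ 1 := by
    rw [div_le_one hR0]
    exact_mod_cast (by omega : s ≤ R)
  have hE : Ex Q D η (tm y r R Y (i + 1)) ≤
      C3 * 4 ^ (1 + α) * ((s : ℝ) / R) ^ (1 + α) * Ex Q D η Y := by
    refine hE0.trans (le_of_eq ?_)
    rw [hss', show (2 * ((2 * s : ℤ) : ℝ) / R) = 4 * ((s : ℝ) / R) by push_cast; ring,
      Real.mul_rpow (by norm_num) (by positivity)]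
    ring
  set p : ℝ := ((2 : ℝ) ^ i)⁻¹ with hp
  have hp0 : 0 < p := by positivity
  have hpp1 : p ≤ 1 := inv_le_one_of_one_le₀ (one_le_pow₀ (by norm_num))
  have hps : p * s = r := by
    rw [hp, hsr]
    field_simp
  have hexp : p ^ (1 + c) * ((s : ℝ) / R) ^ (1 + α) ≤ p ^ γ * ((r : ℝ) / R) ^ (1 + γ) := by
    calc p ^ (1 + c) * ((s : ℝ) / R) ^ (1 + α) ≤ p ^ (1 + γ + γ) * ((s : ℝ) / R) ^ (1 + γ) := by
          refine mul_le_mul (rpow_le_rpow_exp hp0 hpp1 (by linarith))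
            (rpow_le_rpow_exp (by positivity) hsR' (by linarith)) (by positivity) (by positivity)
      _ = p ^ γ * ((r : ℝ) / R) ^ (1 + γ) := by
          rw [Real.rpow_add hp0, mul_comm (p ^ (1 + γ)), mul_assoc,
            ← Real.mul_rpow hp0.le (by positivity), ← mul_div_assoc, hps]
  calc _ ≤ 4 * B * (C * 2 ^ (1 + c) + (2 * K) ^ (1 + c)) * p ^ (1 + c) *
        Ex Q D η (tm y r R Y (i + 1)) := main
    _ ≤ 4 * B * (C * 2 ^ (1 + c) + (2 * K) ^ (1 + c)) * p ^ (1 + c) *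
        (C3 * 4 ^ (1 + α) * ((s : ℝ) / R) ^ (1 + α) * Ex Q D η Y) :=
        mul_le_mul_of_nonneg_left hE (by positivity)
    _ = 4 * C3 * 4 ^ (1 + α) * (C * 2 ^ (1 + c) + (2 * K) ^ (1 + c)) * (B * Ex Q D η Y) *
        (p ^ (1 + c) * ((s : ℝ) / R) ^ (1 + α)) := by ring
    _ ≤ 4 * C3 * 4 ^ (1 + α) * (C * 2 ^ (1 + c) + (2 * K) ^ (1 + c)) * (B * Ex Q D η Y) *
        (p ^ γ * ((r : ℝ) / R) ^ (1 + γ)) := mul_le_mul_of_nonneg_left hexp (by positivity)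
    _ = _ := by ring

/-- The last term. -/
theorem last (H : CH Q D η D' η' y r R X Y N B) (P : Cst Q C3 α c C K) {γ : ℝ}
    (hγc : γ ≤ c) {J : ℕ} (hbig : 16 * K * r ≤ R) (hJ1 : 2 ^ J * r ≤ R / 2)
    (hJ2 : R ≤ 4 * (2 ^ J * r)) : |dlt Q D η N (Ex Q D' η' N) (gl y (2 ^ J * r) X)| ≤
      2 * C * 8 ^ (1 + c) * ((r : ℝ) / R) ^ (1 + γ) * (B * Ex Q D η Y) := by
  have hQ0 : 0 < Q := by linarith [P.hQ]
  have hB0 := H.B0 hQ0
  have hEY := H.EY hQ0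
  have hR0 := H.R0
  have hC := P.hC
  have hK := P.hK
  have hc := P.hc
  have hs1 := H.s1 J
  have hr := H.hr
  have hr1 : (1 : ℝ) ≤ r := by exact_mod_cast hr
  set s : ℤ := 2 ^ J * r with hs
  have hs0 : (0 : ℝ) < s := by exact_mod_cast (by omega : 0 < s)
  have hKs : K * (r + 1) ≤ s := by
    have h5 : K * (r + 1) ≤ 2 * (K * r) := by nlinarith
    have h6 : 16 * (K * r) ≤ R := by linarith
    omega
  have h1 := dlt_rel hQ0 P.hc P.hC P.hrel H.hη H.hF H.hη' H.hF' hr H.hN.loc hB0 (H.NB hQ0)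
    (ρ := s) hKs (by omega) (by omega) (Z := gl y s X) (gl_ind fun v hv => nm_of_HS hv)
  have h2 : Ex Q D η (fun ω => |gl y s X ω|) ≤ Ex Q D η Y := Ex_mono hQ0 fun S _ =>
    gl_abs H.hXY H.hY (by omega) _
  have h4 : (2 * (r : ℝ) / s) ^ (1 + c) ≤ 8 ^ (1 + c) * ((r : ℝ) / R) ^ (1 + γ) := by
    have h5 : 2 * (r : ℝ) / s ≤ 8 * ((r : ℝ) / R) := by
      have h6 : (R : ℝ) ≤ 4 * s := by exact_mod_cast hJ2
      rw [div_le_iff₀ hs0]
      have h7 : 8 * ((r : ℝ) / R) * s = 2 * r * (4 * s / R) := by field_simp; ring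
      rw [h7]
      have h8 : (1 : ℝ) ≤ 4 * (s : ℝ) / R := by rw [le_div_iff₀ hR0]; linarith
      nlinarith
    calc _ ≤ (8 * ((r : ℝ) / R)) ^ (1 + c) :=
          Real.rpow_le_rpow (by positivity) h5 (by linarith)
      _ = 8 ^ (1 + c) * ((r : ℝ) / R) ^ (1 + c) := Real.mul_rpow (by norm_num) H.rR0.le
      _ ≤ _ := mul_le_mul_of_nonneg_left (rpow_le_rpow_exp H.rR0 H.rR1 (by linarith))
          (by positivity)
  calc _ ≤ 2 * C * (2 * (r : ℝ) / s) ^ (1 + c) * B * Ex Q D η (fun ω => |gl y s X ω|) := h1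
    _ ≤ 2 * C * (8 ^ (1 + c) * ((r : ℝ) / R) ^ (1 + γ)) * B * Ex Q D η Y := by
        have := H.rR0
        refine mul_le_mul (mul_le_mul_of_nonneg_right (mul_le_mul_of_nonneg_left h4
          (by positivity)) hB0) h2 (Ex_nonneg hQ0 fun _ _ => abs_nonneg _) (by positivity)
    _ = _ := by ring

end CH

/-- **The core estimate.** -/
theorem core {C3 α c C : ℝ} {K : ℤ} (P : Cst Q C3 α c C K) :
    ∃ γ C' : ℝ, 0 < γ ∧ 0 < C' ∧ ∀ (D : Finset (ℤ × ℤ)) (η : Cfg) (D' : Finset (ℤ × ℤ)) (η' : Cfg)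
      (y : ℤ × ℤ) (r R : ℤ) (X Y N : Cfg → ℝ) (B : ℝ), CH Q D η D' η' y r R X Y N B →
      |Ex Q D η (fun ω => N ω * X ω) - Ex Q D' η' N * Ex Q D η X| ≤
        C' * ((r : ℝ) / R) ^ (1 + γ) * (B * Ex Q D η Y) := by
  have hQ0 : 0 < Q := by linarith [P.hQ]
  have hc := P.hc
  have hα := P.hα
  have hC := P.hC
  have hC3 := P.hC3
  set γ : ℝ := min c α / 2 with hγ
  have hγ0 : 0 < γ := by positivity
  have hγc : 2 * γ ≤ c := by rw [hγ]; linarith [min_le_left c α]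
  have hγα : 2 * γ ≤ α := by rw [hγ]; linarith [min_le_right c α]
  obtain ⟨Cg, hCg, hg⟩ := geom_neg γ hγ0
  have hKr : (1 : ℝ) ≤ K := by exact_mod_cast P.hK
  set A : ℝ := 4 * C3 * 4 ^ (1 + α) * (C * 2 ^ (1 + c) + (2 * K) ^ (1 + c)) with hA
  have hA0 : 0 < A := by positivity
  refine ⟨γ, 4 * (16 * K) ^ (1 + γ) + (4 * C3 * 2 ^ (1 + α) + A * Cg + 2 * C * 8 ^ (1 + c)), hγ0,
    by positivity, ?_⟩
  intro D η D' η' y r R X Y N B H
  have hB0 := H.B0 hQ0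
  have hEY := H.EY hQ0
  have hrR0 := H.rR0
  show |dlt Q D η N (Ex Q D' η' N) X| ≤ _
  set n := Ex Q D' η' N
  set T := ((r : ℝ) / R) ^ (1 + γ)
  have hT0 : 0 < T := by positivity
  have hTB : 0 ≤ T * (B * Ex Q D η Y) := by positivity
  have hC'' : (0 : ℝ) ≤ 4 * C3 * 2 ^ (1 + α) + A * Cg + 2 * C * 8 ^ (1 + c) := by positivity
  have hC1 : (0 : ℝ) ≤ 4 * (16 * K) ^ (1 + γ) := by positivity
  rcases lt_or_ge R (16 * K * r) with hsm | hbig
  · have h1 := H.few hQ0 P.hK hγ0 hsm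
    calc _ ≤ _ := h1
      _ = 4 * (16 * K) ^ (1 + γ) * (T * (B * Ex Q D η Y)) := by ring
      _ ≤ (4 * (16 * K) ^ (1 + γ) + (4 * C3 * 2 ^ (1 + α) + A * Cg + 2 * C * 8 ^ (1 + c))) *
          (T * (B * Ex Q D η Y)) := mul_le_mul_of_nonneg_right (by linarith) hTB
      _ = _ := by ring
  · obtain ⟨J, hJ1, hJ2⟩ := exists_J P.hK H.hr hbig
    have hr := H.hr
    have hsJ : ∀ i ≤ J, (2 : ℤ) ^ i * r ≤ 2 ^ J * r := fun i hi =>
      mul_le_mul_of_nonneg_right (pow_le_pow_right₀ (by norm_num) hi) (by omega)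
    have hsR : ∀ i ≤ J, (2 : ℤ) ^ i * r + 1 ≤ R := fun i hi => by
      have := hsJ i hi
      have := H.s1 J
      omega
    have b0 : |dlt Q D η N n (fun ω => X ω - gl y (2 ^ 0 * r) X ω)| ≤
        4 * C3 * 2 ^ (1 + α) * T * (B * Ex Q D η Y) := H.first P (γ := γ) (by linarith) (by
      have := hsR 0 (Nat.zero_le _)
      simpa using this)
    have bJ : |dlt Q D η N n (gl y (2 ^ J * r) X)| ≤
        2 * C * 8 ^ (1 + c) * T * (B * Ex Q D η Y) :=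
      H.last P (γ := γ) (by linarith) hbig hJ1 hJ2
    have chain : ∀ j ≤ J, |dlt Q D η N n (gl y (2 ^ 0 * r) X)| ≤
        ∑ i ∈ range j, A * T * (B * Ex Q D η Y) * ((2 : ℝ) ^ i)⁻¹ ^ γ +
          |dlt Q D η N n (gl y (2 ^ j * r) X)| := by
      intro j
      induction j with
      | zero => intro _; simp
      | succ j ih =>
        intro hj
        have h1 := ih (by omega)
        have h2 := H.term P hγ0 hγc (by linarith) (i := j) (hsR (j + 1) hj)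
        have h4 : |dlt Q D η N n (gl y (2 ^ j * r) X)| ≤
            |dlt Q D η N n (fun ω => gl y (2 ^ j * r) X ω - gl y (2 ^ (j + 1) * r) X ω)| +
            |dlt Q D η N n (gl y (2 ^ (j + 1) * r) X)| := by
          rw [dlt_sub (gl y (2 ^ j * r) X) (gl y (2 ^ (j + 1) * r) X)]
          exact abs_add_le _ _
        rw [Finset.sum_range_succ]
        linarith
    have hfin := chain J le_rfl
    rw [← Finset.mul_sum] at hfin
    have hsum := mul_le_mul_of_nonneg_left (hg J) (show 0 ≤ A * T * (B * Ex Q D η Y) by positivity)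
    have h5 : |dlt Q D η N n X| ≤ |dlt Q D η N n (fun ω => X ω - gl y (2 ^ 0 * r) X ω)| +
        |dlt Q D η N n (gl y (2 ^ 0 * r) X)| := by
      rw [dlt_sub X (gl y (2 ^ 0 * r) X)]
      exact abs_add_le _ _
    calc |dlt Q D η N n X| ≤ 4 * C3 * 2 ^ (1 + α) * T * (B * Ex Q D η Y) +
        (A * T * (B * Ex Q D η Y) * Cg + 2 * C * 8 ^ (1 + c) * T * (B * Ex Q D η Y)) :=
          h5.trans (add_le_add b0 (hfin.trans (add_le_add hsum bJ)))
      _ = (4 * C3 * 2 ^ (1 + α) + A * Cg + 2 * C * 8 ^ (1 + c)) * (T * (B * Ex Q D η Y)) := by ring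
      _ ≤ (4 * (16 * K) ^ (1 + γ) + (4 * C3 * 2 ^ (1 + α) + A * Cg + 2 * C * 8 ^ (1 + c))) *
          (T * (B * Ex Q D η Y)) := mul_le_mul_of_nonneg_right (by linarith) hTB
      _ = _ := by ring

end Vale.Agent.P167.H365.NQ
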