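import Vale.Agent.P167.H365.NFar3
import Vale.Agent.P167.H562.Q.CB3

/-!
# P167, general `q`, block Q-NRED: definitions

`w A`, `w' A` are arbitrary weights of the pieces `A` of `D` and `XW = ∏ w A`, `TW A = w' A * ∏ w B`
(`B ≠ A`). The functional is natural near the flat side: near pieces have `w A = 1` and
`w' A = tt t D p A` (three universal constants: loops, strands with the base point `p` on the right,
strands with `p` on the left); all the rest is arbitrary.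
-/

namespace Vale.Agent.P167.H365.NQ

open Finset Vale.Agent.P167.BR Vale.Agent.P167.FK Vale.Agent.P167.FKA
open Vale.Agent.P167.H562.QM (FltQ)
open Vale.Agent.P167.H166 (bxx mem_bxx)
open Vale.Agent.P167.H318 (st ex J St Lo CoConn)

/-- The product of the weights. -/
noncomputable def XW (D : Finset (ℤ × ℤ)) (w : Finset Ed → ℝ) (ω : Cfg) : ℝ := ∏ A ∈ pcs ω D, w A

/-- The term of the piece `A`. -/
noncomputable def TW (D : Finset (ℤ × ℤ)) (w w' : Finset Ed → ℝ) (ω : Cfg) (A : Finset Ed) : ℝ :=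
  w' A * ∏ B ∈ (pcs ω D).erase A, w B

/-- The derivative with respect to the charge at `z` (base point `p`). -/
noncomputable def XTW (D : Finset (ℤ × ℤ)) (p : ℤ × ℤ) (w w' : Finset Ed → ℝ) (z : ℤ × ℤ)
    (ω : Cfg) : ℝ := ∑ A ∈ pcs ω D, TW D w w' ω A * se D p A z

/-- The edge across the bottom side between the squares `(x, -1)` and `(x, 0)`. -/
def fe (x : ℤ) : Ed := Sum.inr (x, -1)

/-- The stagger observable at `x`: the derivative with respect to the boundary phases at `x`, with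
alternating sign. -/
noncomputable def SW (D : Finset (ℤ × ℤ)) (p : ℤ × ℤ) (w w' : Finset Ed → ℝ) (x : ℤ) (ω : Cfg) : ℝ :=
  TW D w w' ω (piece ω D (fe x)) * sgA D p (piece ω D (fe x))

open Classical in
/-- The derivative weights of the near pieces. -/
noncomputable def tt (t : Fin 3 → ℝ) (D : Finset (ℤ × ℤ)) (p : ℤ × ℤ) (A : Finset Ed) : ℝ :=
  if IsLp D A then t 0 else if sgA D p A = 1 then t 1 else t 2

/-- The local hypotheses at the flat free point `u` at scale `R`. -/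
structure EnvQ (Q : ℝ) (t : Fin 3 → ℝ) (K R : ℤ) (D : Finset (ℤ × ℤ)) (η : Cfg) (p : ℤ × ℤ)
    (w w' : Finset Ed → ℝ) (M : ℝ) (u : ℤ × ℤ) : Prop where
  one_le : 1 ≤ K
  R1 : 1 ≤ R
  good : Good η
  /-- Flat side, free. -/
  fl : FltQ D η u (8 * K * R) false false
  gf : ∀ (y : ℤ × ℤ) (s : ℤ), 1 ≤ s → s ≤ 2 * R → ∀ z ∈ sites D, K * s < nm (z - y) →
    K * s < nm (p - y) → Jn D (fun e => s < nm (hdv e - y)) z p
  hp : 8 * K * R < nm (p - u)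
  pot : HPot D
  /-- Near pieces have natural weights. -/
  near : ∀ ω : Cfg, ∀ A ∈ pcs ω D, ¬ FarA D u (2 * R) A → w A = 1 ∧ w' A = tt t D p A
  /-- The weights of the piece of the only crossing of a half annulus do not depend on the
  inside. -/
  cro : ∀ (y : ℤ × ℤ) (a m : ℤ), nm (y - u) ≤ R → y.2 = u.2 → a ≤ m → m ≤ R → ∀ ω ω' : Cfg,
    Agr D y a ω ω' → ¬ ThrS y a m ω → ∀ c, Cro ω y a m c →
      w (piece ω D c) = w (piece ω' D c) ∧ w' (piece ω D c) = w' (piece ω' D c)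
  /-- A majorant which does not depend on the box of radius `R` around `u`. -/
  Y : ∃ Y : Cfg → ℝ, Ind (bxx u R) Y ∧ (∀ ω, |XW D w ω| ≤ Y ω) ∧
    (∀ ω, ∀ A ∈ pcs ω D, VisI D u (2 * R) A → |TW D w w' ω A| ≤ Y ω) ∧ Ex Q D η Y ≤ M

/-- **Q-NRED** (bottom case, flat free side at height `0`, domain above). There are universal
constants `n x` (the same up to `ε k` for all `x`) and `c` such that the flux of every functional
which is natural near the side is `n x` times the mass plus `c` times the stagger. -/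
def NREDQ (Q : ℝ) (t : Fin 3 → ℝ) (K : ℤ) : Prop :=
  ∀ ε : ℝ, 0 < ε → ∃ κ : ℝ, ∃ k0 : ℕ, 0 < κ ∧ ∀ (R : ℤ) (k : ℕ), k0 ≤ k → (k : ℝ) ≤ κ * R →
  ∃ (n : ℤ → ℝ) (nb c : ℝ), (∀ x, |n x - nb| ≤ ε * k) ∧
  ∀ (D : Finset (ℤ × ℤ)) (η : Cfg) (p : ℤ × ℤ) (w w' : Finset Ed → ℝ) (M : ℝ), CoConn D →
  ∀ (a b : ℤ) (φ : ℤ → ℝ), a ≤ b → (∀ x ∈ Icc a b, EnvQ Q t K R D η p w w' M (x, 0)) →
  (∀ x, |φ x| ≤ 1) → (∀ x x' : ℤ, |φ x - φ x'| ≤ |(x : ℝ) - x'| / R) →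
  (∀ x, φ x ≠ 0 → a + R ≤ x ∧ x ≤ b - R) →
  |∑ x ∈ Icc a b, φ x * (Ex Q D η (XTW D p w w' (x, k)) - Ex Q D η (XTW D p w w' (x, 0)) -
      n x * Ex Q D η (XW D w) - c * Ex Q D η (SW D p w w' x))| ≤
    ε * k * ((M + 1) * (((b - a : ℤ) : ℝ) / R + 1))

/-! ### Input: universal displacement of the strand which lands in the window -/

/-- The weight of the landing edge. -/
def wf (ψ : ℤ → ℝ) : Ed → ℝ
  | Sum.inl _ => 0
  | Sum.inr v => if v.2 = -1 then ψ v.1 else 0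

/-- `E[J ψ k] = c E[ψ (foot)] + O(ε k)` with the same `c` for all the states `S`. -/
def SymQE (Q ε : ℝ) (K1 : ℤ) (k : ℕ) (w : ℤ) (c : ℝ) : Prop :=
  ∀ (u : ℤ) (S : St) (ψ : ℤ → ℝ), 1 ≤ k → K1 * k ≤ w → S.Ok → Good S.z →
  (∀ v, v ∈ S.F ↔ v ∈ Lo u (4 * w) (4 * w + 1)) →
  (∀ v : ℤ × ℤ, nm (v - (u, 0)) ≤ 4 * w → v.2 < 0 → v ∉ S.D ∧ S.z v = false) →
  (∀ x, u - 4 * w ≤ x → x ≤ u + 4 * w → S.e0 ≠ Sum.inr (x, -1)) →
  (∀ x, |ψ x| ≤ 1) → (∀ x x' : ℤ, |ψ x - ψ x'| ≤ |(x : ℝ) - x'| / w) →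
  (∀ x, ψ x ≠ 0 → u - w ≤ x ∧ x ≤ u + w) →
  |Ex Q S.F S.z (J S.D S.e0 ψ k) - c * Ex Q S.F S.z (fun ω => wf ψ (st S.e0 ω (ex S.D S.e0 ω)))| ≤
    ε * k

/-- **Q-NSYM.** -/
def SYMQ (Q : ℝ) : Prop := ∃ C : ℝ, ∀ ε : ℝ, 0 < ε → ∃ K1 : ℤ, ∀ (k : ℕ) (w : ℤ), 1 ≤ k →
  K1 * k ≤ w → ∃ c : ℝ, |c| ≤ C * k ∧ SymQE Q ε K1 k w c

end Vale.Agent.P167.H365.NQ
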