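import Vale.Agent.P167.H365.Q.Geo

/-!
# P167, general `q`, block Q-NRED: the functional and the crossings of half annuli (deterministic)
-/

namespace Vale.Agent.P167.H365.NQ

open Finset Vale.Agent.P167.BR Vale.Agent.P167.FK Vale.Agent.P167.FKA
open Vale.Agent.P167.H562.QM (FltQ)
open Vale.Agent.P167.H166 (bxx mem_bxx)

variable {D : Finset (ℤ × ℤ)} {y u p z1 z2 : ℤ × ℤ} {a r R K L m : ℤ} {ω ω' : Cfg} {A : Finset Ed}
  {w w' : Finset Ed → ℝ} {t : Fin 3 → ℝ}

/-- The weights are natural near the side, at the half annulus `(y; a, m)`. -/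
structure Nat1 (t : Fin 3 → ℝ) (D : Finset (ℤ × ℤ)) (p : ℤ × ℤ) (w w' : Finset Ed → ℝ) (y : ℤ × ℤ)
    (a m : ℤ) : Prop where
  hF : Fl D y (m + 1)
  am : a ≤ m
  near : ∀ ω : Cfg, ∀ A ∈ pcs ω D, ¬ FarA D y m A → w A = 1 ∧ w' A = tt t D p A
  cro : ∀ ω ω' : Cfg, Agr D y a ω ω' → ¬ ThrS y a m ω → ∀ c, Cro ω y a m c →
      w (piece ω D c) = w (piece ω' D c) ∧ w' (piece ω D c) = w' (piece ω' D c)

/-- Far from a point of the box `(u, R)` at scale `m ≤ R` if far from `u` at scale `2 R`. -/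
theorem farA_of (hy : nm (y - u) ≤ R) (hm : m ≤ R) (h : FarA D u (2 * R) A) : FarA D y m A := by
  obtain ⟨e, he, h⟩ := h
  refine ⟨e, he, ?_⟩
  rcases h with h | h
  · have := nm_tri (hdv e) y u
    exact Or.inl ⟨h.1, by omega⟩
  · have := nm_tri (tlv e) y u
    exact Or.inr ⟨h.1, by omega⟩

theorem EnvQ.nat1 {Q : ℝ} {η : Cfg} {M : ℝ} (E : EnvQ Q t K R D η p w w' M u)
    (hy : nm (y - u) ≤ R) (hy2 : y.2 = u.2) (ham : a ≤ m) (hm : m ≤ R) :
    Nat1 t D p w w' y a m where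
  hF := E.geo.fl' hy hy2 (by have := E.R1; omega)
  am := ham
  near := fun ω A hA h => E.near ω A hA fun h' => h (farA_of hy hm h')
  cro := fun ω ω' h1 h2 c hc => E.cro y a m hy hy2 ham hm ω ω' h1 h2 c hc

/-- The product of the weights of the pieces which do not visit the inside. -/
noncomputable def PW (D : Finset (ℤ × ℤ)) (y : ℤ × ℤ) (a : ℤ) (w : Finset Ed → ℝ) (ω : Cfg) : ℝ :=
  ∏ A ∈ Ou D y a ω, w A

theorem PW_eq (h : Agr D y a ω ω') : PW D y a w ω = PW D y a w ω' := by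
  unfold PW; rw [Ou_eq h]

theorem XW_split : XW D w ω = PW D y a w ω * ∏ A ∈ In D y a ω, w A := by
  classical
  unfold XW PW Ou In
  rw [mul_comm, Finset.prod_filter_mul_prod_filter_not]

theorem XW_no_cro (N : Nat1 t D p w w' y a m) (h2 : ¬ TwoS y a m ω) :
    XW D w ω = PW D y a w ω := by
  classical
  rw [XW_split (a := a) (y := y), Finset.prod_eq_one, mul_one]
  intro A hA
  unfold In at hA
  rw [mem_filter] at hA
  refine (N.near ω A hA.1 fun hf => ?_).1
  obtain ⟨c, -, hc⟩ := exists_cro N.hF N.am hA.1 hA.2 hf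
  exact h2 ⟨c, hc⟩

theorem XW_one_cro (N : Nat1 t D p w w' y a m) (h3 : ¬ ThrS y a m ω) {c : Ed}
    (hc : Cro ω y a m c) : XW D w ω = PW D y a w ω * w (piece ω D c) := by
  classical
  have hcD := cro_mem_eds N.hF N.am hc
  have hA : piece ω D c ∈ pcs ω D := piece_mem_pcs hcD
  have h1 : piece ω D c ∈ In D y a ω := by
    unfold In
    rw [mem_filter]
    exact ⟨hA, (cro_vis N.hF N.am hc).1⟩
  rw [XW_split (a := a) (y := y), ← Finset.mul_prod_erase _ _ h1, Finset.prod_eq_one, mul_one]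
  intro A hA'
  rw [mem_erase] at hA'
  have hA2 := hA'.2
  unfold In at hA2
  rw [mem_filter] at hA2
  exact (N.near ω A hA2.1 fun hf => hA'.1 (far_unique N.hF N.am h3 hc hA2.1 hA2.2 hf)).1

theorem XW_agr (N : Nat1 t D p w w' y a m) (hag : Agr D y a ω ω') (h3 : ¬ ThrS y a m ω) :
    XW D w ω = XW D w ω' := by
  have hh := hag.hA N.hF
  by_cases h2 : TwoS y a m ω
  · obtain ⟨c, hc⟩ := h2
    rw [XW_one_cro N h3 hc, XW_one_cro N (by rwa [← thrS_congr hh])
      ((cro_congr hh).1 hc), PW_eq hag, (N.cro ω ω' hag h3 c hc).1]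
  · rw [XW_no_cro N h2, XW_no_cro N (by rwa [← twoS_congr hh]), PW_eq hag]

/-- **The functional does not depend on the inside if there is at most one crossing.** -/
theorem EnvQ.oneCr {Q : ℝ} {η : Cfg} {M : ℝ} (E : EnvQ Q t K R D η p w w' M u)
    (hy : nm (y - u) ≤ R) (hy2 : y.2 = u.2) (hL : L ≤ R) : OneCr D y L (XW D w) :=
  fun _ _ _ _ _ ham hmL hag h3 => XW_agr (E.nat1 hy hy2 ham (hmL.trans hL)) hag h3

theorem TW_near (N : Nat1 t D p w w' y a m) (hA : A ∈ pcs ω D) (h : ¬ FarA D y m A) :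
    TW D w w' ω A = tt t D p A * XW D w ω := by
  classical
  obtain ⟨h1, h2⟩ := N.near ω A hA h
  unfold TW XW
  rw [h2, ← Finset.mul_prod_erase _ _ hA, h1, one_mul]

theorem TW_cro (N : Nat1 t D p w w' y a m) (h3 : ¬ ThrS y a m ω) {c : Ed}
    (hc : Cro ω y a m c) : TW D w w' ω (piece ω D c) = w' (piece ω D c) * PW D y a w ω := by
  classical
  have hv := (cro_vis N.hF N.am hc).1
  unfold TW PW
  congr 1
  have h1 : Ou D y a ω ⊆ (pcs ω D).erase (piece ω D c) := by
    intro B hB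
    unfold Ou at hB
    rw [mem_filter] at hB
    rw [mem_erase]
    exact ⟨fun h => hB.2 (h ▸ hv), hB.1⟩
  rw [← Finset.prod_subset h1]
  intro B hB hBo
  rw [mem_erase] at hB
  have hBv : VisI D y a B := by
    by_contra hcon
    exact hBo (by unfold Ou; rw [mem_filter]; exact ⟨hB.2, hcon⟩)
  exact (N.near ω B hB.2 fun hf => hB.1 (far_unique N.hF N.am h3 hc hB.2 hBv hf)).1

theorem TW_cro_agr (N : Nat1 t D p w w' y a m) (hag : Agr D y a ω ω') (h3 : ¬ ThrS y a m ω) {c : Ed}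
    (hc : Cro ω y a m c) : TW D w w' ω (piece ω D c) = TW D w w' ω' (piece ω' D c) := by
  have hh := hag.hA N.hF
  rw [TW_cro N h3 hc, TW_cro N (by rwa [← thrS_congr hh]) ((cro_congr hh).1 hc), PW_eq hag,
    (N.cro ω ω' hag h3 c hc).2]

/-! ### Observables -/

/-- The observable with the weights `g`. -/
noncomputable def OB (D : Finset (ℤ × ℤ)) (w w' g : Finset Ed → ℝ) (ω : Cfg) : ℝ :=
  ∑ A ∈ pcs ω D, TW D w w' ω A * g A

open Classical in
/-- The natural sum over the pieces of the class `P`. -/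
noncomputable def SP (t : Fin 3 → ℝ) (D : Finset (ℤ × ℤ)) (p : ℤ × ℤ) (P : Finset Ed → Prop)
    (g : Finset Ed → ℝ) (ω : Cfg) : ℝ := ∑ A ∈ (pcs ω D).filter P, tt t D p A * g A

open Classical in
/-- The far part of the observable. -/
noncomputable def OF (D : Finset (ℤ × ℤ)) (u : ℤ × ℤ) (m : ℤ) (w w' g : Finset Ed → ℝ) (ω : Cfg) :
    ℝ := ∑ A ∈ (pcs ω D).filter fun A => FarA D u m A, TW D w w' ω A * g A

/-- **Decomposition.** -/
theorem OB_split (N : Nat1 t D p w w' y a m) (g : Finset Ed → ℝ) :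
    OB D w w' g ω = XW D w ω * SP t D p (Nr D y m) g ω + OF D y m w w' g ω := by
  classical
  unfold OB SP OF
  rw [← Finset.sum_filter_add_sum_filter_not (pcs ω D) (fun A => FarA D y m A), add_comm,
    Finset.mul_sum]
  congr 1
  have e : (pcs ω D).filter (fun A => ¬ FarA D y m A) = (pcs ω D).filter (Nr D y m) := by
    congr!
  rw [e]
  refine Finset.sum_congr rfl fun A hA => ?_
  rw [mem_filter] at hA
  rw [TW_near N hA.1 hA.2]
  ring

theorem XTW_sub : XTW D p w w' z1 ω - XTW D p w w' z2 ω = OB D w w' (dl D p z1 z2) ω := by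
  unfold XTW OB dl
  rw [← Finset.sum_sub_distrib]
  exact Finset.sum_congr rfl fun A _ => by ring

open Classical in
/-- The observable of the stagger. -/
noncomputable def sx (D : Finset (ℤ × ℤ)) (p : ℤ × ℤ) (x : ℤ) (A : Finset Ed) : ℝ :=
  if fe x ∈ A then sgA D p A else 0

theorem SW_eq {x : ℤ} (hx : fe x ∈ eds D) : SW D p w w' x ω = OB D w w' (sx D p x) ω := by
  classical
  have hA : piece ω D (fe x) ∈ pcs ω D := piece_mem_pcs hx
  have hs := self_mem_piece (ω := ω) hx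
  unfold SW OB
  rw [Finset.sum_eq_single_of_mem _ hA]
  · unfold sx
    rw [if_pos hs]
  · intro B hB hne
    unfold sx
    rw [if_neg fun h => hne (eq_of_mem_pcs hB hA h hs), mul_zero]

theorem OB_lin (g g' : Finset Ed → ℝ) (c : ℝ) :
    OB D w w' (fun A => g A - c * g' A) ω = OB D w w' g ω - c * OB D w w' g' ω := by
  unfold OB
  rw [Finset.mul_sum, ← Finset.sum_sub_distrib]
  exact Finset.sum_congr rfl fun A _ => by ring

theorem abs_tt (t : Fin 3 → ℝ) (D : Finset (ℤ × ℤ)) (p : ℤ × ℤ) (A : Finset Ed) :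
    |tt t D p A| ≤ |t 0| + |t 1| + |t 2| := by
  unfold tt
  have h0 := abs_nonneg (t 0)
  have h1 := abs_nonneg (t 1)
  have h2 := abs_nonneg (t 2)
  split_ifs <;> linarith

/-! ### Majorant -/

theorem EnvQ.M0 {Q : ℝ} (hQ : 0 < Q) {η : Cfg} {M : ℝ} (E : EnvQ Q t K R D η p w w' M u) :
    0 ≤ M := by
  obtain ⟨Y, -, h3, -, h5⟩ := E.Y
  exact (Ex_nonneg hQ fun _ _ => (abs_nonneg _).trans (h3 _)).trans h5

end Vale.Agent.P167.H365.NQ
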