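import Vale.Agent.P167.H365.Q.NearD

/-!
# P167, general `q`, block Q-NRED: the far part of a cell (deterministic part)
-/

namespace Vale.Agent.P167.H365.NQ

open Finset Vale.Agent.P167.BR Vale.Agent.P167.FK Vale.Agent.P167.FKA
open Vale.Agent.P167.H318 (st ex hit wt J St Lo CoConn)

variable {D : Finset (ℤ × ℤ)} {p u x y : ℤ × ℤ} {a m R r K W : ℤ} {ω ω' : Cfg}
  {w w' : Finset Ed → ℝ} {t : Fin 3 → ℝ} {A : Finset Ed} {ψ : ℤ → ℝ} {k : ℕ} {e0 c0 : Ed}

/-- The sum of the foot weights over a set of edges. -/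
noncomputable def Wf (ψ : ℤ → ℝ) (A : Finset Ed) : ℝ := ∑ e ∈ A, wf ψ e

open Classical in
theorem sum_fe {X : Finset ℤ} (hX : ∀ x, ψ x ≠ 0 → x ∈ X) (A : Finset Ed) :
    ∑ x ∈ X, ψ x * (if fe x ∈ A then (1 : ℝ) else 0) = Wf ψ A := by
  unfold Wf
  have h1 : ∑ x ∈ X, ψ x * (if fe x ∈ A then (1 : ℝ) else 0) =
      ∑ x ∈ X.filter (fun x => fe x ∈ A), wf ψ (fe x) := by
    rw [Finset.sum_filter]
    refine Finset.sum_congr rfl fun x _ => ?_
    by_cases h : fe x ∈ A
    · rw [if_pos h, if_pos h]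
      simp [fe, wf]
    · rw [if_neg h, if_neg h, mul_zero]
  have hinj : Function.Injective fe := fun a b h => by
    unfold fe at h
    simpa using h
  rw [h1, ← Finset.sum_image (f := wf ψ) (g := fe) fun a _ b _ h => hinj h]
  refine Finset.sum_subset ?_ ?_
  · intro e he
    rw [mem_image] at he
    obtain ⟨x, hx, rfl⟩ := he
    exact (mem_filter.1 hx).2
  · intro e he hne
    rcases e with v | v
    · rfl
    · show (if v.2 = -1 then ψ v.1 else 0) = 0
      by_cases h2 : v.2 = -1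
      · rw [if_pos h2]
        by_contra h3
        apply hne
        rw [mem_image]
        have e1 : fe v.1 = Sum.inr v := by
          unfold fe
          rw [← h2]
        exact ⟨v.1, mem_filter.2 ⟨hX _ h3, by rw [e1]; exact he⟩, e1⟩
      · rw [if_neg h2]

/-- The parameters of a cell. -/
structure CQ (t : Fin 3 → ℝ) (K R : ℤ) (D : Finset (ℤ × ℤ)) (p : ℤ × ℤ) (w w' : Finset Ed → ℝ)
    (u : ℤ × ℤ) (k : ℕ) (W a m : ℤ) : Prop where
  geo : Geo K R D p u
  nat : Nat1 t D p w w' u a m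
  u2 : u.2 = 0
  k1 : 1 ≤ k
  wk : W + k + 1 ≤ a
  w0 : 0 ≤ W
  mR : m + 1 ≤ R

theorem OF_no_cro (N : Nat1 t D p w w' u a m) (h2 : ¬ TwoS u a m ω) {g : Finset Ed → ℝ}
    (hg : ∀ A ∈ pcs ω D, g A ≠ 0 → VisI D u a A) : OF D u m w w' g ω = 0 := by
  classical
  unfold OF
  refine Finset.sum_eq_zero fun A hA => ?_
  rw [mem_filter] at hA
  by_cases h : g A = 0
  · rw [h, mul_zero]
  · exfalso
    obtain ⟨c, -, hc⟩ := exists_cro N.hF N.am hA.1 (hg A hA.1 h) hA.2
    exact h2 ⟨c, hc⟩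

theorem OF_cro (N : Nat1 t D p w w' u a m) (h3 : ¬ ThrS u a m ω) {c : Ed}
    (hc : Cro ω u a m c) {g : Finset Ed → ℝ} (hg : ∀ A ∈ pcs ω D, g A ≠ 0 → VisI D u a A) :
    OF D u m w w' g ω = TW D w w' ω (piece ω D c) * g (piece ω D c) := by
  classical
  have hcD := cro_mem_eds N.hF N.am hc
  have hA : piece ω D c ∈ pcs ω D := piece_mem_pcs hcD
  unfold OF
  refine Finset.sum_eq_single (piece ω D c) ?_ ?_
  · intro A hA' hne
    rw [mem_filter] at hA'
    by_cases h : g A = 0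
    · rw [h, mul_zero]
    · exact absurd (far_unique N.hF N.am h3 hc hA'.1 (hg A hA'.1 h) hA'.2) hne
  · intro h
    exact absurd (mem_filter.2 ⟨hA, (cro_vis N.hF N.am hc).2⟩) h

namespace CQ

theorem fl (C : CQ t K R D p w w' u k W a m) (hr : r ≤ 7 * R) : Fl D u r :=
  C.geo.fl' (by rw [nm_self]; have := C.geo.R1; omega) rfl hr

theorem mem (C : CQ t K R D p w w' u k W a m) {v : ℤ × ℤ} (h1 : nm (v - u) ≤ a) (h2 : 0 ≤ v.2) :
    v ∈ D := (C.fl (r := a) (by have := C.mR; have := C.nat.am; have := C.geo.R1; omega) v h1).2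
      (by rw [C.u2]; exact h2)

/-- A piece which is seen at `x` visits the inside. -/
theorem vis (C : CQ t K R D p w w' u k W a m) {x : ℤ} (hx : |x - u.1| ≤ W)
    (h : dl D p (x, 0 + (k : ℤ)) (x, 0) A ≠ 0) : VisI D u a A ∧ VisI D (x, 0) (k + 1) A := by
  have hk := C.k1
  have h0 := C.wk
  have hu2 := C.u2
  have hmR := C.mR
  have ham := C.nat.am
  have hR := C.geo.R1
  have hw0 := C.w0
  have hxu : nm (((x, 0) : ℤ × ℤ) - u) ≤ W := by
    rw [nm_le']
    simp only [Prod.fst_sub, Prod.snd_sub, hu2]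
    rw [abs_le] at hx
    omega
  have hFx : Fl D (x, 0) (k + 1) := C.geo.fl' (by omega) hu2.symm (by omega)
  have h1 := dl_vis (y0 := 0) C.k1 hFx h
  refine ⟨?_, h1⟩
  obtain ⟨e, he, hd, h2⟩ := h1
  refine ⟨e, he, hd, ?_⟩
  have := nm_tri (hdv e) (x, 0) u
  omega

theorem mem_x (C : CQ t K R D p w w' u k W a m) {x : ℤ} (hx : |x - u.1| ≤ W) {j : ℤ} (hj : 0 ≤ j)
    (hjk : j ≤ k) : (x, j) ∈ D := C.mem (by
    have := C.wk
    have := C.u2
    rw [nm_le']
    simp only [Prod.fst_sub, Prod.snd_sub]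
    rw [abs_le] at hx
    omega) (by simp only; omega)

theorem vis_sx (C : CQ t K R D p w w' u k W a m) (hA : A ∈ pcs ω D) {x : ℤ} (hx : |x - u.1| ≤ W)
    (h : sx D p x A ≠ 0) : VisI D u a A ∧ VisI D (x, 0) 1 A := by
  have h1 := sx_vis hA (C.mem_x hx le_rfl (by omega)) h
  refine ⟨?_, h1⟩
  obtain ⟨e, he, hd, h2⟩ := h1
  refine ⟨e, he, hd, ?_⟩
  have h3 := nm_tri (hdv e) (x, 0) u
  have hxu : nm (((x, 0) : ℤ × ℤ) - u) ≤ W := by
    rw [nm_le']
    simp only [Prod.fst_sub, Prod.snd_sub, C.u2]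
    have := C.w0
    rw [abs_le] at hx
    omega
  have := C.wk
  omega

/-- The value of the flux on the piece of a crossing. -/
theorem dl_cro (C : CQ t K R D p w w' u k W a m) {c : Ed} (hc : Cro ω u a m c) {x : ℤ}
    (hx : |x - u.1| ≤ W) : dl D p (x, 0 + (k : ℤ)) (x, 0) (piece ω D c) =
      sgA D p (piece ω D c) * (Jx (piece ω D c) x 0 k : ℝ) := by
  classical
  have hcD := cro_mem_eds C.nat.hF C.nat.am hc
  have hA : piece ω D c ∈ pcs ω D := piece_mem_pcs hcD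
  have hcA := self_mem_piece (ω := ω) hcD
  obtain ⟨v, hv⟩ := C.geo.pot ω _ hA
  have hxs : ∀ j : ℤ, 0 ≤ j → j ≤ k → (x, 0 + j) ∈ D := fun j hj1 hj2 => by
    rw [zero_add]
    exact C.mem_x hx hj1 hj2
  have hps : Jt D p (rs c) := Jn.symm (C.geo.jt _ (rs_mem_sites hcD))
  have hz1 : Jt D (x, 0 + (k : ℤ)) (rs c) := Jn.trans (C.geo.jt _ (mem_sites_self
    (hxs k (by omega) le_rfl))) hps
  have hz2 : Jt D (x, 0) (rs c) := Jn.trans (C.geo.jt _ (mem_sites_self (by
    have := hxs 0 le_rfl (by omega)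
    simpa using this))) hps
  have hpu : v (x, 0 + (k : ℤ)) - v (x, 0) = Jx (piece ω D c) x 0 k := by
    refine pot_up hv k fun j hj => ?_
    rw [mem_eds_inl]
    refine Or.inr ?_
    rw [sub_add_cancel]
    exact hxs j (by omega) (by omega)
  rw [dl_eq hA hv hcA hps hz1 hz2, sgA_eq hA hcA, hpu]

/-- The observable of a cell. -/
noncomputable def gx (D : Finset (ℤ × ℤ)) (p : ℤ × ℤ) (k : ℕ) (c : ℝ) (ψ : ℤ → ℝ) (X : Finset ℤ)
    (A : Finset Ed) : ℝ :=
  ∑ x ∈ X, ψ x * (dl D p (x, 0 + (k : ℤ)) (x, 0) A - c * sx D p x A)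

theorem gx_vis (C : CQ t K R D p w w' u k W a m) (hψ : ∀ x, ψ x ≠ 0 → |x - u.1| ≤ W) {c : ℝ}
    {X : Finset ℤ} (hA : A ∈ pcs ω D) (h : gx D p k c ψ X A ≠ 0) : VisI D u a A := by
  obtain ⟨x, -, hx⟩ := Finset.exists_ne_zero_of_sum_ne_zero h
  have h1 : ψ x ≠ 0 := left_ne_zero_of_mul hx
  have h2 := right_ne_zero_of_mul hx
  by_cases h3 : dl D p (x, 0 + (k : ℤ)) (x, 0) A = 0
  · refine (C.vis_sx hA (hψ x h1) fun h4 => h2 ?_).1
    rw [h3, h4, mul_zero, sub_zero]
  · exact (C.vis (hψ x h1) h3).1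

theorem gx_cro (C : CQ t K R D p w w' u k W a m) {c : Ed} (hc : Cro ω u a m c) {cc : ℝ}
    {X : Finset ℤ} (hX : ∀ x, ψ x ≠ 0 → x ∈ X) (hψ : ∀ x, ψ x ≠ 0 → |x - u.1| ≤ W) :
    gx D p k cc ψ X (piece ω D c) = sgA D p (piece ω D c) *
      (Wt ψ k (piece ω D c) - cc * Wf ψ (piece ω D c)) := by
  classical
  rw [← sum_Jx hX, ← sum_fe hX, Finset.mul_sum, ← Finset.sum_sub_distrib, Finset.mul_sum]
  refine Finset.sum_congr rfl fun x _ => ?_
  by_cases h : ψ x = 0
  · rw [h]; ring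
  · rw [C.dl_cro hc (hψ x h)]
    unfold sx
    split_ifs
    · ring
    · ring

/-- A far edge of the piece of a crossing, with a right site joined to `p`. -/
theorem far_edge (C : CQ t K R D p w w' u k W a m) {c : Ed} (hc : Cro ω u a m c) :
    ∃ e, FarE D u m e ∧ Jn D (FarE D u m) p (rs e) ∧
      ∀ ω', (∀ v ∈ hA u a m, ω v = ω' v) → e ∈ piece ω' D c := by
  have hmR := C.mR
  have ham := C.nat.am
  have hR := C.geo.R1
  have hw0 := C.w0
  have h0 := C.wk
  have hcD := cro_mem_eds C.nat.hF C.nat.am hc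
  rcases hc with hc | hc
  · obtain ⟨l, hl, h1, h2, h3, h4, h5⟩ := croI_data C.nat.hF C.nat.am hc
    refine ⟨(nx ω)^[l] c, Or.inl ⟨h4, h5⟩, Jn.symm ?_, fun ω' h => ?_⟩
    · refine C.geo.jn_ring (by omega) hmR h4 h5 ?_ (corner_hd _).2.2.1 (corner_hd _).2.2.2
      have h6 := h1.2 (l - 1) (by omega)
      rw [mem_hA] at h6
      have h7 := (nm_nx ω u ((nx ω)^[l - 1] c)).1
      rw [← Function.iterate_succ_apply' (nx ω), show (l - 1).succ = l by omega] at h7
      omega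
    · have h6 := run_congr h h1
      exact (mem_of_run (piece_mem_pcs hcD) (run_mono (hA_sub C.nat.hF) h6)).1 (self_mem_piece hcD)
  · obtain ⟨l, hl, h1, h2, h3, h4, h5⟩ := croO_data C.nat.hF C.nat.am hc
    refine ⟨c, Or.inr ⟨h2, h3⟩, Jn.symm ?_, fun ω' h => self_mem_piece hcD⟩
    refine C.geo.jn_ring (by omega) hmR h2 h3 ?_ (corner_tl _).2.2.1 (corner_tl _).2.2.2
    have h6 := h1.2 0 (by omega)
    simp only [Function.iterate_zero, id_eq] at h6
    rw [mem_hA] at h6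
    have h7 := (nm_hdv_tlv u c).2
    omega

/-- **The term of the strand does not depend on the inside.** -/
theorem G_inv (C : CQ t K R D p w w' u k W a m) (hag : Agr D u a ω ω') (h3 : ¬ ThrS u a m ω)
    {c : Ed} (hc : Cro ω u a m c) :
    TW D w w' ω (piece ω D c) * sgA D p (piece ω D c) =
      TW D w w' ω' (piece ω' D c) * sgA D p (piece ω' D c) := by
  have hh := hag.hA C.nat.hF
  have hc' := (cro_congr hh).1 hc
  have hcD := cro_mem_eds C.nat.hF C.nat.am hc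
  have hA : piece ω D c ∈ pcs ω D := piece_mem_pcs hcD
  have hA' : piece ω' D c ∈ pcs ω' D := piece_mem_pcs hcD
  have h1 := TW_cro_agr C.nat hag h3 hc
  obtain ⟨e, he1, he2, he3⟩ := C.far_edge hc
  have h2 : sgA D p (piece ω D c) = sgA D p (piece ω' D c) := by
    rw [sgA_eq hA (he3 ω fun _ _ => rfl), sgA_eq hA' (he3 ω' hh)]
    exact sgn_eq (C.geo.pot _ _ hA) (C.geo.pot _ _ hA')
      (fun e he => far_mem_iff C.nat.hF C.nat.am hag h3 hc he) he2
  rw [h1, h2]

/-- The run from the entrance to the crossing avoids the inside. -/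
theorem ent_all (C : CQ t K R D p w w' u k W a m) (h3 : ¬ ThrS u a m ω)
    {c : Ed} (hc : CroO ω u a m c) (he : e0 ∈ piece ω D c) (ht : tlv e0 ∉ D) :
    ∃ l, 1 ≤ l ∧ Run ω D e0 l c ∧ ∀ j < l, a ≤ nm (hdv ((nx ω)^[j] e0) - u) := by
  have hcD := cro_mem_eds C.nat.hF C.nat.am (Or.inr hc)
  have hA : piece ω D c ∈ pcs ω D := piece_mem_pcs hcD
  obtain ⟨l0, hl0, h1, h2, h4, -, -⟩ := croO_data C.nat.hF C.nat.am hc
  obtain ⟨l, hl | hl⟩ := run_of_mem hA he (self_mem_piece hcD)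
  · refine ⟨l, ?_, hl, ?_⟩
    · rcases Nat.eq_zero_or_pos l with h | h
      · subst h
        exact absurd h2 (by rw [← hl.1]; exact ht)
      · exact h
    by_contra hcon
    push Not at hcon
    obtain ⟨j, hj, hja⟩ := hcon
    have e1 : hdv ((nx ω)^[l - 1] e0) = tlv c := by
      rw [← hl.1]
      obtain ⟨n, rfl⟩ : ∃ n, l = n + 1 := ⟨l - 1, by omega⟩
      rw [Function.iterate_succ_apply', tlv_nx]
      simp
    have hjk : j ≤ l - 1 := by omega
    obtain ⟨i, hi, hci⟩ := croI_of_run (ω := ω) (e := (nx ω)^[j] e0) (k := l - 1 - j) C.nat.hF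
      C.nat.am
      (fun n hn => by
        rw [← Function.iterate_add_apply]
        exact hl.2 _ (by omega)) hja (by
        rw [← Function.iterate_add_apply, Nat.sub_add_cancel hjk, e1]
        exact h4)
    exact h3 ⟨_, _, croI_ne_croO C.nat.am hci hc, Or.inl hci, Or.inr hc⟩
  · exfalso
    rcases Nat.eq_zero_or_pos l with h | h
    · subst h
      apply ht
      rw [← hl.1]
      exact h2
    · apply ht
      obtain ⟨n, rfl⟩ : ∃ n, l = n + 1 := ⟨l - 1, by omega⟩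
      rw [← hl.1, Function.iterate_succ_apply', tlv_nx]
      exact hl.2 n (by omega)

/-- The entrance of the strand does not depend on the inside. -/
theorem ent_inv (C : CQ t K R D p w w' u k W a m) (hag : Agr D u a ω ω') (h3 : ¬ ThrS u a m ω)
    {c : Ed} (hc : CroO ω u a m c) (he : e0 ∈ piece ω D c) (ht : tlv e0 ∉ D) :
    e0 ∈ piece ω' D c := by
  have hcD := cro_mem_eds C.nat.hF C.nat.am (Or.inr hc)
  obtain ⟨l, -, hl, hall⟩ := C.ent_all h3 hc he ht
  exact (mem_of_run (piece_mem_pcs hcD) (run_agr hag hl hall)).2 (self_mem_piece hcD)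

theorem ent_far (C : CQ t K R D p w w' u k W a m) (h3 : ¬ ThrS u a m ω)
    {c : Ed} (hc : CroO ω u a m c) (he : e0 ∈ piece ω D c) (ht : tlv e0 ∉ D) :
    a ≤ nm (hdv e0 - u) := by
  obtain ⟨l, hl1, -, hall⟩ := C.ent_all h3 hc he ht
  exact hall 0 hl1

/-- The run from the crossing to the exit avoids the inside. -/
theorem ex_all (C : CQ t K R D p w w' u k W a m) (h3 : ¬ ThrS u a m ω)
    {c : Ed} (hc : CroI ω u a m c) (he : e0 ∈ piece ω D c) (ht : hdv e0 ∉ D) :
    ∃ l, 1 ≤ l ∧ Run ω D c l e0 ∧ ∀ j < l, a ≤ nm (hdv ((nx ω)^[j] c) - u) := by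
  have hcD := cro_mem_eds C.nat.hF C.nat.am (Or.inl hc)
  have hA : piece ω D c ∈ pcs ω D := piece_mem_pcs hcD
  obtain ⟨l0, hl0, h1, h2, h4, h5, h6⟩ := croI_data C.nat.hF C.nat.am hc
  have h8 := h1.2 0 (by omega)
  simp only [Function.iterate_zero, id_eq] at h8
  obtain ⟨l, hl | hl⟩ := run_of_mem hA (self_mem_piece hcD) he
  · refine ⟨l, ?_, hl, ?_⟩
    · rcases Nat.eq_zero_or_pos l with h | h
      · subst h
        have h7 : c = e0 := hl.1
        exact absurd (hA_sub C.nat.hF h8) (by rw [h7]; exact ht)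
      · exact h
    by_contra hcon
    push Not at hcon
    obtain ⟨j, hj, hja⟩ := hcon
    have hk'j : l0 < j := by
      by_contra hlt
      push Not at hlt
      rcases hlt.lt_or_eq with h | h
      · have := (mem_hA.1 (h1.2 j h)).2.1
        omega
      · rw [h] at hja
        have := C.nat.am
        omega
    obtain ⟨i, hi, hci⟩ := croO_of_run (ω := ω) (e := (nx ω)^[l0] c) (k := j - l0) C.nat.hF
      C.nat.am
      (fun n hn => by
        rw [← Function.iterate_add_apply]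
        exact hl.2 _ (by omega)) h6 (by
        rw [← Function.iterate_add_apply, Nat.sub_add_cancel (by omega)]
        exact hja)
    exact h3 ⟨_, _, croI_ne_croO C.nat.am hc hci, Or.inl hc, Or.inr hci⟩
  · exfalso
    rcases Nat.eq_zero_or_pos l with h | h
    · subst h
      have h7 : e0 = c := hl.1
      exact ht (by rw [h7]; exact hA_sub C.nat.hF h8)
    · exact ht (hl.2 0 h)

/-- The exit of the strand does not depend on the inside. -/
theorem ex_inv (C : CQ t K R D p w w' u k W a m) (hag : Agr D u a ω ω') (h3 : ¬ ThrS u a m ω)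
    {c : Ed} (hc : CroI ω u a m c) (he : e0 ∈ piece ω D c) (ht : hdv e0 ∉ D) :
    e0 ∈ piece ω' D c := by
  have hcD := cro_mem_eds C.nat.hF C.nat.am (Or.inl hc)
  obtain ⟨l, -, hl, hall⟩ := C.ex_all h3 hc he ht
  exact (mem_of_run (piece_mem_pcs hcD) (run_agr hag hl hall)).1 (self_mem_piece hcD)

theorem ex_far (C : CQ t K R D p w w' u k W a m) (h3 : ¬ ThrS u a m ω)
    {c : Ed} (hc : CroI ω u a m c) (he : e0 ∈ piece ω D c) (ht : hdv e0 ∉ D) :
    a ≤ nm (tlv e0 - u) := by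
  obtain ⟨l, hl1, hl, hall⟩ := C.ex_all h3 hc he ht
  have h1 := hall (l - 1) (by omega)
  obtain ⟨n, rfl⟩ : ∃ n, l = n + 1 := ⟨l - 1, by omega⟩
  rw [← hl.1, Function.iterate_succ_apply', tlv_nx]
  simpa using h1

/-- The piece of the crossing is a strand. -/
theorem strand (C : CQ t K R D p w w' u k W a m) (h3 : ¬ ThrS u a m ω) {c : Ed}
    (hc : Cro ω u a m c) : ¬ IsLp D (piece ω D c) := cro_strand C.nat.hF C.nat.am h3 hc

end CQ

end Vale.Agent.P167.H365.NQ
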