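import Vale.Agent.P167.H365.Q.FarA
import Vale.Agent.P167.H259.FKMark

/-!
# P167, general `q`, block Q-NRED: the far part, one crossing
-/

namespace Vale.Agent.P167.H365.NQ

open Finset Vale.Agent.P167.BR Vale.Agent.P167.FK Vale.Agent.P167.FKA
open Vale.Agent.P167.H318 (st ex hit wt J St Lo CoConn)
open Vale.Agent.P167.H562.QM (FltQ)
open Vale.Agent.P167.H166 (bxx mem_bxx)

variable {Q : ℝ} {D : Finset (ℤ × ℤ)} {η ζ : Cfg} {p u x y : ℤ × ℤ} {a m R r K W : ℤ} {ω ω' : Cfg}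
  {w w' : Finset Ed → ℝ} {t : Fin 3 → ℝ} {A : Finset Ed} {ψ : ℤ → ℝ} {k : ℕ} {e0 c0 : Ed}

/-! ### The foot -/

theorem wf_out (hF : Fl D u (W + 1)) (hu : u.2 = 0) (hψ : ∀ x, ψ x ≠ 0 → |x - u.1| ≤ W) {e : Ed}
    (h1 : hdv e ∈ D) (h2 : tlv e ∈ D) : wf ψ e = 0 := by
  rcases e with v | ⟨x, s⟩
  · rfl
  · show (if s = -1 then ψ x else 0) = 0
    by_cases hs : s = -1
    · rw [if_pos hs]
      by_contra h3
      have h4 := abs_le.1 (hψ _ h3)
      have h5 : (x, s) ∉ D := fun hm => by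
        have := (hF (x, s) (by
          rw [nm_le']
          simp only [Prod.fst_sub, Prod.snd_sub, hu]
          omega)).1 hm
        rw [hu] at this
        simp only at this
        omega
      by_cases hp : Even (x + s) <;> simp only [hdv, tlv, hp, if_true, if_false] at h1 h2 <;> tauto
    · rw [if_neg hs]

theorem wf_eq (h0 : tlv e0 ∉ D) (he : e0 ∈ eds D) (hz : ∀ e, hdv e ∈ D → tlv e ∈ D → wf ψ e = 0)
    (hz0 : wf ψ e0 = 0) : Wf ψ (piece ω D e0) = wf ψ (st e0 ω (ex D e0 ω)) := by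
  classical
  have h1 : piece ω D e0 = (range (ex D e0 ω + 1)).image (st e0 ω) := by
    ext e
    rw [mem_piece_st h0 he, mem_image]
    constructor
    · rintro ⟨i, hi, h⟩
      exact ⟨i, mem_range.2 (by omega), h⟩
    · rintro ⟨i, hi, h⟩
      exact ⟨i, by have := mem_range.1 hi; omega, h⟩
  unfold Wf
  rw [h1, Finset.sum_image, Finset.sum_range_succ, Finset.sum_eq_zero, zero_add]
  · intro i hi
    have hi' := mem_range.1 hi
    rcases Nat.eq_zero_or_pos i with h | h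
    · subst h
      exact hz0
    · obtain ⟨n, rfl⟩ : ∃ n, i = n + 1 := ⟨i - 1, by omega⟩
      refine hz _ (H318.Bs.ex_min hi') ?_
      have h2 : tlv (st e0 ω (n + 1)) = hdv (st e0 ω n) := by
        unfold st
        rw [Function.iterate_succ_apply', tlv_nx]
      rw [h2]
      exact H318.Bs.ex_min (by omega)
  · intro i hi j hj hij
    have hi' := mem_range.1 (Finset.mem_coe.1 hi)
    have hj' := mem_range.1 (Finset.mem_coe.1 hj)
    by_contra hne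
    rcases lt_or_gt_of_ne hne with h | h
    · exact H318.Bs.st_inj h0 h (fun l hl => H318.Bs.ex_min (by omega)) hij
    · exact H318.Bs.st_inj h0 h (fun l hl => H318.Bs.ex_min (by omega)) hij.symm

/-! ### The symmetry -/

theorem hBQ_sub (C : CQ t K R D p w w' u k W a m) (ha : 4 * W ≤ a) : hB u (4 * W) ⊆ D := by
  intro v hv
  unfold hB at hv
  rw [mem_hA] at hv
  exact C.mem (by omega) (by rw [← C.u2]; exact hv.1)

theorem nm_x0 {x : ℤ} (hu2 : u.2 = 0) (hW : 0 ≤ W) (h1 : u.1 - 4 * W ≤ x) (h2 : x ≤ u.1 + 4 * W) :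
    nm (((x, 0) : ℤ × ℤ) - u) ≤ 4 * W := by
  rw [nm_le']
  simp only [Prod.fst_sub, Prod.snd_sub, hu2]
  omega

theorem sym_OQ {ε c : ℝ} {K1 : ℤ} (hS : SymQE Q ε K1 k W c)
    (C : CQ t K R D p w w' u k W (4 * W + 1) m) (hco : CoConn D) (hψ : Psi ψ u.1 W)
    (hKw : K1 * k ≤ W) (ht : tlv e0 ∉ D) (hfar : 4 * W + 1 ≤ nm (hdv e0 - u)) (hζ : Good ζ)
    (hz : ∀ v : ℤ × ℤ, nm (v - u) ≤ 4 * W → v.2 < 0 → ζ v = false) :
    |Ex Q (hB u (4 * W)) ζ (J D e0 ψ k) -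
      c * Ex Q (hB u (4 * W)) ζ (fun ω => wf ψ (st e0 ω (ex D e0 ω)))| ≤ ε * k := by
  have hu2 := C.u2
  have hW := C.w0
  have hu : (u.1, (0 : ℤ)) = u := by rw [← hu2]
  refine hS u.1 ⟨D, hB u (4 * W), ζ, e0⟩ ψ C.k1 hKw ⟨hBQ_sub C (by omega), hco, ht⟩ hζ
    (fun v => mem_hB hu2) ?_ ?_ hψ.le hψ.lip (fun x hx => ?_)
  · intro v h1 h2
    rw [hu] at h1
    refine ⟨fun h3 => ?_, hz v h1 h2⟩
    have h4 : v ∈ D := h3
    have h5 := (C.fl (r := 4 * W + 1) (by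
      have := C.mR; have := C.nat.am; have := C.geo.R1; omega) v (by omega)).1 h4
    omega
  · intro x h1 h2 h3
    have h3' : e0 = Sum.inr (x, -1) := h3
    have h6 := nm_x0 hu2 hW h1 h2
    have h4 : ((x, 0) : ℤ × ℤ) ∈ D := C.mem (by omega) le_rfl
    have h5 := hdv_inr_ne h3' ht h4
    rw [h5] at hfar
    omega
  · have := hψ.supp x hx
    omega

/-! ### The mirror image -/

theorem Ex_mi (hQ : 0 < Q) (hζ : Good ζ) (E : Finset (ℤ × ℤ)) (F : Cfg → ℝ) :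
    Good (mc ζ) ∧ Ex Q E ζ F = Ex Q (E.image mi) (mc ζ) (fun ω => F (mc ω)) := by
  have e : mi = (fun v : ℤ × ℤ => (2 * (0 : ℤ) - 1 - v.1, v.2)) := by
    funext v
    simp [mi]
  have em : ∀ ω : Cfg, mc ω = ω ∘ (fun v : ℤ × ℤ => (2 * (0 : ℤ) - 1 - v.1, v.2)) := by
    intro ω
    rw [← e]
    rfl
  have h := sym_of (mjV 0) (fun _ => rfl) (mkE 0) fun ω => (syR_mj 0 ω).sy
  have hg : Good (mc ζ) := by
    rw [em]
    exact h.1 ζ hζ
  refine ⟨hg, ?_⟩
  have h2 := h.2 Q E (mc ζ) F hQ hg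
  have e2 : mc ζ ∘ (fun v : ℤ × ℤ => (2 * (0 : ℤ) - 1 - v.1, v.2)) = ζ := by
    rw [← em, mc_mc]
  have e3 : (fun ω => F (ω ∘ fun v : ℤ × ℤ => (2 * (0 : ℤ) - 1 - v.1, v.2))) =
      fun ω => F (mc ω) := by
    funext ω
    rw [em]
  rw [show (⇑(mjV 0).symm : ℤ × ℤ → ℤ × ℤ) = fun v => (2 * (0 : ℤ) - 1 - v.1, v.2) from rfl] at *
  rw [e2, e3] at h2
  rw [h2, e]

theorem wf_me (e : Ed) : wf (fun x => ψ (-1 - x)) (me e) = wf ψ e := by
  rcases e with v | ⟨x, s⟩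
  · rfl
  · show (if s = -1 then ψ (-1 - (-1 - x)) else 0) = (if s = -1 then ψ x else 0)
    rw [show -1 - (-1 - x) = x by ring]

theorem Wf_me (A : Finset Ed) : Wf (fun x => ψ (-1 - x)) (A.image me) = Wf ψ A := by
  classical
  unfold Wf
  rw [Finset.sum_image fun a _ b _ h => me_inj h]
  exact Finset.sum_congr rfl fun e _ => wf_me e

theorem wf_shift (hψ : Psi ψ u.1 W) (e : Ed) :
    |wf (fun x => ψ (-1 - x)) e - wf (fun x => ψ (-x)) e| ≤ 1 / W := by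
  have hW : (0 : ℝ) ≤ 1 / W := by
    have h := hψ.lip 0 1
    have h2 : |((0 : ℤ) : ℝ) - ((1 : ℤ) : ℝ)| / (W : ℝ) = 1 / W := by norm_num
    rw [h2] at h
    exact (abs_nonneg _).trans h
  rcases e with v | ⟨x, s⟩
  · show |(0 : ℝ) - 0| ≤ _
    simpa using hW
  · show |(if s = -1 then ψ (-1 - x) else 0) - (if s = -1 then ψ (-x) else 0)| ≤ _
    by_cases hs : s = -1
    · rw [if_pos hs, if_pos hs]
      have h := hψ.lip (-1 - x) (-x)
      have h2 : |((-1 - x : ℤ) : ℝ) - ((-x : ℤ) : ℝ)| = 1 := by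
        push_cast
        rw [show -1 - (x : ℝ) - -(x : ℝ) = -1 by ring, abs_neg, abs_one]
      rw [h2] at h
      exact h
    · rw [if_neg hs, if_neg hs]
      simpa using hW

theorem sym_IQ {ε c : ℝ} {K1 : ℤ} (hQ : 0 < Q) (hS : SymQE Q ε K1 k W c)
    (C : CQ t K R D p w w' u k W (4 * W + 1) m) (hco : CoConn D) (hψ : Psi ψ u.1 W)
    (hKw : K1 * k ≤ W) (ht : hdv e0 ∉ D) (hfar : 4 * W + 1 ≤ nm (tlv e0 - u)) (hζ : Good ζ)
    (hz : ∀ v : ℤ × ℤ, nm (v - u) ≤ 4 * W → v.2 < 0 → ζ v = false) :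
    |Ex Q (hB u (4 * W)) ζ (fun ω => J (D.image mi) (me e0) (fun x => ψ (-x)) k (mc ω)) -
      c * Ex Q (hB u (4 * W)) ζ (fun ω => wf (fun x => ψ (-x))
        (st (me e0) (mc ω) (ex (D.image mi) (me e0) (mc ω))))| ≤ ε * k := by
  have hu2 := C.u2
  have hW := C.w0
  have ht' : tlv (me e0) ∉ D.image mi := by rw [tlv_me, mem_mi]; exact ht
  have e1 := (Ex_mi hQ hζ (hB u (4 * W))
    (fun ω => J (D.image mi) (me e0) (fun x => ψ (-x)) k (mc ω))).2
  have e2 := (Ex_mi hQ hζ (hB u (4 * W)) (fun ω => wf (fun x => ψ (-x))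
        (st (me e0) (mc ω) (ex (D.image mi) (me e0) (mc ω))))).2
  have hg := (Ex_mi hQ hζ (hB u (4 * W)) (fun _ => 0)).1
  simp only [mc_mc] at e1 e2
  rw [e1, e2]
  refine hS (-1 - u.1) ⟨D.image mi, (hB u (4 * W)).image mi, mc ζ, me e0⟩
    (fun x => ψ (-x)) C.k1 hKw ⟨Finset.image_subset_image (hBQ_sub C (by omega)), coConn_mi hco,
      ht'⟩ hg (fun v => ?_) ?_ ?_ (fun x => hψ.le _) (fun x x' => ?_) (fun x hx => ?_)
  · show v ∈ (hB u (4 * W)).image mi ↔ _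
    rw [mem_mi', mem_hB hu2]
    unfold Lo mi
    simp only [Set.mem_ofPred_eq]
    omega
  · intro v h1 h2
    have h3 : nm (mi v - u) ≤ 4 * W := by
      rw [nm_le'] at h1 ⊢
      simp only [Prod.fst_sub, Prod.snd_sub, mi, hu2] at h1 ⊢
      omega
    refine ⟨fun h4 => ?_, hz (mi v) h3 h2⟩
    have h5 : v ∈ D.image mi := h4
    rw [mem_mi'] at h5
    have h6 := (C.fl (r := 4 * W + 1) (by
      have := C.mR; have := C.nat.am; have := C.geo.R1; omega) (mi v) (by omega)).1 h5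
    simp only [hu2, mi] at h6
    omega
  · intro x h1 h2 h3
    have h3' : me e0 = Sum.inr (x, -1) := h3
    have h7 := nm_x0 hu2 hW (x := -1 - x) (by omega) (by omega)
    have h4 : ((x, 0) : ℤ × ℤ) ∈ D.image mi := by
      rw [mem_mi']
      exact C.mem (by
        show nm ((-1 - x, 0) - u) ≤ _
        omega) le_rfl
    have h5 := hdv_inr_ne h3' ht' h4
    rw [hdv_me] at h5
    have h6 : tlv e0 = (-1 - x, 0) := by
      rw [← mi_mi (tlv e0), h5]; rfl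
    rw [h6] at hfar
    omega
  · have h := hψ.lip (-x) (-x')
    have e : ((-x : ℤ) : ℝ) - ((-x' : ℤ) : ℝ) = -((x : ℝ) - x') := by push_cast; ring
    rw [e, abs_neg] at h
    exact h
  · have := hψ.supp (-x) hx
    omega

end Vale.Agent.P167.H365.NQ
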