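import Vale.Agent.P167.H365.Q.FarB

/-!
# P167, general `q`, block Q-NRED: the far part, one crossing, conditional expectation
-/

namespace Vale.Agent.P167.H365.NQ

open Finset Vale.Agent.P167.BR Vale.Agent.P167.FK Vale.Agent.P167.FKA
open Vale.Agent.P167.H318 (st ex hit wt J St Lo CoConn)
open Vale.Agent.P167.H562.QM (FltQ)
open Vale.Agent.P167.H166 (bxx mem_bxx)
open Vale.Agent.P167.H259 (f_markov)

variable {Q : ℝ} {D : Finset (ℤ × ℤ)} {η ζ : Cfg} {p u x y : ℤ × ℤ} {a m R r K W : ℤ} {ω ω' : Cfg}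
  {w w' : Finset Ed → ℝ} {t : Fin 3 → ℝ} {A : Finset Ed} {ψ : ℤ → ℝ} {k : ℕ} {e0 c0 : Ed}

theorem hwtQ (C : CQ t K R D p w w' u k W (4 * W + 1) m) (hψ : Psi ψ u.1 W) {e : Ed}
    (h : hdv e ∉ D ∨ tlv e ∉ D) : wt ψ k e = 0 := by
  refine wt_zero_of_not (w := W) (u := u) (C.fl ?_) C.u2 (fun x hx => hψ.abs_le hx) h
  have := C.mR
  have := C.nat.am
  have := C.geo.R1
  have := C.wk
  omega

theorem agr_cf (ζ : Cfg) (S : Finset (ℤ × ℤ)) (u : ℤ × ℤ) (W : ℤ) (D : Finset (ℤ × ℤ)) :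
    Agr D u (4 * W + 1) ζ (cf (hB u (4 * W)) ζ S) := by
  intro v _ hv2
  rw [cf_out]
  intro h
  unfold hB at h
  rw [mem_hA] at h
  omega

theorem ann_cf (ζ : Cfg) (S : Finset (ℤ × ℤ)) (u : ℤ × ℤ) (W m : ℤ) :
    ∀ v ∈ hA u (4 * W + 1) m, ζ v = cf (hB u (4 * W)) ζ S v := by
  intro v hv
  rw [cf_out]
  intro h
  unfold hB at h
  rw [mem_hA] at h hv
  omega

/-- The observable on the piece of the crossing. -/
noncomputable def PB (D : Finset (ℤ × ℤ)) (ψ : ℤ → ℝ) (k : ℕ) (cc : ℝ) (c : Ed) (ω : Cfg) : ℝ :=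
  Wt ψ k (piece ω D c) - cc * Wf ψ (piece ω D c)

theorem main_OQ {ε cc : ℝ} {K1 : ℤ} (hS : SymQE Q ε K1 k W cc)
    (C : CQ t K R D p w w' u k W (4 * W + 1) m)
    (hco : CoConn D) (hψ : Psi ψ u.1 W) (hKw : K1 * k ≤ W) (hζ : Good ζ)
    (hz : ∀ v : ℤ × ℤ, nm (v - u) ≤ 4 * W → v.2 < 0 → ζ v = false)
    (h3 : ¬ ThrS u (4 * W + 1) m ζ) {c : Ed} (hc : CroO ζ u (4 * W + 1) m c) :
    |Ex Q (hB u (4 * W)) ζ (PB D ψ k cc c)| ≤ ε * k := by
  have hcro : Cro ζ u (4 * W + 1) m c := Or.inr hc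
  have hcD := cro_mem_eds C.nat.hF C.nat.am hcro
  have hA : piece ζ D c ∈ pcs ζ D := piece_mem_pcs hcD
  obtain ⟨e0, he0, ht⟩ := BR.exists_entry hA (C.strand h3 hcro)
  have he0D := subset_eds hA he0
  have hfar := C.ent_far h3 hc he0 ht
  have hFW : Fl D u (W + 1) := C.fl (by
    have := C.mR; have := C.nat.am; have := C.geo.R1; have := C.wk; omega)
  have h0D : hdv e0 ∈ D := by
    rcases mem_eds.1 he0D with h | h
    · exact h
    · exact absurd h ht
  have hz0 : wf ψ e0 = 0 := by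
    rcases e0 with v | ⟨x, s⟩
    · rfl
    · show (if s = -1 then ψ x else 0) = 0
      by_cases hs : s = -1
      · rw [if_pos hs]
        by_contra hne
        have h4 := abs_le.1 (hψ.abs_le hne)
        have h5 := nm_x0 (W := W) C.u2 C.w0 (x := x) (by have := C.w0; omega)
          (by have := C.w0; omega)
        have h6 : ((x, 0) : ℤ × ℤ) ∈ D := C.mem (by omega) le_rfl
        have h7 := hdv_inr_ne (e := Sum.inr (x, s)) (x := x) (by rw [hs]) ht h6
        rw [h7] at hfar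
        omega
      · rw [if_neg hs]
  have hval : ∀ S, S ⊆ hB u (4 * W) → PB D ψ k cc c (cf (hB u (4 * W)) ζ S) =
      (J D e0 ψ k (cf (hB u (4 * W)) ζ S) - cc * wf ψ (st e0 (cf (hB u (4 * W)) ζ S)
        (ex D e0 (cf (hB u (4 * W)) ζ S)))) := by
    intro S _
    set ω := cf (hB u (4 * W)) ζ S
    have h1 := C.ent_inv (agr_cf ζ S u W D) h3 hc he0 ht
    unfold PB
    rw [J_eq ht he0D (hwtQ C hψ (Or.inl (H318.Bs.ex_spec ht _))),
      ← wf_eq ht he0D (fun e h1 h2 => wf_out hFW C.u2 (fun x hx => hψ.abs_le hx) h1 h2) hz0,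
      piece_eq_of_mem h1]
  rw [Ex_congr (G := fun ω => J D e0 ψ k ω - cc * wf ψ (st e0 ω (ex D e0 ω))) hval, Ex_sub,
    Ex_mul_left]
  exact sym_OQ hS C hco hψ hKw ht hfar hζ hz

theorem main_IQ {ε cc : ℝ} {K1 : ℤ} (hQ : 0 < Q) (hS : SymQE Q ε K1 k W cc)
    (C : CQ t K R D p w w' u k W (4 * W + 1) m)
    (hco : CoConn D) (hψ : Psi ψ u.1 W) (hKw : K1 * k ≤ W) (hζ : Good ζ)
    (hz : ∀ v : ℤ × ℤ, nm (v - u) ≤ 4 * W → v.2 < 0 → ζ v = false)
    (h3 : ¬ ThrS u (4 * W + 1) m ζ) {c : Ed} (hc : CroI ζ u (4 * W + 1) m c) :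
    |Ex Q (hB u (4 * W)) ζ (PB D ψ k cc c)| ≤ ε * k + |cc| / W := by
  have hcro : Cro ζ u (4 * W + 1) m c := Or.inl hc
  have hcD := cro_mem_eds C.nat.hF C.nat.am hcro
  have hA : piece ζ D c ∈ pcs ζ D := piece_mem_pcs hcD
  obtain ⟨e0, he0, ht⟩ := BR.exists_exit (C.strand h3 hcro)
  have he0D := subset_eds hA he0
  have hfar := C.ex_far h3 hc he0 ht
  have hFW : Fl D u (W + 1) := C.fl (by
    have := C.mR; have := C.nat.am; have := C.geo.R1; have := C.wk; omega)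
  have ht' : tlv (me e0) ∉ D.image mi := by rw [tlv_me, mem_mi]; exact ht
  have hz0 : wf (fun x => ψ (-1 - x)) (me e0) = 0 := by
    rw [wf_me]
    rcases e0 with v | ⟨x, s⟩
    · rfl
    · show (if s = -1 then ψ x else 0) = 0
      by_cases hs : s = -1
      · rw [if_pos hs]
        by_contra hne
        have h4 := abs_le.1 (hψ.abs_le hne)
        have h5 := nm_x0 (W := W) C.u2 C.w0 (x := x) (by have := C.w0; omega)
          (by have := C.w0; omega)
        have h6 : ((x, 0) : ℤ × ℤ) ∈ D := C.mem (by omega) le_rfl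
        have h7 : tlv (Sum.inr (x, s)) = (x, 0) := by
          subst hs
          by_cases hp : Even (x + (-1 : ℤ))
          · simp [tlv, hp]
          · exfalso
            apply ht
            simp only [hdv, hp, if_false]
            simpa using h6
        rw [h7] at hfar
        omega
      · rw [if_neg hs]
  have hval : ∀ S, S ⊆ hB u (4 * W) → PB D ψ k cc c (cf (hB u (4 * W)) ζ S) =
      (J (D.image mi) (me e0) (fun x => ψ (-x)) k (mc (cf (hB u (4 * W)) ζ S)) -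
        cc * wf (fun x => ψ (-1 - x)) (st (me e0) (mc (cf (hB u (4 * W)) ζ S))
        (ex (D.image mi) (me e0) (mc (cf (hB u (4 * W)) ζ S))))) := by
    intro S _
    set ω := cf (hB u (4 * W)) ζ S
    have h1 := C.ex_inv (agr_cf ζ S u W D) h3 hc he0 ht
    have e1 : J (D.image mi) (me e0) (fun x => ψ (-x)) k (mc ω) = Wt ψ k (piece ω D c) := by
      rw [J_eq ht' (me_mem_eds.2 he0D), piece_me, Wt_me, piece_eq_of_mem h1]
      have h2 := H318.Bs.ex_spec ht' (mc ω)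
      rw [← me_me (st (me e0) (mc ω) _), wt_me]
      refine hwtQ C hψ (Or.inr ?_)
      rw [tlv_me]
      intro h4
      exact h2 (mem_mi'.2 h4)
    have e2 : wf (fun x => ψ (-1 - x)) (st (me e0) (mc ω) (ex (D.image mi) (me e0) (mc ω))) =
        Wf ψ (piece ω D c) := by
      rw [← wf_eq ht' (me_mem_eds.2 he0D) (fun e h4 h5 => ?_) hz0, piece_me, Wf_me,
        piece_eq_of_mem h1]
      rw [← me_me e, wf_me]
      refine wf_out hFW C.u2 (fun x hx => hψ.abs_le hx) ?_ ?_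
      · rw [hdv_me]; exact mem_mi'.1 h5
      · rw [tlv_me]; exact mem_mi'.1 h4
    unfold PB
    rw [e1, e2]
  have hW : (0 : ℝ) ≤ 1 / W := by
    have := wf_shift hψ (Sum.inl (0, 0))
    exact (abs_nonneg _).trans this
  have key := sym_IQ hQ hS C hco hψ hKw ht hfar hζ hz
  have hdiff : |Ex Q (hB u (4 * W)) ζ (fun ω => wf (fun x => ψ (-1 - x))
        (st (me e0) (mc ω) (ex (D.image mi) (me e0) (mc ω)))) -
      Ex Q (hB u (4 * W)) ζ (fun ω => wf (fun x => ψ (-x))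
        (st (me e0) (mc ω) (ex (D.image mi) (me e0) (mc ω))))| ≤ 1 / W := by
    rw [← Ex_sub]
    refine (abs_Ex_le hQ _).trans ?_
    rw [← Ex_const (D := hB u (4 * W)) (η := ζ) hQ (1 / (W : ℝ))]
    exact Ex_mono hQ fun S _ => wf_shift hψ _
  rw [Ex_congr (G := fun ω => J (D.image mi) (me e0) (fun x => ψ (-x)) k (mc ω) -
        cc * wf (fun x => ψ (-1 - x)) (st (me e0) (mc ω)
        (ex (D.image mi) (me e0) (mc ω)))) hval, Ex_sub, Ex_mul_left]
  generalize Ex Q (hB u (4 * W)) ζ (fun ω => wf (fun x => ψ (-1 - x))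
        (st (me e0) (mc ω) (ex (D.image mi) (me e0) (mc ω)))) = a1 at hdiff ⊢
  generalize Ex Q (hB u (4 * W)) ζ (fun ω => wf (fun x => ψ (-x))
        (st (me e0) (mc ω) (ex (D.image mi) (me e0) (mc ω)))) = a2 at hdiff key
  generalize Ex Q (hB u (4 * W)) ζ (fun ω => J (D.image mi) (me e0) (fun x => ψ (-x)) k (mc ω)) =
    a3 at key ⊢
  calc |a3 - cc * a1| = |(a3 - cc * a2) - cc * (a1 - a2)| := by congr 1; ring
    _ ≤ |a3 - cc * a2| + |cc * (a1 - a2)| := abs_sub _ _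
    _ ≤ ε * k + |cc| / W := by
        refine add_le_add key ?_
        rw [abs_mul, div_eq_mul_one_div]
        exact mul_le_mul_of_nonneg_left hdiff (abs_nonneg _)

/-! ### Conditional expectation -/

open Classical in
/-- The contribution of the strands with a crossing of the type `T`. -/
noncomputable def HT (D : Finset (ℤ × ℤ)) (p u : ℤ × ℤ) (w w' : Finset Ed → ℝ) (a m : ℤ)
    (ψ : ℤ → ℝ) (k : ℕ) (cc : ℝ) (T : Cfg → Ed → Prop) (ω : Cfg) : ℝ :=
  if ¬ ThrS u a m ω ∧ ∃ c, T ω c then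
    (TW D w w' ω (piece ω D (cE T ω)) * sgA D p (piece ω D (cE T ω))) *
      PB D ψ k cc (cE T ω) ω else 0

/-- **Conditional expectation.** -/
theorem int_HT (hQ : 0 < Q) (hη : Good η) (C : CQ t K R D p w w' u k W (4 * W + 1) m)
    {T : Cfg → Ed → Prop} {cc : ℝ}
    (hT : ∀ ω ω' : Cfg, (∀ v ∈ hA u (4 * W + 1) m, ω v = ω' v) → ∀ c, T ω c ↔ T ω' c)
    (hTc : ∀ ω c, T ω c → Cro ω u (4 * W + 1) m c)
    {Y : Cfg → ℝ} (hY0 : ∀ ω, 0 ≤ Y ω)
    (hY : ∀ ω, ∀ A ∈ pcs ω D, VisI D u (2 * R) A → |TW D w w' ω A| ≤ Y ω) {E : ℝ} (hE : 0 ≤ E)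
    (hmain : ∀ ζ, Good ζ → (∀ v ∉ D, ζ v = η v) → ¬ ThrS u (4 * W + 1) m ζ → ∀ c, T ζ c →
      |Ex Q (hB u (4 * W)) ζ (PB D ψ k cc c)| ≤ E) :
    |Ex Q D η (HT D p u w w' (4 * W + 1) m ψ k cc T)| ≤
      E * Ex Q D η (fun ω => Y ω * i2 u (4 * W + 1) m ω) := by
  classical
  have hsub : hB u (4 * W) ⊆ D := hBQ_sub C (by omega)
  rw [f_markov Q _ D η _ hQ hsub hη, ← Ex_mul_left]
  refine (abs_Ex_le hQ _).trans (Ex_mono hQ fun S hS => ?_)
  set ζ := cf D η S with hζdef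
  have hζ : Good ζ := good_cf D hη S
  have hζη : ∀ v ∉ D, ζ v = η v := fun v hv => cf_out hv
  by_cases hcond : ¬ ThrS u (4 * W + 1) m ζ ∧ ∃ c, T ζ c
  · obtain ⟨h3, hex⟩ := hcond
    have hc := cE_spec hex
    set c := cE T ζ with hcdef
    have hcro := hTc ζ c hc
    have hval : ∀ S', S' ⊆ hB u (4 * W) → HT D p u w w' (4 * W + 1) m ψ k cc T
        (cf (hB u (4 * W)) ζ S') =
        (TW D w w' ζ (piece ζ D c) * sgA D p (piece ζ D c)) *
          PB D ψ k cc c (cf (hB u (4 * W)) ζ S') := by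
      intro S' _
      have hann := ann_cf ζ S' u W m
      have h4 : cE T (cf (hB u (4 * W)) ζ S') = c := (cE_congr (hT _ _ hann)).symm
      have h5 : ¬ ThrS u (4 * W + 1) m (cf (hB u (4 * W)) ζ S') ∧
          ∃ c, T (cf (hB u (4 * W)) ζ S') c := by
        rw [← thrS_congr hann]
        exact ⟨h3, c, (hT _ _ hann c).1 hc⟩
      unfold HT
      rw [if_pos h5, h4, C.G_inv (agr_cf ζ S' u W D) h3 hcro]
    rw [Ex_congr (G := fun ω => (TW D w w' ζ (piece ζ D c) * sgA D p (piece ζ D c)) *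
      PB D ψ k cc c ω) hval, Ex_mul_left, abs_mul, i2_one ⟨c, hcro⟩, mul_one]
    have hA : piece ζ D c ∈ pcs ζ D := piece_mem_pcs (cro_mem_eds C.nat.hF C.nat.am hcro)
    have h6 : |TW D w w' ζ (piece ζ D c) * sgA D p (piece ζ D c)| ≤ Y ζ := by
      rw [abs_mul, abs_sgA, mul_one]
      obtain ⟨e, he, k1, k2⟩ := (cro_vis C.nat.hF C.nat.am hcro).1
      refine hY ζ _ hA ⟨e, he, k1, ?_⟩
      have := C.mR
      have := C.nat.am
      have := C.w0
      omega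
    calc |TW D w w' ζ (piece ζ D c) * sgA D p (piece ζ D c)| *
          |Ex Q (hB u (4 * W)) ζ (PB D ψ k cc c)|
        ≤ Y ζ * E := mul_le_mul h6 (hmain ζ hζ hζη h3 c hc) (abs_nonneg _) (hY0 ζ)
      _ = _ := by ring
  · have hval : ∀ S', S' ⊆ hB u (4 * W) → HT D p u w w' (4 * W + 1) m ψ k cc T
        (cf (hB u (4 * W)) ζ S') = 0 := by
      intro S' _
      have hann := ann_cf ζ S' u W m
      unfold HT
      rw [if_neg]
      rintro ⟨h4, c, h5⟩
      exact hcond ⟨by rwa [thrS_congr hann], c, (hT _ _ hann c).2 h5⟩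
    rw [Ex_congr (G := fun _ => 0) hval, Ex_const hQ, abs_zero]
    have := hY0 ζ
    have := i2_nonneg u (4 * W + 1) m ζ
    positivity

end Vale.Agent.P167.H365.NQ
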