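import Vale.Agent.P167.H365.Q.FarC

/-!
# P167, general `q`, block Q-NRED: bound of the far part of a cell
-/

namespace Vale.Agent.P167.H365.NQ

open Finset Vale.Agent.P167.BR Vale.Agent.P167.FK Vale.Agent.P167.FKA
open Vale.Agent.P167.H318 (st ex hit wt J St Lo CoConn)
open Vale.Agent.P167.H562.QM (FltQ)
open Vale.Agent.P167.H166 (bxx mem_bxx)
open Vale.Agent.P167.H259 (f_markov)

variable {Q : ℝ} {D : Finset (ℤ × ℤ)} {η ζ : Cfg} {p u x y : ℤ × ℤ} {a m R r K W : ℤ} {ω ω' : Cfg}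
  {w w' : Finset Ed → ℝ} {t : Fin 3 → ℝ} {A : Finset Ed} {ψ : ℤ → ℝ} {k : ℕ} {e0 c0 : Ed} {M : ℝ}

theorem i3_zero (h : ¬ ThrS y r R ω) : i3 y r R ω = 0 := by
  unfold i3
  rw [Set.indicator_of_notMem (show ω ∉ {ω | ThrS y r R ω} from h)]

theorem i3_congr (h : ∀ v ∈ hA y r R, ω v = ω' v) : i3 y r R ω = i3 y r R ω' := by
  have h1 : ThrS y r R ω ↔ ThrS y r R ω' := by rw [thrS_congr h]
  by_cases h2 : ThrS y r R ω
  · rw [i3_one h2, i3_one (h1.1 h2)]
  · rw [i3_zero h2, i3_zero fun h3 => h2 (h1.2 h3)]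

theorem i3_le_one : i3 y r R ω ≤ 1 := ind_le_one _ _

open CQ (gx)

theorem OF_gx {cc : ℝ} {X : Finset ℤ} : OF D u m w w' (gx D p k cc ψ X) ω =
    ∑ x ∈ X, ψ x * (OF D u m w w' (dl D p (x, 0 + (k : ℤ)) (x, 0)) ω -
      cc * OF D u m w w' (sx D p x) ω) := by
  classical
  unfold OF gx
  simp only [Finset.mul_sum]
  rw [Finset.sum_comm]
  refine Finset.sum_congr rfl fun x _ => ?_
  rw [← Finset.sum_sub_distrib, Finset.mul_sum]
  exact Finset.sum_congr rfl fun A _ => by ring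

theorem OB_gx {cc : ℝ} {X : Finset ℤ} : OB D w w' (gx D p k cc ψ X) ω =
    ∑ x ∈ X, ψ x * (OB D w w' (dl D p (x, 0 + (k : ℤ)) (x, 0)) ω -
      cc * OB D w w' (sx D p x) ω) := by
  classical
  unfold OB gx
  simp only [Finset.mul_sum]
  rw [Finset.sum_comm]
  refine Finset.sum_congr rfl fun x _ => ?_
  rw [← Finset.sum_sub_distrib, Finset.mul_sum]
  exact Finset.sum_congr rfl fun A _ => by ring

/-- The number of the far pieces which are seen. -/
noncomputable def cnt (D : Finset (ℤ × ℤ)) (p u : ℤ × ℤ) (m : ℤ) (g : Finset Ed → ℝ) (ω : Cfg) : ℝ :=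
  |SP (fun _ => 1) D p (fun A => FarA D u m A) (fun A => if g A = 0 then 0 else 1) ω|

theorem OF_le {Y : Cfg → ℝ} (hY0 : ∀ ω, 0 ≤ Y ω)
    (hY : ∀ ω, ∀ A ∈ pcs ω D, VisI D u (2 * R) A → |TW D w w' ω A| ≤ Y ω) {g : Finset Ed → ℝ}
    (hg : ∀ A, |g A| ≤ 1) (hgv : ∀ A ∈ pcs ω D, g A ≠ 0 → VisI D u (2 * R) A) :
    |OF D u m w w' g ω| ≤ Y ω * cnt D p u m g ω := by
  classical
  have e1 : cnt D p u m g ω = ∑ A ∈ (pcs ω D).filter fun A => FarA D u m A,
      (if g A = 0 then (0 : ℝ) else 1) := by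
    unfold cnt SP
    rw [abs_of_nonneg]
    · refine Finset.sum_congr rfl fun A _ => ?_
      have : tt (fun _ => (1 : ℝ)) D p A = 1 := by
        unfold tt
        split_ifs <;> rfl
      rw [this, one_mul]
    · refine Finset.sum_nonneg fun A _ => ?_
      have : tt (fun _ => (1 : ℝ)) D p A = 1 := by
        unfold tt
        split_ifs <;> rfl
      rw [this, one_mul]
      show (0 : ℝ) ≤ if g A = 0 then 0 else 1
      split_ifs <;> norm_num
  rw [e1, Finset.mul_sum]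
  unfold OF
  refine (Finset.abs_sum_le_sum_abs _ _).trans (Finset.sum_le_sum fun A hA => ?_)
  rw [mem_filter] at hA
  have h2 := hg A
  have h3 := hY0 ω
  rw [abs_mul]
  by_cases h : g A = 0
  · rw [if_pos h, h, abs_zero, mul_zero, mul_zero]
  · rw [if_neg h, mul_one]
    have h1 := hY ω A hA.1 (hgv A hA.1 h)
    calc |TW D w w' ω A| * |g A| ≤ Y ω * 1 := mul_le_mul h1 h2 (abs_nonneg _) h3
      _ = _ := mul_one _

/-- The decomposition of the far part of a cell. -/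
theorem far_decompQ (C : CQ t K R D p w w' u k W (4 * W + 1) m) (hψ : Psi ψ u.1 W) {X : Finset ℤ}
    (hX : ∀ x, ψ x ≠ 0 → x ∈ X) (cc : ℝ) (ω : Cfg) :
    OF D u m w w' (gx D p k cc ψ X) ω =
      i3 u (4 * W + 1) m ω * OF D u m w w' (gx D p k cc ψ X) ω +
      (HT D p u w w' (4 * W + 1) m ψ k cc (fun ω c => CroO ω u (4 * W + 1) m c) ω +
      HT D p u w w' (4 * W + 1) m ψ k cc (fun ω c => CroI ω u (4 * W + 1) m c) ω) := by
  classical
  have hψW : ∀ x, ψ x ≠ 0 → |x - u.1| ≤ W := fun x hx => hψ.abs_le hx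
  have hv : ∀ A ∈ pcs ω D, gx D p k cc ψ X A ≠ 0 → VisI D u (4 * W + 1) A := fun A hA h =>
    C.gx_vis hψW hA h
  by_cases h3 : ThrS u (4 * W + 1) m ω
  · rw [i3_one h3, one_mul]
    unfold HT
    rw [if_neg (fun h => h.1 h3), if_neg (fun h => h.1 h3), add_zero, add_zero]
  · rw [i3_zero h3, zero_mul]
    by_cases hO : ∃ c, CroO ω u (4 * W + 1) m c
    · have hI : ¬ ∃ c, CroI ω u (4 * W + 1) m c := by
        rintro ⟨c', hc'⟩
        obtain ⟨c, hc⟩ := hO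
        exact h3 ⟨c', c, croI_ne_croO C.nat.am hc' hc, Or.inl hc', Or.inr hc⟩
      unfold HT
      rw [if_pos ⟨h3, hO⟩, if_neg (fun h => hI h.2)]
      have hc : CroO ω u (4 * W + 1) m (cE (fun ω c => CroO ω u (4 * W + 1) m c) ω) :=
        cE_spec (Q := fun ω c => CroO ω u (4 * W + 1) m c) hO
      rw [OF_cro C.nat h3 (Or.inr hc) hv, C.gx_cro (Or.inr hc) hX hψW]
      unfold PB
      ring
    · by_cases hI : ∃ c, CroI ω u (4 * W + 1) m c
      · unfold HT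
        rw [if_neg (fun h => hO h.2), if_pos ⟨h3, hI⟩]
        have hc : CroI ω u (4 * W + 1) m (cE (fun ω c => CroI ω u (4 * W + 1) m c) ω) :=
          cE_spec (Q := fun ω c => CroI ω u (4 * W + 1) m c) hI
        rw [OF_cro C.nat h3 (Or.inl hc) hv, C.gx_cro (Or.inl hc) hX hψW]
        unfold PB
        ring
      · unfold HT
        rw [if_neg (fun h => hO h.2), if_neg (fun h => hI h.2)]
        rw [OF_no_cro C.nat (by
          rintro ⟨c, hc | hc⟩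
          · exact hI ⟨c, hc⟩
          · exact hO ⟨c, hc⟩) hv]
        ring

/-- The bound of the counts on the event of two crossings. -/
theorem cnt_mom {Cm C2 : ℝ} (hQ : 0 < Q) (hCm : 0 < Cm) (hC2 : 0 < C2)
    (hm2 : M2c Q Cm (1200 * K).toNat) (h2 : I2c Q C2) (E : GQ K R D η p u) (hu : u.2 = 0) {x j : ℤ}
    (hx : |x - u.1| ≤ W) (hj : 1 ≤ j) (hjW : 4 * j + 1 ≤ 2 * W) (hWm : 4 * W + 1 ≤ m)
    (hmR : m + 1 ≤ R) {g : Finset Ed → ℝ}
    (hg : ∀ ω : Cfg, ∀ A ∈ pcs ω D, g A ≠ 0 → VisI D (x, 0) (j + 1) A)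
    {Y : Cfg → ℝ} (hY0 : ∀ ω, 0 ≤ Y ω) (hYI : Ind (bxx u R) Y) :
    Ex Q D η (fun ω => (Y ω * i3 u (4 * W + 1) m ω) * cnt D p u m g ω) ≤
      (15 * Cm * C2 * ((j : ℝ) / (2 * W : ℤ))) *
        Ex Q D η (fun ω => Y ω * i3 u (4 * W + 1) m ω) := by
  have hxu : nm (((x, 0) : ℤ × ℤ) - u) ≤ W := by
    rw [nm_le']
    simp only [Prod.fst_sub, Prod.snd_sub, hu]
    rw [abs_le] at hx
    omega
  have hG0 : ∀ ω, 0 ≤ Y ω * i3 u (4 * W + 1) m ω := fun ω => mul_nonneg (hY0 ω) (i3_nonneg _ _ _ _)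
  have hGI : Ind (hB (x, 0) (2 * W)) (fun ω => Y ω * i3 u (4 * W + 1) m ω) := by
    refine Ind.mul (hYI.mono fun v hv => ?_) fun ω ω' h => i3_congr fun v hv => h v fun hv' => ?_
    · rw [mem_bxx]
      unfold hB at hv
      rw [mem_hA] at hv
      have := nm_tri v (x, 0) u
      omega
    · unfold hB at hv'
      rw [mem_hA] at hv hv'
      have := nm_tri v (x, 0) u
      omega
  have h := far_mom (t := fun _ => 1) (x := (x, 0)) (k := j) (r := 2 * W)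
    (P := fun A => FarA D u m A) (g := fun A => if g A = 0 then 0 else 1) hQ hCm hC2 hm2 h2 E hj
    (by omega) hu.symm hjW (fun A => by split_ifs <;> norm_num) (fun ω A hA hP hgA => by
      have hgA' : g A ≠ 0 := fun h0 => hgA (if_pos h0)
      refine ⟨?_, hg ω A hA hgA'⟩
      obtain ⟨e, he, h⟩ := hP
      refine ⟨e, he, ?_⟩
      rcases h with h | h
      · have := nm_tri (hdv e) (x, 0) u
        exact Or.inl ⟨h.1, by omega⟩
      · have := nm_tri (tlv e) (x, 0) u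
        exact Or.inr ⟨h.1, by omega⟩) hG0 hGI
  have e : T0 (fun _ => 1) * (5 * Cm * C2) * ((j : ℝ) / (2 * W : ℤ)) =
      15 * Cm * C2 * ((j : ℝ) / (2 * W : ℤ)) := by
    unfold T0
    simp only [abs_one]
    ring
  rw [e] at h
  exact h

/-- The data of a cell. -/
structure FD (Q : ℝ) (t : Fin 3 → ℝ) (K R : ℤ) (D : Finset (ℤ × ℤ)) (η : Cfg) (p : ℤ × ℤ)
    (w w' : Finset Ed → ℝ) (M : ℝ) (u : ℤ × ℤ) (k : ℕ) (W m : ℤ) (ψ : ℤ → ℝ) (Y : Cfg → ℝ) :
    Prop where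
  env : EnvQ Q t K R D η p w w' M u
  hYI : Ind (bxx u R) Y
  hXY : ∀ ω, |XW D w ω| ≤ Y ω
  hTY : ∀ ω, ∀ A ∈ pcs ω D, VisI D u (2 * R) A → |TW D w w' ω A| ≤ Y ω
  hYM : Ex Q D η Y ≤ M
  hu : u.2 = 0
  hk : 1 ≤ k
  hkW : 4 * (k : ℤ) + 1 ≤ 2 * W
  hWm : 4 * W + 1 ≤ m
  hmR : m + 1 ≤ R
  hψ : Psi ψ u.1 W

namespace FD

variable {Y : Cfg → ℝ}

theorem Y0 (F : FD Q t K R D η p w w' M u k W m ψ Y) (ω : Cfg) : 0 ≤ Y ω :=
  (abs_nonneg _).trans (F.hXY ω)

theorem cq (F : FD Q t K R D η p w w' M u k W m ψ Y) : CQ t K R D p w w' u k W (4 * W + 1) m where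
  geo := F.env.geo
  nat := F.env.nat1 (by rw [nm_self]; have := F.env.R1; omega) rfl F.hWm (by have := F.hmR; omega)
  u2 := F.hu
  k1 := F.hk
  wk := by have := F.hkW; omega
  w0 := by have := F.hkW; have := F.hk; omega
  mR := F.hmR

theorem flt (F : FD Q t K R D η p w w' M u k W m ψ Y) : FltQ D η u m false false := by
  refine flt_shift F.env.fl ?_ rfl
  rw [nm_self]
  have := F.hmR
  have := F.env.KR
  have := F.env.R1
  nlinarith

theorem YA (F : FD Q t K R D η p w w' M u k W m ψ Y) : Ind (hA u (4 * W + 1) m) Y :=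
  F.hYI.mono fun v hv => by
    rw [mem_hA] at hv
    rw [mem_bxx]
    have := F.hmR
    omega

/-- The event of two crossings. -/
theorem thr {Cm C2 cc : ℝ} (hQ : 0 < Q) (hCm : 0 < Cm) (hC2 : 0 < C2)
    (hm2 : M2c Q Cm (1200 * K).toNat) (h2 : I2c Q C2)
    (F : FD Q t K R D η p w w' M u k W m ψ Y) (X : Finset ℤ) :
    |Ex Q D η (fun ω => i3 u (4 * W + 1) m ω * OF D u m w w' (gx D p k cc ψ X) ω)| ≤
      15 * Cm * C2 * (k + |cc|) * Ex Q D η (fun ω => Y ω * i3 u (4 * W + 1) m ω) := by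
  classical
  have hkW := F.hkW
  have hk := F.hk
  have hWm := F.hWm
  have hmR := F.hmR
  have hY0 := F.Y0
  have hTY := F.hTY
  have C := F.cq
  have hW1 : 1 ≤ W := by omega
  have hWr : (1 : ℝ) ≤ W := by exact_mod_cast hW1
  have hψ := F.hψ
  have hψW : ∀ x, ψ x ≠ 0 → |x - u.1| ≤ W := fun x hx => hψ.abs_le hx
  have hE3 : 0 ≤ Ex Q D η (fun ω => Y ω * i3 u (4 * W + 1) m ω) :=
    Ex_nonneg hQ fun _ _ => mul_nonneg (hY0 _) (i3_nonneg _ _ _ _)
  set X' := X.filter fun x => ψ x ≠ 0 with hX'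
  have hcard : (X'.card : ℝ) ≤ 2 * W := by
    have h4 : X' ⊆ Icc (u.1 - W + 1) (u.1 + W - 1) := fun x hx => by
      rw [hX', mem_filter] at hx
      rw [mem_Icc]
      exact hψ.supp x hx.2
    have h5 := Finset.card_le_card h4
    rw [Int.card_Icc] at h5
    have h6 : (X'.card : ℤ) ≤ 2 * W := by omega
    exact_mod_cast h6
  have hpt : ∀ ω, |i3 u (4 * W + 1) m ω * OF D u m w w' (gx D p k cc ψ X) ω| ≤
      ∑ x ∈ X', ((Y ω * i3 u (4 * W + 1) m ω) *
        cnt D p u m (dl D p (x, 0 + (k : ℤ)) (x, 0)) ω +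
        |cc| * ((Y ω * i3 u (4 * W + 1) m ω) * cnt D p u m (sx D p x) ω)) := by
    intro ω
    have e1 : OF D u m w w' (gx D p k cc ψ X) ω =
        ∑ x ∈ X', ψ x * (OF D u m w w' (dl D p (x, 0 + (k : ℤ)) (x, 0)) ω -
          cc * OF D u m w w' (sx D p x) ω) := by
      rw [OF_gx, hX']
      refine (Finset.sum_filter_of_ne fun x _ h => ?_).symm
      exact left_ne_zero_of_mul h
    have hi := i3_nonneg u (4 * W + 1) m ω
    rw [e1, abs_mul, abs_of_nonneg hi]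
    calc i3 u (4 * W + 1) m ω * |∑ x ∈ X', ψ x *
          (OF D u m w w' (dl D p (x, 0 + (k : ℤ)) (x, 0)) ω - cc * OF D u m w w' (sx D p x) ω)|
        ≤ i3 u (4 * W + 1) m ω * ∑ x ∈ X',
          (Y ω * cnt D p u m (dl D p (x, 0 + (k : ℤ)) (x, 0)) ω +
          |cc| * (Y ω * cnt D p u m (sx D p x) ω)) := by
          refine mul_le_mul_of_nonneg_left ((Finset.abs_sum_le_sum_abs _ _).trans
            (Finset.sum_le_sum fun x hx => ?_)) hi
          have h4 := hψ.le x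
          have hxW := hψW x (mem_filter.1 hx).2
          have h5 := OF_le (D := D) (p := p) (u := u) (m := m) (ω := ω) hY0 hTY
            (g := dl D p (x, 0 + (k : ℤ)) (x, 0)) (fun A => abs_dl_le) (fun A hA hgA => by
              obtain ⟨e, he, k1, k2⟩ := (C.vis hxW hgA).1
              exact ⟨e, he, k1, by omega⟩)
          have h6 := OF_le (D := D) (p := p) (u := u) (m := m) (ω := ω) hY0 hTY
            (g := sx D p x) (fun A => abs_sx D p x A) (fun A hA hgA => by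
              obtain ⟨e, he, k1, k2⟩ := (C.vis_sx hA hxW hgA).1
              exact ⟨e, he, k1, by omega⟩)
          rw [abs_mul]
          have h7 : |OF D u m w w' (dl D p (x, 0 + (k : ℤ)) (x, 0)) ω -
              cc * OF D u m w w' (sx D p x) ω| ≤
              Y ω * cnt D p u m (dl D p (x, 0 + (k : ℤ)) (x, 0)) ω +
              |cc| * (Y ω * cnt D p u m (sx D p x) ω) := by
            refine (abs_sub _ _).trans (add_le_add h5 ?_)
            rw [abs_mul]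
            exact mul_le_mul_of_nonneg_left h6 (abs_nonneg _)
          calc _ ≤ 1 * (Y ω * cnt D p u m (dl D p (x, 0 + (k : ℤ)) (x, 0)) ω +
              |cc| * (Y ω * cnt D p u m (sx D p x) ω)) :=
                mul_le_mul h4 h7 (abs_nonneg _) zero_le_one
            _ = _ := one_mul _
      _ = _ := by
          rw [Finset.mul_sum]
          exact Finset.sum_congr rfl fun x _ => by ring
  calc |Ex Q D η (fun ω => i3 u (4 * W + 1) m ω * OF D u m w w' (gx D p k cc ψ X) ω)|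
      ≤ Ex Q D η (fun ω => ∑ x ∈ X', ((Y ω * i3 u (4 * W + 1) m ω) *
        cnt D p u m (dl D p (x, 0 + (k : ℤ)) (x, 0)) ω +
        |cc| * ((Y ω * i3 u (4 * W + 1) m ω) * cnt D p u m (sx D p x) ω))) :=
        (abs_Ex_le hQ _).trans (Ex_mono hQ fun S _ => hpt _)
    _ = ∑ x ∈ X', (Ex Q D η (fun ω => (Y ω * i3 u (4 * W + 1) m ω) *
        cnt D p u m (dl D p (x, 0 + (k : ℤ)) (x, 0)) ω) +
        |cc| * Ex Q D η (fun ω => (Y ω * i3 u (4 * W + 1) m ω) *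
          cnt D p u m (sx D p x) ω)) := by
        rw [Ex_sum]
        exact Finset.sum_congr rfl fun x _ => by rw [Ex_add, Ex_mul_left]
    _ ≤ ∑ _x ∈ X', ((15 * Cm * C2 * (((k : ℤ) : ℝ) / (2 * W : ℤ))) *
          Ex Q D η (fun ω => Y ω * i3 u (4 * W + 1) m ω) +
          |cc| * ((15 * Cm * C2 * (((1 : ℤ) : ℝ) / (2 * W : ℤ))) *
          Ex Q D η (fun ω => Y ω * i3 u (4 * W + 1) m ω))) := by
        refine Finset.sum_le_sum fun x hx => ?_
        rw [hX', mem_filter] at hx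
        have hxW := hψW x hx.2
        refine add_le_add ?_ (mul_le_mul_of_nonneg_left ?_ (abs_nonneg _))
        · exact cnt_mom hQ hCm hC2 hm2 h2 F.env.gq F.hu hxW (by omega) hkW hWm hmR
            (fun ω A _ hgA => (C.vis hxW hgA).2) hY0 F.hYI
        · refine cnt_mom hQ hCm hC2 hm2 h2 F.env.gq F.hu hxW le_rfl (by omega) hWm hmR
            (fun ω A hA hgA => ?_) hY0 F.hYI
          obtain ⟨e, he, h4, h5⟩ := (C.vis_sx hA hxW hgA).2
          exact ⟨e, he, h4, by omega⟩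
    _ = X'.card * ((15 * Cm * C2 * (((k : ℤ) : ℝ) / (2 * W : ℤ))) *
          Ex Q D η (fun ω => Y ω * i3 u (4 * W + 1) m ω) +
          |cc| * ((15 * Cm * C2 * (((1 : ℤ) : ℝ) / (2 * W : ℤ))) *
          Ex Q D η (fun ω => Y ω * i3 u (4 * W + 1) m ω))) := by
        rw [Finset.sum_const, nsmul_eq_mul]
    _ ≤ (2 * W) * ((15 * Cm * C2 * (((k : ℤ) : ℝ) / (2 * W : ℤ))) *
          Ex Q D η (fun ω => Y ω * i3 u (4 * W + 1) m ω) +
          |cc| * ((15 * Cm * C2 * (((1 : ℤ) : ℝ) / (2 * W : ℤ))) *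
          Ex Q D η (fun ω => Y ω * i3 u (4 * W + 1) m ω))) := by
        refine mul_le_mul_of_nonneg_right hcard ?_
        push_cast
        positivity
    _ = _ := by
        push_cast
        field_simp

/-- The event of one crossing. -/
theorem one {ε cc : ℝ} {K1 : ℤ} (hQ : 0 < Q) (hε : 0 ≤ ε) (hS : SymQE Q ε K1 k W cc)
    (hKw : K1 * k ≤ W) (hco : CoConn D) (F : FD Q t K R D η p w w' M u k W m ψ Y) :
    |Ex Q D η (HT D p u w w' (4 * W + 1) m ψ k cc (fun ω c => CroO ω u (4 * W + 1) m c))| +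
    |Ex Q D η (HT D p u w w' (4 * W + 1) m ψ k cc (fun ω c => CroI ω u (4 * W + 1) m c))| ≤
      2 * ((ε * k + |cc| / W) * Ex Q D η (fun ω => Y ω * i2 u (4 * W + 1) m ω)) := by
  have hkW := F.hkW
  have hk := F.hk
  have hWm := F.hWm
  have hmR := F.hmR
  have C := F.cq
  have hflt := F.flt
  have hWr : (1 : ℝ) ≤ W := by exact_mod_cast (by omega : 1 ≤ W)
  have hu := F.hu
  have hz : ∀ ζ : Cfg, (∀ v ∉ D, ζ v = η v) → ∀ v : ℤ × ℤ, nm (v - u) ≤ 4 * W → v.2 < 0 →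
      ζ v = false := by
    intro ζ hζ v h4 h5
    have h6 : v ∉ D := fun h7 => by
      have := (hflt.dom v (by omega)).1 h7
      omega
    rw [hζ v h6]
    have := hflt.out v (by omega) (by omega)
    simpa using this
  have hCW0 : 0 ≤ |cc| / W := div_nonneg (abs_nonneg _) (by linarith)
  have hbO := int_HT hQ F.env.good C (T := fun ω c => CroO ω u (4 * W + 1) m c) (cc := cc)
      (fun ω ω' h c => ⟨croO_congr h, croO_congr fun v hv => (h v hv).symm⟩)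
      (fun ω c h => Or.inr h) F.Y0 F.hTY (E := ε * k + |cc| / W) (by positivity)
      (fun ζ h4 h5 h6 c hc => (main_OQ hS C hco F.hψ hKw h4 (hz ζ h5) h6 hc).trans (by linarith))
  have hbI := int_HT hQ F.env.good C (T := fun ω c => CroI ω u (4 * W + 1) m c) (cc := cc)
      (fun ω ω' h c => ⟨croI_congr h, croI_congr fun v hv => (h v hv).symm⟩)
      (fun ω c h => Or.inl h) F.Y0 F.hTY (E := ε * k + |cc| / W) (by positivity)
      (fun ζ h4 h5 h6 c hc => main_IQ hQ hS C hco F.hψ hKw h4 (hz ζ h5) h6 hc)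
  linarith

theorem ex2 {C2 : ℝ} (hQ : 0 < Q) (hC2 : 0 < C2) (h2 : I2c Q C2)
    (F : FD Q t K R D η p w w' M u k W m ψ Y) :
    Ex Q D η (fun ω => Y ω * i2 u (4 * W + 1) m ω) ≤ 5 * C2 * ((W : ℝ) / m) * M := by
  have hkW := F.hkW
  have hk := F.hk
  have hWm := F.hWm
  have hm0 : (0 : ℝ) < m := by exact_mod_cast (by omega : 0 < m)
  have hWr : (1 : ℝ) ≤ W := by exact_mod_cast (by omega : 1 ≤ W)
  have hr5 : ((4 * W + 1 : ℤ) : ℝ) / m ≤ 5 * ((W : ℝ) / m) := by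
    push_cast
    rw [← mul_div_assoc]
    exact div_le_div_of_nonneg_right (by linarith) hm0.le
  have hEY : 0 ≤ Ex Q D η Y := Ex_nonneg hQ fun _ _ => F.Y0 _
  calc _ ≤ C2 * (((4 * W + 1 : ℤ) : ℝ) / m) * Ex Q D η Y :=
        h2 D η u (4 * W + 1) m Y F.env.good (flt_flatA F.flt _) (by omega) hWm F.Y0 F.YA
    _ ≤ C2 * (5 * ((W : ℝ) / m)) * M := mul_le_mul (mul_le_mul_of_nonneg_left hr5 hC2.le) F.hYM
        hEY (by positivity)
    _ = _ := by ring

theorem ex3 {C3 α : ℝ} (hQ : 0 < Q) (hC3 : 0 < C3) (hα : 0 < α) (h3 : I3c Q C3 α)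
    (F : FD Q t K R D η p w w' M u k W m ψ Y) :
    Ex Q D η (fun ω => Y ω * i3 u (4 * W + 1) m ω) ≤
      C3 * 5 ^ (1 + α) * ((W : ℝ) / m) ^ (1 + α) * M := by
  have hkW := F.hkW
  have hk := F.hk
  have hWm := F.hWm
  have hm0 : (0 : ℝ) < m := by exact_mod_cast (by omega : 0 < m)
  have hWr : (1 : ℝ) ≤ W := by exact_mod_cast (by omega : 1 ≤ W)
  have hr0 : (0 : ℝ) ≤ ((4 * W + 1 : ℤ) : ℝ) / m := by
    have : (0 : ℝ) ≤ ((4 * W + 1 : ℤ) : ℝ) := by exact_mod_cast (by omega : 0 ≤ 4 * W + 1)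
    positivity
  have hr5 : ((4 * W + 1 : ℤ) : ℝ) / m ≤ 5 * ((W : ℝ) / m) := by
    push_cast
    rw [← mul_div_assoc]
    exact div_le_div_of_nonneg_right (by linarith) hm0.le
  have hEY : 0 ≤ Ex Q D η Y := Ex_nonneg hQ fun _ _ => F.Y0 _
  calc _ ≤ C3 * (((4 * W + 1 : ℤ) : ℝ) / m) ^ (1 + α) * Ex Q D η Y :=
        h3 D η u (4 * W + 1) m Y F.env.good (flt_flatA F.flt _) (by omega) hWm F.Y0 F.YA
    _ ≤ C3 * (5 * ((W : ℝ) / m)) ^ (1 + α) * M := by
        refine mul_le_mul (mul_le_mul_of_nonneg_left ?_ hC3.le) F.hYM hEY (by positivity)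
        exact Real.rpow_le_rpow hr0 hr5 (by linarith)
    _ = _ := by rw [Real.mul_rpow (by norm_num) (by positivity)]; ring

end FD

/-- **The far part of a cell.** -/
theorem far_cell {Cm C2 C3 α : ℝ} (hQ : 0 < Q) (hCm : 0 < Cm) (hC2 : 0 < C2) (hC3 : 0 < C3)
    (hα : 0 < α) (hm2 : M2c Q Cm (1200 * K).toNat) (h2 : I2c Q C2) (h3 : I3c Q C3 α) :
    ∃ C' : ℝ, 0 ≤ C' ∧ ∀ (t : Fin 3 → ℝ) (ε cc Cc : ℝ) (K1 : ℤ) (k : ℕ) (W : ℤ), 0 ≤ ε →
    SymQE Q ε K1 k W cc → |cc| ≤ Cc * k → K1 * k ≤ W →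
    ∀ (R : ℤ) (D : Finset (ℤ × ℤ)) (η : Cfg) (p u : ℤ × ℤ) (w w' : Finset Ed → ℝ) (M : ℝ)
    (m : ℤ) (ψ : ℤ → ℝ) (X : Finset ℤ) (Y : Cfg → ℝ), FD Q t K R D η p w w' M u k W m ψ Y →
    CoConn D → (∀ x, ψ x ≠ 0 → x ∈ X) →
    |Ex Q D η (OF D u m w w' (gx D p k cc ψ X))| ≤
      C' * (1 + Cc) * M * k * (((W : ℝ) / m) ^ (1 + α) + (ε + Cc / W) * ((W : ℝ) / m)) := by
  classical
  refine ⟨15 * Cm * C2 * C3 * 5 ^ (1 + α) + 10 * C2, by positivity, ?_⟩
  intro t ε cc Cc K1 k W hε hS hcc hKw R D η p u w w' M m ψ X Y F hco hX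
  have hM := F.env.M0 hQ
  have hkW := F.hkW
  have hk := F.hk
  have hWm := F.hWm
  have hWr : (1 : ℝ) ≤ W := by exact_mod_cast (by omega : 1 ≤ W)
  have hm0 : (0 : ℝ) < m := by exact_mod_cast (by omega : 0 < m)
  have hkr : (1 : ℝ) ≤ k := by exact_mod_cast hk
  have hCc : 0 ≤ Cc := by
    by_contra hcon
    push Not at hcon
    have := abs_nonneg cc
    nlinarith
  have hP2 := F.ex2 hQ hC2 h2
  have hP3 := F.ex3 hQ hC3 hα h3
  have b3 := F.thr (cc := cc) hQ hCm hC2 hm2 h2 X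
  have b2 := F.one hQ hε hS hKw hco
  have hE3 : 0 ≤ Ex Q D η (fun ω => Y ω * i3 u (4 * W + 1) m ω) :=
    Ex_nonneg hQ fun _ _ => mul_nonneg (F.Y0 _) (i3_nonneg _ _ _ _)
  have hE2 : 0 ≤ Ex Q D η (fun ω => Y ω * i2 u (4 * W + 1) m ω) :=
    Ex_nonneg hQ fun _ _ => mul_nonneg (F.Y0 _) (i2_nonneg _ _ _ _)
  have hcW : |cc| / W ≤ Cc * k / W := div_le_div_of_nonneg_right hcc (by linarith)
  have hdec : Ex Q D η (OF D u m w w' (gx D p k cc ψ X)) =
      Ex Q D η (fun ω => i3 u (4 * W + 1) m ω * OF D u m w w' (gx D p k cc ψ X) ω) +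
      (Ex Q D η (HT D p u w w' (4 * W + 1) m ψ k cc (fun ω c => CroO ω u (4 * W + 1) m c)) +
      Ex Q D η (HT D p u w w' (4 * W + 1) m ψ k cc (fun ω c => CroI ω u (4 * W + 1) m c))) := by
    rw [← Ex_add, ← Ex_add]
    exact Ex_congr fun S _ => far_decompQ F.cq F.hψ hX cc _
  rw [hdec]
  clear hdec
  generalize Ex Q D η (fun ω => i3 u (4 * W + 1) m ω * OF D u m w w' (gx D p k cc ψ X) ω) = z3
    at b3 ⊢
  generalize Ex Q D η (HT D p u w w' (4 * W + 1) m ψ k cc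
    (fun ω c => CroO ω u (4 * W + 1) m c)) = zO at b2 ⊢
  generalize Ex Q D η (HT D p u w w' (4 * W + 1) m ψ k cc
    (fun ω c => CroI ω u (4 * W + 1) m c)) = zI at b2 ⊢
  generalize Ex Q D η (fun ω => Y ω * i2 u (4 * W + 1) m ω) = E2 at b2 hP2 hE2
  generalize Ex Q D η (fun ω => Y ω * i3 u (4 * W + 1) m ω) = E3 at b3 hP3 hE3
  set q1 : ℝ := (W : ℝ) / m with hq1
  have hq10 : 0 ≤ q1 := by positivity
  have t1 : 15 * Cm * C2 * (k + |cc|) * E3 ≤
      15 * Cm * C2 * C3 * 5 ^ (1 + α) * ((1 + Cc) * M * k * q1 ^ (1 + α)) := by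
    calc 15 * Cm * C2 * (k + |cc|) * E3 ≤ 15 * Cm * C2 * (k + Cc * k) *
          (C3 * 5 ^ (1 + α) * q1 ^ (1 + α) * M) :=
          mul_le_mul (mul_le_mul_of_nonneg_left (by linarith) (by positivity)) hP3 hE3
            (by positivity)
      _ = _ := by ring
  have t2 : (ε * k + |cc| / W) * E2 ≤ 5 * C2 * (M * k * ((ε + Cc / W) * q1)) := by
    calc (ε * k + |cc| / W) * E2 ≤ (ε * k + Cc * k / W) * (5 * C2 * q1 * M) :=
          mul_le_mul (by linarith) hP2 hE2 (by positivity)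
      _ = _ := by ring
  have t3 : 0 ≤ M * k * ((ε + Cc / W) * q1) := by positivity
  have t4 : 0 ≤ M * k * q1 ^ (1 + α) := by positivity
  have t5 : (0 : ℝ) ≤ 15 * Cm * C2 * C3 * 5 ^ (1 + α) := by positivity
  have t6 : (15 * Cm * C2 * C3 * 5 ^ (1 + α)) * (1 + Cc) ≤
      (15 * Cm * C2 * C3 * 5 ^ (1 + α) + 10 * C2) * (1 + Cc) :=
    mul_le_mul_of_nonneg_right (by linarith) (by linarith)
  have t7 : 10 * C2 ≤ (15 * Cm * C2 * C3 * 5 ^ (1 + α) + 10 * C2) * (1 + Cc) := by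
    have : 0 ≤ (15 * Cm * C2 * C3 * 5 ^ (1 + α) + 10 * C2) * Cc := by positivity
    nlinarith
  calc |z3 + (zO + zI)|
      ≤ |z3| + (|zO| + |zI|) := (abs_add_le _ _).trans (add_le_add le_rfl (abs_add_le _ _))
    _ ≤ 15 * Cm * C2 * C3 * 5 ^ (1 + α) * ((1 + Cc) * M * k * q1 ^ (1 + α)) +
        2 * (5 * C2 * (M * k * ((ε + Cc / W) * q1))) :=
        add_le_add (b3.trans t1) (b2.trans (mul_le_mul_of_nonneg_left t2 (by norm_num)))
    _ = (15 * Cm * C2 * C3 * 5 ^ (1 + α) * (1 + Cc)) * (M * k * q1 ^ (1 + α)) +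
        (10 * C2) * (M * k * ((ε + Cc / W) * q1)) := by ring
    _ ≤ ((15 * Cm * C2 * C3 * 5 ^ (1 + α) + 10 * C2) * (1 + Cc)) * (M * k * q1 ^ (1 + α)) +
        ((15 * Cm * C2 * C3 * 5 ^ (1 + α) + 10 * C2) * (1 + Cc)) *
          (M * k * ((ε + Cc / W) * q1)) :=
        add_le_add (mul_le_mul_of_nonneg_right t6 t4) (mul_le_mul_of_nonneg_right t7 t3)
    _ = _ := by ring

end Vale.Agent.P167.H365.NQ
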