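import Vale.Agent.P167.H365.Q.Core3

/-!
# P167, general `q`, block Q-NRED: geometry near a flat point; the reference half box
-/

namespace Vale.Agent.P167.H365.NQ

open Finset Vale.Agent.P167.BR Vale.Agent.P167.FK Vale.Agent.P167.FKA
open Vale.Agent.P167.H562.QM (FltQ)
open Vale.Agent.P167.H166 (bxx mem_bxx)

variable {D : Finset (ℤ × ℤ)} {y u p : ℤ × ℤ} {r R K L m : ℤ} {ω ω' : Cfg} {A : Finset Ed}

/-- The geometry near the flat point `u` at scale `R`. -/
structure Geo (K R : ℤ) (D : Finset (ℤ × ℤ)) (p u : ℤ × ℤ) : Prop where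
  one_le : 1 ≤ K
  R1 : 1 ≤ R
  fl : Fl D u (8 * K * R)
  jn : ∀ (y : ℤ × ℤ) (r : ℤ), nm (y - u) ≤ R → 0 ≤ r → r ≤ R → ∀ z ∈ sites D,
    K * (r + 1) < nm (z - y) → Jn D (FarE D y r) z p
  jt : ∀ z ∈ sites D, Jt D z p
  pot : HPot D

namespace Geo

theorem KR (E : Geo K R D p u) : R ≤ K * R := by nlinarith [E.one_le, E.R1]

theorem fl' (E : Geo K R D p u) (hy : nm (y - u) ≤ R) (hy2 : y.2 = u.2) (hr : r ≤ 7 * R) :
    Fl D y r := by
  intro v hv
  rw [hy2]
  refine E.fl v ?_
  have := nm_tri v y u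
  have := E.KR
  nlinarith

/-- The corners of the far squares near the ring are joined to `p`. -/
theorem jn_ring (E : Geo K R D p u) (h0 : 0 ≤ m) (hm : m + 1 ≤ R) {v z : ℤ × ℤ}
    (hv : v ∈ D) (h1 : m < nm (v - u)) (h2 : nm (v - u) ≤ R)
    (hz1 : z.1 = v.1 ∨ z.1 = v.1 + 1) (hz2 : z.2 = v.2 ∨ z.2 = v.2 + 1) :
    Jn D (FarE D u m) z p := by
  have hK := E.one_le
  have hR := E.R1
  have hKR := E.KR
  have hv2 : u.2 ≤ v.2 := (E.fl v (by nlinarith)).1 hv
  have h2' := nm_le'.1 h2
  simp only [Prod.fst_sub, Prod.snd_sub] at h2'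
  have hKm : K * (m + 1) ≤ K * R := mul_le_mul_of_nonneg_left hm (by omega)
  obtain ⟨n, hn⟩ : ∃ n : ℕ, (n : ℤ) = K * R + 1 := ⟨(K * R + 1).toNat, by
    rw [Int.toNat_of_nonneg (by omega)]⟩
  have hbd : K * R + 1 + R + 2 ≤ 8 * K * R := by nlinarith
  have hin : ∀ s : ℤ × ℤ, nm (s - u) ≤ K * R + 1 + R + 2 → u.2 ≤ s.2 → s ∈ D := fun s h3 h4 =>
    (E.fl s (by omega)).2 h4
  have hnu : nm (u - u) ≤ R := by
    have : nm (u - u) = 0 := by simp [nm]
    omega
  have fin : ∀ z' : ℤ × ℤ, z' ∈ sites D → K * (m + 1) < nm (z' - u) →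
      Jn D (FarE D u m) z' p := fun z' h3 h4 => E.jn u m hnu h0 (by omega) z' h3 h4
  obtain ⟨z1, z2⟩ := z
  simp only at hz1 hz2
  by_cases c1 : m + 1 ≤ z1 - u.1
  · -- to the right
    refine Jn.trans (jn_right n fun j hj => ?_) (fin (z1 + n, z2) ?_ ?_)
    · have h3 : (z1 + (j : ℤ), z2) ∈ D := hin _ (by
        rw [nm_le']; simp only [Prod.fst_sub, Prod.snd_sub]; omega) (by simp only; omega)
      have h4 : m < nm ((z1 + (j : ℤ), z2) - u) := by
        have := nm_ge_fst (v := (z1 + (j : ℤ), z2) - u)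
        simp only [Prod.fst_sub] at this
        have := le_abs_self (z1 + (j : ℤ) - u.1)
        omega
      have h5 : FarE D u m (Sum.inr (z1 + (j : ℤ), z2 - 1)) := farE_inr
        (by rw [sub_add_cancel]; exact h3) (by rw [sub_add_cancel]; exact h4)
      exact ⟨h5.mem_eds, h5⟩
    · exact mem_sites_self (hin _ (by
        rw [nm_le']; simp only [Prod.fst_sub, Prod.snd_sub]; omega) (by simp only; omega))
    · have := nm_ge_fst (v := (z1 + (n : ℤ), z2) - u)
      simp only [Prod.fst_sub] at this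
      have := le_abs_self (z1 + (n : ℤ) - u.1)
      omega
  · by_cases c2 : m ≤ u.1 - z1
    · -- to the left
      have h6 : Jn D (FarE D u m) (z1 - n, z2) (z1, z2) := by
        have := jn_right (D := D) (P := FarE D u m) (x := z1 - n) (y := z2) n fun j hj => ?_
        · rwa [sub_add_cancel] at this
        · have h3 : (z1 - n + (j : ℤ), z2) ∈ D := hin _ (by
            rw [nm_le']; simp only [Prod.fst_sub, Prod.snd_sub]; omega) (by simp only; omega)
          have h4 : m < nm ((z1 - n + (j : ℤ), z2) - u) := by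
            have := nm_ge_fst (v := (z1 - n + (j : ℤ), z2) - u)
            simp only [Prod.fst_sub] at this
            have := neg_abs_le (z1 - n + (j : ℤ) - u.1)
            omega
          have h5 : FarE D u m (Sum.inr (z1 - n + (j : ℤ), z2 - 1)) := farE_inr
            (by rw [sub_add_cancel]; exact h3) (by rw [sub_add_cancel]; exact h4)
          exact ⟨h5.mem_eds, h5⟩
      refine Jn.trans (Jn.symm h6) (fin (z1 - n, z2) ?_ ?_)
      · exact mem_sites_self (hin _ (by
          rw [nm_le']; simp only [Prod.fst_sub, Prod.snd_sub]; omega) (by simp only; omega))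
      · have := nm_ge_fst (v := (z1 - (n : ℤ), z2) - u)
        simp only [Prod.fst_sub] at this
        have := neg_abs_le (z1 - (n : ℤ) - u.1)
        omega
    · -- up
      have c3 : m + 1 ≤ z2 - u.2 := by
        by_contra c3
        have : nm (v - u) ≤ m := by
          rw [nm_le']; simp only [Prod.fst_sub, Prod.snd_sub]; omega
        omega
      refine Jn.trans (jn_up n fun j hj => ?_) (fin (z1, z2 + n) ?_ ?_)
      · have h3 : (z1, z2 + (j : ℤ)) ∈ D := hin _ (by
          rw [nm_le']; simp only [Prod.fst_sub, Prod.snd_sub]; omega) (by simp only; omega)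
        have h4 : m < nm ((z1, z2 + (j : ℤ)) - u) := by
          have := nm_ge_snd (v := (z1, z2 + (j : ℤ)) - u)
          simp only [Prod.snd_sub] at this
          have := le_abs_self (z2 + (j : ℤ) - u.2)
          omega
        have h5 : FarE D u m (Sum.inl (z1 - 1, z2 + (j : ℤ))) := farE_inl
          (by rw [sub_add_cancel]; exact h3) (by rw [sub_add_cancel]; exact h4)
        exact ⟨h5.mem_eds, h5⟩
      · exact mem_sites_self (hin _ (by
          rw [nm_le']; simp only [Prod.fst_sub, Prod.snd_sub]; omega) (by simp only; omega))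
      · have := nm_ge_snd (v := (z1, z2 + (n : ℤ)) - u)
        simp only [Prod.snd_sub] at this
        have := le_abs_self (z2 + (n : ℤ) - u.2)
        omega

end Geo

theorem nm_self (u : ℤ × ℤ) : nm (u - u) = 0 := by simp [nm]

/-! ### The domains of `EnvQ` -/

theorem EnvQ.KR {Q : ℝ} {t : Fin 3 → ℝ} {η : Cfg} {w w' : Finset Ed → ℝ} {M : ℝ}
    (E : EnvQ Q t K R D η p w w' M u) : R ≤ K * R := by nlinarith [E.one_le, E.R1]

theorem EnvQ.geo {Q : ℝ} {t : Fin 3 → ℝ} {η : Cfg} {w w' : Finset Ed → ℝ} {M : ℝ}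
    (E : EnvQ Q t K R D η p w w' M u) : Geo K R D p u where
  one_le := E.one_le
  R1 := E.R1
  fl := E.fl.dom
  jn := by
    intro y r hy h0 hr z hz h
    have hKR := E.KR
    have h1 := E.one_le
    have h2 := E.R1
    refine Jn.mono' (fun e he h' => farE_of_hd he h')
      (E.gf y (r + 1) (by omega) (by omega) z hz h ?_)
    have h3 := nm_tri p y u
    have h4 := E.hp
    have h5 : K * (r + 1) ≤ K * (2 * R) := mul_le_mul_of_nonneg_left (by omega) (by omega)
    nlinarith
  jt := by
    intro z hz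
    have hR := E.R1
    refine Jn.mono (P := fun e => 1 < nm (hdv e - (|z.1| + |p.1| + K + 1, (0 : ℤ))))
      (fun _ _ => trivial) (E.gf (|z.1| + |p.1| + K + 1, 0) 1 le_rfl (by omega) z hz ?_ ?_)
    · unfold nm
      refine lt_max_of_lt_left ?_
      simp only [Prod.fst_sub]
      have := le_abs_self z.1
      have := abs_nonneg p.1
      rw [lt_abs]
      right
      omega
    · unfold nm
      refine lt_max_of_lt_left ?_
      simp only [Prod.fst_sub]
      have := le_abs_self p.1
      have := abs_nonneg z.1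
      rw [lt_abs]
      right
      omega
  pot := E.pot

/-! ### The reference half box -/

theorem mem_hB' {v : ℤ × ℤ} : v ∈ hB u L ↔ u.1 - L ≤ v.1 ∧ v.1 ≤ u.1 + L ∧ u.2 ≤ v.2 ∧
    v.2 ≤ u.2 + L := by
  unfold hB
  rw [mem_hA, nm_le']
  have h0 := nm_nonneg (v - u)
  simp only [Prod.fst_sub, Prod.snd_sub]
  constructor
  · rintro ⟨h1, -, h3⟩
    omega
  · intro h
    omega

theorem adj_h {x y : ℤ} (h1 : (x, y) ∉ D) (h2 : (x + 1, y) ∉ D) :
    BR.Adj D (x, y) (x + 1, y) := by
  refine ⟨Sum.inl (x, y), ?_, ?_⟩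
  · rw [mem_eds_inl]
    tauto
  · by_cases hp : Even (x + y)
    · left; simp [tlv, hdv, hp]
    · right; simp [tlv, hdv, hp]

theorem adj_v {x y : ℤ} (h1 : (x, y) ∉ D) (h2 : (x, y + 1) ∉ D) :
    BR.Adj D (x, y) (x, y + 1) := by
  refine ⟨Sum.inr (x, y), ?_, ?_⟩
  · rw [mem_eds_inr]
    tauto
  · by_cases hp : Even (x + y)
    · right; simp [tlv, hdv, hp]
    · left; simp [tlv, hdv, hp]

theorem rtg_symm {a b : ℤ × ℤ} (h : Relation.ReflTransGen (BR.Adj D) a b) :
    Relation.ReflTransGen (BR.Adj D) b a := by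
  induction h with
  | refl => exact Relation.ReflTransGen.refl
  | tail _ h ih => exact Relation.ReflTransGen.head h.symm ih

theorem row_adj {y : ℤ} (h : ∀ x, (x, y) ∉ D) (x x' : ℤ) :
    Relation.ReflTransGen (BR.Adj D) (x, y) (x', y) := by
  have key : ∀ (n : ℕ) (x : ℤ), Relation.ReflTransGen (BR.Adj D) (x, y) (x + n, y) := by
    intro n
    induction n with
    | zero => intro x; simpa using Relation.ReflTransGen.refl
    | succ n ih =>
      intro x
      have h1 := Relation.ReflTransGen.tail (ih x) (adj_h (h _) (h _))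
      rwa [show x + ((n + 1 : ℕ) : ℤ) = x + n + 1 by push_cast; ring]
  rcases le_total x x' with hx | hx
  · have := key (x' - x).toNat x
    rwa [Int.toNat_of_nonneg (by omega), add_sub_cancel] at this
  · have := key (x - x').toNat x'
    rw [Int.toNat_of_nonneg (by omega), add_sub_cancel] at this
    exact rtg_symm this

theorem col_adj {x : ℤ} (h : ∀ y, (x, y) ∉ D) (y y' : ℤ) :
    Relation.ReflTransGen (BR.Adj D) (x, y) (x, y') := by
  have key : ∀ (n : ℕ) (y : ℤ), Relation.ReflTransGen (BR.Adj D) (x, y) (x, y + n) := by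
    intro n
    induction n with
    | zero => intro x; simpa using Relation.ReflTransGen.refl
    | succ n ih =>
      intro y
      have h1 := Relation.ReflTransGen.tail (ih y) (adj_v (h _) (h _))
      rwa [show y + ((n + 1 : ℕ) : ℤ) = y + n + 1 by push_cast; ring]
  rcases le_total y y' with hx | hx
  · have := key (y' - y).toNat y
    rwa [Int.toNat_of_nonneg (by omega), add_sub_cancel] at this
  · have := key (y - y').toNat y'
    rw [Int.toNat_of_nonneg (by omega), add_sub_cancel] at this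
    exact rtg_symm this

theorem out_joined {v : ℤ × ℤ} (hv : v ∉ hB u L) :
    Relation.ReflTransGen (BR.Adj (hB u L)) v (u.1 - L - 1, u.2 - 1) := by
  obtain ⟨v1, v2⟩ := v
  have hrow : ∀ x, (x, u.2 - 1) ∉ hB u L := fun x hx => by
    rw [mem_hB'] at hx
    simp only at hx
    omega
  have hcol : ∀ y, (u.1 - L - 1, y) ∉ hB u L := fun y hy => by
    rw [mem_hB'] at hy
    simp only at hy
    omega
  rw [mem_hB'] at hv
  simp only at hv
  by_cases h1 : v1 < u.1 - L ∨ u.1 + L < v1
  · exact (col_adj (fun y hy => by rw [mem_hB'] at hy; simp only at hy; omega) v2 (u.2 - 1)).trans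
      (row_adj hrow _ _)
  · exact (row_adj (fun x hx => by rw [mem_hB'] at hx; simp only at hx; omega) v1
      (u.1 - L - 1)).trans (col_adj hcol _ _)

theorem scon_hB : SCon (hB u L) := fun _ _ _ _ h1 h2 => (out_joined h1).trans
  (rtg_symm (out_joined h2))

theorem hpot_hB : HPot (hB u L) := fun _ _ hA => exists_potD scon_hB hA

theorem jn_up' {P : Ed → Prop} {x s s' : ℤ} (hs : s ≤ s')
    (h : ∀ j, s ≤ j → j < s' → Sum.inl (x - 1, j) ∈ eds D ∧ P (Sum.inl (x - 1, j))) :
    Jn D P (x, s) (x, s') := by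
  have := jn_up (D := D) (P := P) (x := x) (y := s) (s' - s).toNat fun j hj => h _ (by omega)
    (by omega)
  rwa [Int.toNat_of_nonneg (by omega), add_sub_cancel] at this

theorem jn_right' {P : Ed → Prop} {x x' s : ℤ} (hs : x ≤ x')
    (h : ∀ j, x ≤ j → j < x' → Sum.inr (j, s - 1) ∈ eds D ∧ P (Sum.inr (j, s - 1))) :
    Jn D P (x, s) (x', s) := by
  have := jn_right (D := D) (P := P) (x := x) (y := s) (x' - x).toNat fun j hj => h _ (by omega)
    (by omega)
  rwa [Int.toNat_of_nonneg (by omega), add_sub_cancel] at this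

/-- From a site up to the top row and to its middle. -/
theorem hB_jn {P : Ed → Prop} (hL : 0 ≤ L) {x s : ℤ} (hx1 : u.1 - L ≤ x) (hx2 : x ≤ u.1 + L + 1)
    (hs2 : s ≤ u.2 + L + 1)
    (h1 : ∀ j, (s ≤ j ∨ j = u.2 + L) → j ≤ u.2 + L → Sum.inl (x - 1, j) ∈ eds (hB u L) ∧
      P (Sum.inl (x - 1, j)))
    (h2 : ∀ j, u.1 - L ≤ j → j ≤ u.1 + L → P (Sum.inr (j, u.2 + L - 1))) :
    Jn (hB u L) P (x, s) (u.1, u.2 + L) := by
  have a1 : Jn (hB u L) P (x, s) (x, u.2 + L) := by
    rcases le_or_gt s (u.2 + L) with h | h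
    · exact jn_up' h fun j hj hj' => h1 j (Or.inl hj) (by omega)
    · exact Jn.symm (jn_up' h.le fun j hj hj' => h1 j (Or.inr (by omega)) (by omega))
  have hr : ∀ j, u.1 - L ≤ j → j ≤ u.1 + L → Sum.inr (j, u.2 + L - 1) ∈ eds (hB u L) ∧
      P (Sum.inr (j, u.2 + L - 1)) := fun j hj hj' => by
    refine ⟨?_, h2 j hj hj'⟩
    rw [mem_eds_inr, sub_add_cancel]
    right
    rw [mem_hB']
    simp only
    omega
  refine Jn.trans a1 ?_
  rcases le_total x u.1 with h | h
  · exact jn_right' h fun j hj hj' => hr j (by omega) (by omega)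
  · exact Jn.symm (jn_right' h fun j hj hj' => hr j (by omega) (by omega))

theorem mem_sites_hB {z : ℤ × ℤ} (h : z ∈ sites (hB u L)) : u.1 - L ≤ z.1 ∧ z.1 ≤ u.1 + L + 1 ∧
    u.2 ≤ z.2 ∧ z.2 ≤ u.2 + L + 1 := by
  rw [mem_sites] at h
  obtain ⟨v, hv, h1, h2⟩ := h
  rw [mem_hB'] at hv
  omega

theorem jt_hB (hL : 0 ≤ L) {z : ℤ × ℤ} (hz : z ∈ sites (hB u L)) :
    Jt (hB u L) z (u.1, u.2 + L) := by
  have h := mem_sites_hB hz
  obtain ⟨x, s⟩ := z
  simp only at h
  refine hB_jn hL h.1 h.2.1 h.2.2.2 (fun j hj hj' => ⟨?_, trivial⟩) fun _ _ _ => trivial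
  rw [mem_eds_inl, mem_hB', mem_hB']
  simp only
  omega

theorem farE_inl' {x y : ℤ} {b : ℤ × ℤ} (h : (x, y) ∈ D) (h' : m < nm ((x, y) - b)) :
    FarE D b m (Sum.inl (x, y)) := by
  unfold FarE
  by_cases hp : Even (x + y) <;> simp only [hdv, tlv, hp, if_true, if_false]
  · exact Or.inr ⟨h, h'⟩
  · exact Or.inl ⟨h, h'⟩

theorem lt_nm {v : ℤ × ℤ} : m < nm v ↔ m < v.1 ∨ m < -v.1 ∨ m < v.2 ∨ m < -v.2 := by
  unfold nm
  rw [lt_max_iff, lt_abs, lt_abs, or_assoc]

/-- The edges of a column are far. -/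
theorem col_far {x j : ℤ} (hx1 : u.1 - L ≤ x) (hx2 : x ≤ u.1 + L + 1) (hj : u.2 ≤ j)
    (hj' : j ≤ u.2 + L)
    (h : r < nm ((if x ≤ u.1 + L then x else x - 1, j) - y)) (hL : 0 ≤ L) :
    Sum.inl (x - 1, j) ∈ eds (hB u L) ∧ FarE (hB u L) y r (Sum.inl (x - 1, j)) := by
  have key : FarE (hB u L) y r (Sum.inl (x - 1, j)) := by
    by_cases hx : x ≤ u.1 + L
    · rw [if_pos hx] at h
      refine farE_inl ?_ ?_
      · rw [sub_add_cancel, mem_hB']
        simp only
        omega
      · rw [sub_add_cancel]; exact h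
    · rw [if_neg hx] at h
      refine farE_inl' ?_ h
      rw [mem_hB']
      simp only
      omega
  exact ⟨key.mem_eds, key⟩

/-- **The geometry of the reference half box.** -/
theorem geo_hB (hK : 1 ≤ K) (hR : 1 ≤ R) :
    Geo K R (hB u (8 * K * R)) (u.1, u.2 + 8 * K * R) u where
  one_le := hK
  R1 := hR
  fl := by
    intro v hv
    rw [nm_le'] at hv
    simp only [Prod.fst_sub, Prod.snd_sub] at hv
    rw [mem_hB']
    omega
  jn := by
    intro y r hy h0 hr z hz h
    have hKR : R ≤ K * R := by nlinarith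
    set L := 8 * K * R with hL
    have hLR : 8 * R ≤ L := by rw [hL]; nlinarith
    have hz' := mem_sites_hB hz
    rw [nm_le'] at hy
    simp only [Prod.fst_sub, Prod.snd_sub] at hy
    obtain ⟨x, s⟩ := z
    have h' : r + 1 < nm ((x, s) - y) := by nlinarith
    rw [lt_nm] at h'
    simp only [Prod.fst_sub, Prod.snd_sub] at h' hz'
    have top : ∀ j, u.1 - L ≤ j → j ≤ u.1 + L → FarE (hB u L) y r (Sum.inr (j, u.2 + L - 1)) := by
      intro j hj hj'
      refine farE_inr ?_ ?_
      · rw [sub_add_cancel, mem_hB']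
        simp only
        omega
      · rw [sub_add_cancel, lt_nm]
        simp only [Prod.fst_sub, Prod.snd_sub]
        omega
    have side : ∀ x s : ℤ, u.1 - L ≤ x → x ≤ u.1 + L + 1 → u.2 ≤ s → s ≤ u.2 + L + 1 →
        (r + 1 < x - y.1 ∨ r + 1 < -(x - y.1)) → Jn (hB u L) (FarE (hB u L) y r) (x, s)
          (u.1, u.2 + L) := by
      intro x s hx1 hx2 hs1 hs2 hx
      refine hB_jn (by omega) hx1 hx2 hs2 (fun j hj hj' => col_far hx1 hx2 (by omega) hj' ?_
        (by omega)) top
      rw [lt_nm]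
      simp only [Prod.fst_sub, Prod.snd_sub]
      split_ifs <;> omega
    by_cases c1 : r + 1 < x - y.1 ∨ r + 1 < -(x - y.1)
    · exact side x s hz'.1 hz'.2.1 hz'.2.2.1 hz'.2.2.2 c1
    · by_cases c2 : r + 1 < s - y.2
      · refine hB_jn (by omega) hz'.1 hz'.2.1 hz'.2.2.2 (fun j hj hj' =>
          col_far hz'.1 hz'.2.1 (by omega) hj' ?_ (by omega)) top
        rw [lt_nm]
        simp only [Prod.fst_sub, Prod.snd_sub]
        omega
      · refine Jn.trans (jn_right' (x' := y.1 + r + 2) (by omega) fun j hj hj' => ?_)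
          (side (y.1 + r + 2) s (by omega) (by omega) hz'.2.2.1 hz'.2.2.2 (by omega))
        have h5 : FarE (hB u L) y r (Sum.inr (j, s - 1)) := by
          refine farE_inr ?_ ?_
          · rw [sub_add_cancel, mem_hB']
            simp only
            omega
          · rw [sub_add_cancel, lt_nm]
            simp only [Prod.fst_sub, Prod.snd_sub]
            omega
        exact ⟨h5.mem_eds, h5⟩
  jt := fun z hz => jt_hB (by have : R ≤ K * R := by nlinarith
                              nlinarith) hz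
  pot := hpot_hB

end Vale.Agent.P167.H365.NQ
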