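import Vale.Agent.P167.H365.Q.Det

/-!
# P167, general `q`, block Q-NRED: near observables are the same in all domains
-/

namespace Vale.Agent.P167.H365.NQ

open Finset Vale.Agent.P167.BR Vale.Agent.P167.FK Vale.Agent.P167.FKA

variable {D D1 D2 : Finset (ℤ × ℤ)} {y u p c z z1 z2 : ℤ × ℤ} {a r R K L m : ℤ} {ω ω' : Cfg}
  {A : Finset Ed} {t : Fin 3 → ℝ}

/-- The edges of `A` see the same squares in the two domains. -/
def Same (D1 D2 : Finset (ℤ × ℤ)) (A : Finset Ed) : Prop :=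
  ∀ e ∈ A, (hdv e ∈ D1 ↔ hdv e ∈ D2) ∧ (tlv e ∈ D1 ↔ tlv e ∈ D2)

theorem Same.symm (h : Same D1 D2 A) : Same D2 D1 A := fun e he =>
  ⟨(h e he).1.symm, (h e he).2.symm⟩

theorem Same.farE (h : Same D1 D2 A) {e : Ed} (he : e ∈ A) : FarE D1 c r e ↔ FarE D2 c r e := by
  unfold FarE
  rw [(h e he).1, (h e he).2]

theorem Same.farA (h : Same D1 D2 A) : FarA D1 c r A ↔ FarA D2 c r A := by
  unfold FarA
  exact ⟨fun ⟨e, he, h'⟩ => ⟨e, he, (h.farE he).1 h'⟩, fun ⟨e, he, h'⟩ => ⟨e, he, (h.farE he).2 h'⟩⟩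

theorem Same.nr (h : Same D1 D2 A) : Nr D1 c r A ↔ Nr D2 c r A := not_congr h.farA

theorem Same.isLp (h : Same D1 D2 A) : IsLp D1 A ↔ IsLp D2 A :=
  ⟨fun h' e he => (h e he).1.1 (h' e he), fun h' e he => (h e he).1.2 (h' e he)⟩

theorem Same.mem_pcs (h : Same D1 D2 A) (hA : A ∈ pcs ω D1) : A ∈ pcs ω D2 := by
  obtain ⟨e0, he0⟩ := pcs_nonempty hA
  have hA2 : ∀ e ∈ A, e ∈ eds D2 := fun e he => by
    rw [mem_eds, ← (h e he).1, ← (h e he).2, ← mem_eds]
    exact subset_eds hA he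
  have step2 : ∀ a b, Nxt ω D2 a b → (a ∈ A ↔ b ∈ A) := by
    rintro a b ⟨h1, rfl⟩
    constructor
    · intro ha
      exact (nx_mem_iff hA ((h a ha).1.2 h1)).1 ha
    · intro hb
      have h2 := (h _ hb).2
      rw [tlv_nx] at h2
      exact (nx_mem_iff hA (h2.2 h1)).2 hb
  have eqv2 : ∀ a b, Relation.EqvGen (Nxt ω D2) a b → (a ∈ A ↔ b ∈ A) := by
    intro a b h
    induction h with
    | rel a b h => exact step2 a b h
    | refl a => exact Iff.rfl
    | symm a b _ ih => exact ih.symm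
    | trans a b c _ _ ih1 ih2 => exact ih1.trans ih2
  have step1 : ∀ a b, Nxt ω D1 a b → (a ∈ A ↔ b ∈ A) := by
    rintro a b ⟨h1, rfl⟩
    exact nx_mem_iff hA h1
  have eqv1 : ∀ a b, Relation.EqvGen (Nxt ω D1) a b → (a ∈ A ↔ b ∈ A) := by
    intro a b h
    induction h with
    | rel a b h => exact step1 a b h
    | refl a => exact Iff.rfl
    | symm a b _ ih => exact ih.symm
    | trans a b c _ _ ih1 ih2 => exact ih1.trans ih2
  have eqv12 : ∀ a b, Relation.EqvGen (Nxt ω D1) a b → a ∈ A →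
      Relation.EqvGen (Nxt ω D2) a b := by
    intro a b h'
    induction h' with
    | rel a b h' =>
      intro ha
      exact Relation.EqvGen.rel _ _ ⟨(h a ha).1.1 h'.1, h'.2⟩
    | refl a => intro _; exact Relation.EqvGen.refl _
    | symm a b h' ih => intro hb; exact Relation.EqvGen.symm _ _ (ih ((eqv1 a b h').2 hb))
    | trans a b c h1 _ ih1 ih2 =>
      intro ha
      exact Relation.EqvGen.trans _ _ _ (ih1 ha) (ih2 ((eqv1 a b h1).1 ha))
  have e1 : A = piece ω D2 e0 := by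
    ext e
    rw [mem_piece]
    constructor
    · intro he
      refine ⟨hA2 e he, eqv12 _ _ ?_ he0⟩
      have h1 := eq_piece_of_mem hA he0
      rw [h1, mem_piece] at he
      exact he.2
    · rintro ⟨-, h2⟩
      exact (eqv2 _ _ h2).1 he0
  rw [e1]
  exact piece_mem_pcs (hA2 e0 he0)

/-- The reference half box. -/
noncomputable def HR (K R : ℤ) (u : ℤ × ℤ) : Finset (ℤ × ℤ) := hB u (8 * K * R)

/-- The reference base point. -/
def pR (K R : ℤ) (u : ℤ × ℤ) : ℤ × ℤ := (u.1, u.2 + 8 * K * R)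

theorem geo_HR (hK : 1 ≤ K) (hR : 1 ≤ R) : Geo K R (HR K R u) (pR K R u) u := geo_hB hK hR

namespace Geo

theorem HR_sub (E : Geo K R D p u) : HR K R u ⊆ D := by
  intro v hv
  unfold HR hB at hv
  rw [mem_hA] at hv
  exact (E.fl v hv.2.2).2 hv.1

theorem L8 (E : Geo K R D p u) : 8 * R ≤ 8 * K * R := by
  have := E.KR
  nlinarith

theorem mem_HR (E : Geo K R D p u) {v : ℤ × ℤ} (h : nm (v - u) ≤ R + 1) : v ∈ D ↔ v ∈ HR K R u := by
  have hR := E.R1
  have hL := E.L8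
  unfold HR hB
  rw [mem_hA, E.fl v (by omega)]
  exact ⟨fun h' => ⟨h', nm_nonneg _, by omega⟩, fun h' => h'.1⟩

theorem same (E : Geo K R D p u) (hm : m ≤ R) (hA : Nr D u m A) (hAe : A ⊆ eds D) :
    Same D (HR K R u) A := by
  intro e he
  have h1 : hdv e ∈ D → nm (hdv e - u) ≤ m := fun h => hA.hd he h
  have h2 : tlv e ∈ D → nm (tlv e - u) ≤ m := fun h => by
    by_contra hcon
    push Not at hcon
    exact hA ⟨e, he, Or.inr ⟨h, hcon⟩⟩
  have h3 := nm_hdv_tlv u e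
  rcases mem_eds.1 (hAe he) with h | h
  · have := h1 h
    exact ⟨E.mem_HR (by omega), E.mem_HR (by omega)⟩
  · have := h2 h
    exact ⟨E.mem_HR (by omega), E.mem_HR (by omega)⟩

theorem same' (E : Geo K R D p u) (hm : m ≤ R) (hA : Nr (HR K R u) u m A)
    (hAe : A ⊆ eds (HR K R u)) : Same D (HR K R u) A := by
  intro e he
  have h1 : hdv e ∈ HR K R u → nm (hdv e - u) ≤ m := fun h => hA.hd he h
  have h2 : tlv e ∈ HR K R u → nm (tlv e - u) ≤ m := fun h => by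
    by_contra hcon
    push Not at hcon
    exact hA ⟨e, he, Or.inr ⟨h, hcon⟩⟩
  have h3 := nm_hdv_tlv u e
  rcases mem_eds.1 (hAe he) with h | h
  · have := h1 h
    exact ⟨E.mem_HR (by omega), E.mem_HR (by omega)⟩
  · have := h2 h
    exact ⟨E.mem_HR (by omega), E.mem_HR (by omega)⟩

theorem near_iff (E : Geo K R D p u) (hm : m ≤ R) : (A ∈ pcs ω D ∧ Nr D u m A) ↔
    (A ∈ pcs ω (HR K R u) ∧ Nr (HR K R u) u m A) := by
  constructor
  · rintro ⟨h1, h2⟩
    have h3 := E.same hm h2 (subset_eds h1)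
    exact ⟨h3.mem_pcs h1, h3.nr.1 h2⟩
  · rintro ⟨h1, h2⟩
    have h3 := E.same' hm h2 (subset_eds h1)
    exact ⟨h3.symm.mem_pcs h1, h3.nr.2 h2⟩

theorem eds_HR (E : Geo K R D p u) {e : Ed} (he : e ∈ eds (HR K R u)) : e ∈ eds D := by
  rw [mem_eds] at he ⊢
  exact he.imp (fun h => E.HR_sub h) fun h => E.HR_sub h

/-- The base point of the reference domain has the same potential. -/
theorem pot_pR (E : Geo K R D p u) (h0 : 0 ≤ m) (hm : m ≤ R) (hN : Nr D u m A) {v : ℤ × ℤ → ℤ}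
    (hv : PotD D A v) : v (pR K R u) = v p := by
  have hK := E.one_le
  have hR := E.R1
  have hKR := E.KR
  have hnm : nm (pR K R u - u) = 8 * K * R := by
    unfold nm pR
    simp only [Prod.fst_sub, Prod.snd_sub, sub_self, abs_zero, add_sub_cancel_left]
    rw [abs_of_nonneg (by nlinarith), max_eq_right (by nlinarith)]
  have hm1 : K * (m + 1) ≤ K * (2 * R) := mul_le_mul_of_nonneg_left (by omega) (by omega)
  refine pot_jn hv (P := FarE D u m) (fun e he hm' => hN ⟨e, hm', he⟩)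
    (E.jn u m (by rw [nm_self]; omega) h0 hm _ (mem_sites_self ((E.fl _ hnm.le).2 ?_)) ?_)
  · show u.2 ≤ u.2 + 8 * K * R
    nlinarith
  · rw [hnm]
    nlinarith

theorem sgA_HR (E : Geo K R D p u) (h0 : 0 ≤ m) (hm : m ≤ R) (hA : A ∈ pcs ω D)
    (hN : Nr D u m A) : sgA D p A = sgA (HR K R u) (pR K R u) A := by
  obtain ⟨hA', -⟩ := (E.near_iff hm).1 ⟨hA, hN⟩
  obtain ⟨e0, he0⟩ := pcs_nonempty hA
  obtain ⟨v, hv⟩ := E.pot ω A hA
  have hv' : PotD (HR K R u) A v := fun e he => hv e (E.eds_HR he)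
  have hE' := geo_HR (u := u) E.one_le E.R1
  have h1 := E.pot_pR h0 hm hN hv
  have j1 := E.jt _ (rs_mem_sites (subset_eds hA he0))
  have j2 := hE'.jt _ (rs_mem_sites (subset_eds hA' he0))
  rw [sgA_eq hA he0, sgA_eq hA' he0]
  unfold sgn
  have i1 : (∃ u, PotD D A u ∧ u p = u (rs e0)) ↔ v p = v (rs e0) := by
    constructor
    · rintro ⟨v', hv'', h⟩
      have := pot_uniq hv hv'' j1
      omega
    · exact fun h => ⟨v, hv, h⟩
  have i2 : (∃ u_1, PotD (HR K R u) A u_1 ∧ u_1 (pR K R u) = u_1 (rs e0)) ↔ v p = v (rs e0) := by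
    constructor
    · rintro ⟨v', hv'', h⟩
      have := pot_uniq hv' hv'' j2
      omega
    · exact fun h => ⟨v, hv', by omega⟩
  by_cases h2 : v p = v (rs e0)
  · rw [if_pos (i1.2 h2), if_pos (i2.2 h2)]
  · rw [if_neg fun h => h2 (i1.1 h), if_neg fun h => h2 (i2.1 h)]

theorem se_HR (E : Geo K R D p u) (h0 : 0 ≤ m) (hm : m ≤ R) (hA : A ∈ pcs ω D)
    (hN : Nr D u m A) (hz : z ∈ sites (HR K R u)) :
    se D p A z = se (HR K R u) (pR K R u) A z := by
  obtain ⟨v, hv⟩ := E.pot ω A hA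
  have hv' : PotD (HR K R u) A v := fun e he => hv e (E.eds_HR he)
  have hE' := geo_HR (u := u) E.one_le E.R1
  have h1 := E.pot_pR h0 hm hN hv
  have hz' : z ∈ sites D := by
    rw [mem_sites] at hz ⊢
    obtain ⟨v, h, h'⟩ := hz
    exact ⟨v, E.HR_sub h, h'⟩
  have i1 := sep_iff hv (E.jt z hz')
  have i2 := sep_iff hv' (hE'.jt z hz)
  unfold se
  by_cases h2 : v z ≠ v p
  · rw [if_pos (i1.2 h2), if_pos (i2.2 (by rwa [h1]))]
  · rw [if_neg fun h => h2 (i1.1 h), if_neg fun h => h2 (by rw [← h1]; exact i2.1 h)]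

theorem tt_HR (E : Geo K R D p u) (h0 : 0 ≤ m) (hm : m ≤ R) (hA : A ∈ pcs ω D)
    (hN : Nr D u m A) : tt t D p A = tt t (HR K R u) (pR K R u) A := by
  have h1 := (E.same hm hN (subset_eds hA)).isLp
  have h2 := E.sgA_HR h0 hm hA hN
  unfold tt
  rw [h2]
  by_cases h3 : IsLp D A
  · rw [if_pos h3, if_pos (h1.1 h3)]
  · rw [if_neg h3, if_neg fun h => h3 (h1.2 h)]

/-- **Intrinsic form of the near observables.** -/
theorem SP_HR (E : Geo K R D p u) (h0 : 0 ≤ m) (hm : m ≤ R) {P P' : Finset Ed → Prop}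
    {G G' : Finset Ed → ℝ} (hP : ∀ A, P A → Nr D u m A) (hP' : ∀ A, P' A → Nr (HR K R u) u m A)
    (hPP : ∀ ω : Cfg, ∀ A ∈ pcs ω D, Same D (HR K R u) A → (P A ↔ P' A))
    (hG : ∀ ω : Cfg, ∀ A ∈ pcs ω D, Nr D u m A → G A = G' A) (ω : Cfg) :
    SP t D p P G ω = SP t (HR K R u) (pR K R u) P' G' ω := by
  classical
  unfold SP
  have e : (pcs ω D).filter P = (pcs ω (HR K R u)).filter P' := by
    ext A
    rw [mem_filter, mem_filter]
    constructor
    · rintro ⟨h1, h2⟩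
      have h3 := E.same hm (hP A h2) (subset_eds h1)
      exact ⟨h3.mem_pcs h1, (hPP ω A h1 h3).1 h2⟩
    · rintro ⟨h1, h2⟩
      have h3 := E.same' hm (hP' A h2) (subset_eds h1)
      have h4 := h3.symm.mem_pcs h1
      exact ⟨h4, (hPP ω A h4 h3).2 h2⟩
  rw [← e]
  refine Finset.sum_congr rfl fun A hA => ?_
  rw [mem_filter] at hA
  rw [E.tt_HR h0 hm hA.1 (hP A hA.2), hG ω A hA.1 (hP A hA.2)]

end Geo

end Vale.Agent.P167.H365.NQ
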