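import Vale.Agent.P167.H365.Q.Intr

/-!
# P167, general `q`, block Q-NRED: the mean of the stagger in the reference box (mirror images)
-/

namespace Vale.Agent.P167.H365.NQ

open Finset Vale.Agent.P167.BR Vale.Agent.P167.FK Vale.Agent.P167.FKA

variable {D D1 D2 : Finset (ℤ × ℤ)} {y u p p' z z1 z2 : ℤ × ℤ} {a r R K L m : ℤ} {ω ω' : Cfg}
  {A : Finset Ed} {t : Fin 3 → ℝ} {e : Ed} {c : ℤ}

/-- Mirror image of the squares at the column `c` of sites. -/
def mjV (c : ℤ) : ℤ × ℤ ≃ ℤ × ℤ where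
  toFun v := (2 * c - 1 - v.1, v.2)
  invFun v := (2 * c - 1 - v.1, v.2)
  left_inv := by intro v; simp
  right_inv := by intro v; simp

/-- Mirror image of the medial edges. -/
def mkE (c : ℤ) : Ed ≃ Ed where
  toFun
    | Sum.inl v => Sum.inl (2 * c - 2 - v.1, v.2)
    | Sum.inr v => Sum.inr (2 * c - 1 - v.1, v.2)
  invFun
    | Sum.inl v => Sum.inl (2 * c - 2 - v.1, v.2)
    | Sum.inr v => Sum.inr (2 * c - 1 - v.1, v.2)
  left_inv := by rintro (v | v) <;> simp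
  right_inv := by rintro (v | v) <;> simp

/-- Mirror image of the sites. -/
def msV (c : ℤ) (z : ℤ × ℤ) : ℤ × ℤ := (2 * c - z.1, z.2)

theorem msV_msV (c : ℤ) (z : ℤ × ℤ) : msV c (msV c z) = z := by simp [msV]

theorem syR_mj (c : ℤ) (ω : Cfg) : SyR (mkE c) (mjV c) ω (ω ∘ fun v => (2 * c - 1 - v.1, v.2)) where
  n := by
    have k1 : ∀ x : ℤ, 2 * c - 1 - (x + 1) = 2 * c - 2 - x := fun x => by ring
    have k2 : ∀ x : ℤ, 2 * c - 1 - x - 1 = 2 * c - 2 - x := fun x => by ring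
    have k3 : ∀ x : ℤ, 2 * c - 2 - x + 1 = 2 * c - 1 - x := fun x => by ring
    have k4 : ∀ x : ℤ, 2 * c - 2 - (x - 1) = 2 * c - 1 - x := fun x => by ring
    have k5 : ∀ x : ℤ, 2 * c - 1 - (2 * c - 1 - x) = x := fun x => by ring
    have k6 : ∀ x : ℤ, 2 * c - 1 - (2 * c - 2 - x) = x + 1 := fun x => by ring
    have e1 : ∀ x y : ℤ, Even (2 * c - 1 - x + y) ↔ ¬ Even (x + y) := fun x y => by
      rw [Int.even_iff, Int.even_iff]; omega
    have e2 : ∀ x y : ℤ, Even (2 * c - 2 - x + y) ↔ Even (x + y) := fun x y => by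
      rw [Int.even_iff, Int.even_iff]; omega
    rintro (⟨x, y⟩ | ⟨x, y⟩)
    · by_cases h : Even (x + y)
      · cases h1 : ω (x + 1, y) <;>
          simp [nx, mkE, h, h1, ev1, ev2, ev3, ev4, e1, e2, k1, k2, k3, k4, k5, k6]
      · cases h1 : ω (x, y) <;>
          simp [nx, mkE, h, h1, ev1, ev2, ev3, ev4, e1, e2, k1, k2, k3, k4, k5, k6]
    · by_cases h : Even (x + y)
      · cases h1 : ω (x, y) <;>
          simp [nx, mkE, h, h1, ev1, ev2, ev3, ev4, e1, e2, k1, k2, k3, k4, k5, k6]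
      · cases h1 : ω (x, y + 1) <;>
          simp [nx, mkE, h, h1, ev1, ev2, ev3, ev4, e1, e2, k1, k2, k3, k4, k5, k6]
  h := by
    have e1 : ∀ x y : ℤ, Even (2 * c - 1 - x + y) ↔ ¬ Even (x + y) := fun x y => by
      rw [Int.even_iff, Int.even_iff]; omega
    have e2 : ∀ x y : ℤ, Even (2 * c - 2 - x + y) ↔ Even (x + y) := fun x y => by
      rw [Int.even_iff, Int.even_iff]; omega
    rintro (⟨x, y⟩ | ⟨x, y⟩) <;> by_cases h : Even (x + y) <;>
      simp [hdv, tlv, mkE, mjV, h, e1, e2] <;> omega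
  t := by
    have e1 : ∀ x y : ℤ, Even (2 * c - 1 - x + y) ↔ ¬ Even (x + y) := fun x y => by
      rw [Int.even_iff, Int.even_iff]; omega
    have e2 : ∀ x y : ℤ, Even (2 * c - 2 - x + y) ↔ Even (x + y) := fun x y => by
      rw [Int.even_iff, Int.even_iff]; omega
    rintro (⟨x, y⟩ | ⟨x, y⟩) <;> by_cases h : Even (x + y) <;>
      simp [hdv, tlv, mkE, mjV, h, e1, e2] <;> omega

theorem ls_mk (c : ℤ) (e : Ed) : ls (mkE c e) = msV c (ls e) ∧ rs (mkE c e) = msV c (rs e) := by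
  have e1 : ∀ x y : ℤ, Even (2 * c - 1 - x + y) ↔ ¬ Even (x + y) := fun x y => by
    rw [Int.even_iff, Int.even_iff]; omega
  have e2 : ∀ x y : ℤ, Even (2 * c - 2 - x + y) ↔ Even (x + y) := fun x y => by
    rw [Int.even_iff, Int.even_iff]; omega
  rcases e with ⟨x, y⟩ | ⟨x, y⟩ <;> by_cases h : Even (x + y) <;>
    simp [ls, rs, mkE, msV, h, e1, e2] <;> omega

theorem Ex_mj (c : ℤ) {Q : ℝ} (hQ : 0 < Q) (D : Finset (ℤ × ℤ)) (F : Cfg → ℝ) :
    Ex Q D eta0 F = Ex Q (D.image fun v => (2 * c - 1 - v.1, v.2)) eta0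
      (fun ω => F (ω ∘ fun v => (2 * c - 1 - v.1, v.2))) := by
  have h := (sym_of (mjV c) (fun _ => rfl) (mkE c) fun ω => (syR_mj c ω).sy).2 Q D eta0 F hQ
    good_eta0
  exact h

/-! ### Pieces under a reversing symmetry -/

section sy

variable {φ : Ed ≃ Ed} {σ : ℤ × ℤ ≃ ℤ × ℤ}

theorem mem_imσ {v : ℤ × ℤ} : σ v ∈ D.image σ ↔ v ∈ D := by
  rw [mem_im, Equiv.symm_apply_apply]

theorem sy_eds (h : SyR φ σ ω ω') : φ e ∈ eds (D.image σ) ↔ e ∈ eds D := by
  rw [mem_eds, mem_eds, h.h, h.t, mem_imσ, mem_imσ]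
  exact or_comm

theorem sy_nxt (h : SyR φ σ ω ω') {a b : Ed} (hn : Nxt ω D a b) :
    Nxt ω' (D.image σ) (φ b) (φ a) := by
  obtain ⟨h1, rfl⟩ := hn
  exact ⟨by rw [h.h, tlv_nx, mem_imσ]; exact h1, (h.n a).symm⟩

theorem sy_eqv (h : SyR φ σ ω ω') {a b : Ed} (hn : Relation.EqvGen (Nxt ω D) a b) :
    Relation.EqvGen (Nxt ω' (D.image σ)) (φ a) (φ b) := by
  induction hn with
  | rel a b h' => exact Relation.EqvGen.symm _ _ (Relation.EqvGen.rel _ _ (sy_nxt h h'))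
  | refl a => exact Relation.EqvGen.refl _
  | symm a b _ ih => exact Relation.EqvGen.symm _ _ ih
  | trans a b c _ _ ih1 ih2 => exact Relation.EqvGen.trans _ _ _ ih1 ih2

theorem im_symm_im (D : Finset (ℤ × ℤ)) : (D.image σ).image σ.symm = D :=
  im_im_symm σ.symm D

theorem sy_eqv_iff (h : SyR φ σ ω ω') {a b : Ed} :
    Relation.EqvGen (Nxt ω' (D.image σ)) (φ a) (φ b) ↔ Relation.EqvGen (Nxt ω D) a b := by
  refine ⟨fun h' => ?_, sy_eqv h⟩
  have := sy_eqv h.symm h'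
  rwa [im_symm_im, Equiv.symm_apply_apply, Equiv.symm_apply_apply] at this

theorem sy_piece (h : SyR φ σ ω ω') : piece ω' (D.image σ) (φ e) = (piece ω D e).image φ := by
  ext e'
  rw [mem_im, mem_piece, mem_piece]
  obtain ⟨e'', rfl⟩ := φ.surjective e'
  rw [Equiv.symm_apply_apply, sy_eds h, sy_eqv_iff h]

theorem sy_pcs (h : SyR φ σ ω ω') {A' : Finset Ed} : A' ∈ pcs ω' (D.image σ) ↔
    ∃ A ∈ pcs ω D, A.image φ = A' := by
  constructor
  · intro hA
    obtain ⟨e', he'⟩ := pcs_nonempty hA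
    obtain ⟨e, rfl⟩ := φ.surjective e'
    have h1 := subset_eds hA he'
    refine ⟨piece ω D e, piece_mem_pcs ((sy_eds h).1 h1), ?_⟩
    rw [← sy_piece h]
    exact (eq_piece_of_mem hA he').symm
  · rintro ⟨A, hA, rfl⟩
    obtain ⟨e, he⟩ := pcs_nonempty hA
    rw [eq_piece_of_mem hA he, ← sy_piece h]
    exact piece_mem_pcs ((sy_eds h).2 (subset_eds hA he))

theorem sy_isLp (h : SyR φ σ ω ω') (hA : A ∈ pcs ω D) :
    IsLp (D.image σ) (A.image φ) ↔ IsLp D A := by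
  constructor
  · intro h'
    by_contra hl
    obtain ⟨e, he, ht⟩ := exists_entry hA hl
    have := h' (φ e) (mem_image_of_mem _ he)
    rw [h.h, mem_imσ] at this
    exact ht this
  · intro hl e' he'
    rw [mem_image] at he'
    obtain ⟨e, he, rfl⟩ := he'
    rw [h.h, mem_imσ]
    exact hl.tl hA he

end sy

/-! ### The mirror at `c` -/

theorem nm_mj (c : ℤ) (v b : ℤ × ℤ) : nm (mjV c v - mjV c b) = nm (v - b) := by
  show nm ((2 * c - 1 - v.1, v.2) - (2 * c - 1 - b.1, b.2)) = nm (v - b)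
  unfold nm
  simp only [Prod.fst_sub, Prod.snd_sub]
  rw [show 2 * c - 1 - v.1 - (2 * c - 1 - b.1) = -(v.1 - b.1) by ring, abs_neg]

theorem farA_mj (c : ℤ) {b : ℤ × ℤ} (hω : SyR (mkE c) (mjV c) ω ω') :
    FarA (D.image (mjV c)) (mjV c b) r (A.image (mkE c)) ↔ FarA D b r A := by
  constructor
  · rintro ⟨e', he', h⟩
    rw [mem_image] at he'
    obtain ⟨e, he, rfl⟩ := he'
    refine ⟨e, he, ?_⟩
    unfold FarE at h ⊢
    rw [hω.h, hω.t, mem_imσ, mem_imσ, nm_mj, nm_mj] at h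
    exact h.symm
  · rintro ⟨e, he, h⟩
    refine ⟨_, mem_image_of_mem _ he, ?_⟩
    unfold FarE at h ⊢
    rw [hω.h, hω.t, mem_imσ, mem_imσ, nm_mj, nm_mj]
    exact h.symm

theorem potD_mj (c : ℤ) (hω : SyR (mkE c) (mjV c) ω ω') {v : ℤ × ℤ → ℤ} (hv : PotD D A v) :
    PotD (D.image (mjV c)) (A.image (mkE c)) (fun z => v (msV c z)) := by
  intro e' he'
  obtain ⟨e, rfl⟩ := (mkE c).surjective e'
  have h1 := hv e ((sy_eds hω).1 he')
  have h2 := ls_mk c e
  simp only [h2.1, h2.2, msV_msV]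
  rw [h1]
  congr 1
  have h3 : mkE c e ∈ A.image (mkE c) ↔ e ∈ A := by
    rw [mem_im, Equiv.symm_apply_apply]
  simp only [h3]

theorem mj_mj (c : ℤ) (D : Finset (ℤ × ℤ)) : (D.image (mjV c)).image (mjV c) = D := by
  ext v
  rw [mem_im, mem_im]
  exact Iff.of_eq (congrArg (· ∈ D) (by
    show (2 * c - 1 - (2 * c - 1 - v.1), v.2) = v
    ext <;> simp))

theorem mk_mk (c : ℤ) (A : Finset Ed) : (A.image (mkE c)).image (mkE c) = A := by
  have h : ∀ e, (mkE c).symm e = mkE c e := fun e => by rcases e with v | v <;> rfl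
  ext e
  rw [mem_im, mem_im, h, h]
  have : mkE c (mkE c e) = e := by rw [← h, Equiv.symm_apply_apply]
  rw [this]

theorem sgA_mj (c : ℤ) : sgA (D.image (mjV c)) (msV c p) (A.image (mkE c)) = sgA D p A := by
  have hω := syR_mj c eta0
  have hω' := syR_mj c eta0
  unfold sgA
  have i1 : (∃ v, PotD (D.image (mjV c)) (A.image (mkE c)) v ∧ ∃ e ∈ A.image (mkE c),
      v (msV c p) = v (rs e)) ↔ (∃ v, PotD D A v ∧ ∃ e ∈ A, v p = v (rs e)) := by
    constructor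
    · rintro ⟨v, hv, e', he', h⟩
      rw [mem_image] at he'
      obtain ⟨e, he, rfl⟩ := he'
      refine ⟨fun z => v (msV c z), ?_, e, he, ?_⟩
      · have := potD_mj c hω hv
        rwa [mj_mj, mk_mk] at this
      · rw [(ls_mk c e).2] at h
        exact h
    · rintro ⟨v, hv, e, he, h⟩
      refine ⟨_, potD_mj c hω hv, _, mem_image_of_mem _ he, ?_⟩
      rw [(ls_mk c e).2, msV_msV, msV_msV]
      exact h
  by_cases h2 : ∃ v, PotD D A v ∧ ∃ e ∈ A, v p = v (rs e)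
  · rw [if_pos h2, if_pos (i1.2 h2)]
  · rw [if_neg h2, if_neg fun h => h2 (i1.1 h)]

theorem sgA_base (hN : Nr D u m A) (h : Jn D (FarE D u m) p' p) : sgA D p' A = sgA D p A := by
  have key : ∀ v : ℤ × ℤ → ℤ, PotD D A v → v p' = v p := fun v hv =>
    pot_jn hv (fun e he hm => hN ⟨e, hm, he⟩) h
  unfold sgA
  have i1 : (∃ v, PotD D A v ∧ ∃ e ∈ A, v p' = v (rs e)) ↔
      (∃ v, PotD D A v ∧ ∃ e ∈ A, v p = v (rs e)) := by
    constructor
    · rintro ⟨v, hv, e, he, h1⟩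
      exact ⟨v, hv, e, he, by rw [← key v hv]; exact h1⟩
    · rintro ⟨v, hv, e, he, h1⟩
      exact ⟨v, hv, e, he, by rw [key v hv]; exact h1⟩
  by_cases h2 : ∃ v, PotD D A v ∧ ∃ e ∈ A, v p = v (rs e)
  · rw [if_pos h2, if_pos (i1.2 h2)]
  · rw [if_neg h2, if_neg fun h => h2 (i1.1 h)]

theorem hB_mj (c : ℤ) : (hB u L).image (mjV c) = hB (2 * c - 1 - u.1, u.2) L := by
  ext v
  rw [mem_im, mem_hB', mem_hB']
  show u.1 - L ≤ 2 * c - 1 - v.1 ∧ 2 * c - 1 - v.1 ≤ u.1 + L ∧ u.2 ≤ v.2 ∧ v.2 ≤ u.2 + L ↔ _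
  simp only
  omega

/-- The mean of the stagger in the reference box. -/
noncomputable def sref (Q : ℝ) (t : Fin 3 → ℝ) (K R m x : ℤ) : ℝ :=
  Ex Q (HR K R (x, 0)) eta0 (SP t (HR K R (x, 0)) (pR K R (x, 0))
    (Nr (HR K R (x, 0)) (x, 0) m) (sx (HR K R (x, 0)) (pR K R (x, 0)) x))

theorem sref_mj {Q : ℝ} (hQ : 0 < Q) (hK : 1 ≤ K) (hR : 1 ≤ R) (h0 : 0 ≤ m) (hm : m ≤ R)
    (c x : ℤ) : sref Q t K R m x = sref Q t K R m (2 * c - 1 - x) := by
  classical
  have hE := geo_HR (u := ((x, 0) : ℤ × ℤ)) hK hR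
  have hE' := geo_HR (u := ((2 * c - 1 - x, 0) : ℤ × ℤ)) hK hR
  have hD : (HR K R (x, 0)).image (mjV c) = HR K R (2 * c - 1 - x, 0) := hB_mj c
  have hD' : (HR K R (2 * c - 1 - x, 0)).image (fun v => (2 * c - 1 - v.1, v.2)) =
      HR K R (x, 0) := by
    rw [← hD]
    exact mj_mj c _
  unfold sref
  symm
  rw [Ex_mj c hQ, hD']
  congr 1
  funext ω
  have hω := syR_mj c ω
  set ω' : Cfg := ω ∘ fun v => (2 * c - 1 - v.1, v.2)
  set D := HR K R (x, 0)
  set D' := HR K R (2 * c - 1 - x, 0)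
  have hb : mjV c (x, 0) = (2 * c - 1 - x, 0) := rfl
  have hfil : (pcs ω' D').filter (Nr D' (2 * c - 1 - x, 0) m) =
      ((pcs ω D).filter (Nr D (x, 0) m)).image fun A => A.image (mkE c) := by
    ext A'
    rw [mem_filter, mem_image]
    constructor
    · rintro ⟨h1, h2⟩
      rw [← hD, sy_pcs hω] at h1
      obtain ⟨A, hA, rfl⟩ := h1
      refine ⟨A, mem_filter.2 ⟨hA, fun h => h2 ?_⟩, rfl⟩
      rw [← hD, ← hb]
      exact (farA_mj c hω).2 h
    · rintro ⟨A, hA, rfl⟩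
      rw [mem_filter] at hA
      refine ⟨?_, fun h => hA.2 ?_⟩
      · rw [← hD, sy_pcs hω]
        exact ⟨A, hA.1, rfl⟩
      · rw [← hD, ← hb] at h
        exact (farA_mj c hω).1 h
  unfold SP
  rw [hfil, Finset.sum_image fun A _ B _ h => Finset.image_injective (mkE c).injective h]
  refine Finset.sum_congr rfl fun A hA => ?_
  rw [mem_filter] at hA
  obtain ⟨hA, hN⟩ := hA
  have hN' : Nr D' (2 * c - 1 - x, 0) m (A.image (mkE c)) := fun h => hN (by
    rw [← hD, ← hb] at h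
    exact (farA_mj c hω).1 h)
  have hKR := hE.KR
  have hL8 := hE.L8
  have hm1 : K * (m + 1) ≤ K * (2 * R) := mul_le_mul_of_nonneg_left (by omega) (by omega)
  have hj : Jn D' (FarE D' (2 * c - 1 - x, 0) m) (msV c (pR K R (x, 0)))
      (pR K R (2 * c - 1 - x, 0)) := by
    refine hE'.jn _ m (by rw [nm_self]; omega) h0 hm _ ?_ ?_
    · rw [mem_sites]
      refine ⟨(2 * c - 1 - x, 8 * K * R), ?_, Or.inr ?_, Or.inl ?_⟩
      · show _ ∈ hB _ _
        rw [mem_hB']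
        simp only
        omega
      · show 2 * c - x = 2 * c - 1 - x + 1
        ring
      · show 0 + 8 * K * R = 8 * K * R
        ring
    · rw [lt_nm]
      right; right; left
      show K * (m + 1) < 0 + 8 * K * R - 0
      nlinarith
  have hs : sgA D' (pR K R (2 * c - 1 - x, 0)) (A.image (mkE c)) = sgA D (pR K R (x, 0)) A := by
    rw [← sgA_base hN' hj, ← hD, sgA_mj]
  have hl : IsLp D' (A.image (mkE c)) ↔ IsLp D A := by
    rw [← hD]
    exact sy_isLp hω hA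
  have hf : fe (2 * c - 1 - x) ∈ A.image (mkE c) ↔ fe x ∈ A := by
    rw [mem_im]
    have : (mkE c).symm (fe (2 * c - 1 - x)) = fe x := by
      show Sum.inr (2 * c - 1 - (2 * c - 1 - x), -1) = Sum.inr (x, -1)
      rw [show 2 * c - 1 - (2 * c - 1 - x) = x by ring]
    rw [this]
  unfold tt sx
  rw [hs]
  simp only [hl, hf]

/-- **The mean of the stagger does not depend on the point.** -/
theorem sref_eq {Q : ℝ} (hQ : 0 < Q) (hK : 1 ≤ K) (hR : 1 ≤ R) (h0 : 0 ≤ m) (hm : m ≤ R)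
    (x x' : ℤ) : sref Q t K R m x = sref Q t K R m x' := by
  have key : ∀ x x' : ℤ, Odd (x + x') → sref Q t K R m x = sref Q t K R m x' := by
    rintro x x' ⟨j, hj⟩
    have := sref_mj (t := t) hQ hK hR h0 hm (j + 1) x
    rwa [show 2 * (j + 1) - 1 - x = x' by omega] at this
  rcases Int.even_or_odd (x + x') with h | h
  · rw [key x (x + 1) ⟨x, by ring⟩]
    refine key (x + 1) x' ?_
    obtain ⟨j, hj⟩ := h
    exact ⟨j, by omega⟩
  · exact key x x' h

end Vale.Agent.P167.H365.NQ
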