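import Vale.Agent.P167.H365.Q.Mir
import Vale.Agent.P167.H562.Q.Mom2
import Vale.Agent.P167.QM.Blk

/-!
# P167, general `q`, block Q-NRED: moments of the near observables
-/

namespace Vale.Agent.P167.H365.NQ

open Finset Vale.Agent.P167.BR Vale.Agent.P167.FK Vale.Agent.P167.FKA
open Vale.Agent.P167.H562.QM (FltQ)
open Vale.Agent.P167.H166 (bxx mem_bxx)
open Vale.Agent.P167.H167 (Bg)
open Vale.Agent.P167.H192.Q (FlatA I2Q I3Q)

variable {Q : ℝ} {D D1 D2 : Finset (ℤ × ℤ)} {η : Cfg} {y u p c x : ℤ × ℤ} {a d r R K L m : ℤ}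
  {ω ω' : Cfg} {A : Finset Ed} {t : Fin 3 → ℝ}

/-- Geometry and law near the flat point `u`. -/
structure GQ (K R : ℤ) (D : Finset (ℤ × ℤ)) (η : Cfg) (p u : ℤ × ℤ) : Prop where
  geo : Geo K R D p u
  good : Good η
  fl : FltQ D η u (8 * K * R) false false

theorem EnvQ.gq {w w' : Finset Ed → ℝ} {M : ℝ} (E : EnvQ Q t K R D η p w w' M u) :
    GQ K R D η p u := ⟨E.geo, E.good, E.fl⟩

theorem gq_HR (hK : 1 ≤ K) (hR : 1 ≤ R) : GQ K R (HR K R u) eta0 (pR K R u) u where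
  geo := geo_HR hK hR
  good := good_eta0
  fl := ⟨(geo_HR hK hR).fl, fun v _ _ => by simp [eta0]⟩

theorem flt_shift (h : FltQ D η u L false false) (hy : nm (y - u) + r ≤ L) (hy2 : y.2 = u.2) :
    FltQ D η y r false false := by
  refine ⟨fun v hv => ?_, fun v hv hv2 => ?_⟩
  · rw [hy2]
    exact h.dom v (by have := nm_tri v y u; omega)
  · have := h.out v (by have := nm_tri v y u; omega) (by omega)
    simpa using this

/-- The second moment of the number of the big pieces with fixed constants. -/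
def M2c (Q C : ℝ) (Lam : ℕ) : Prop := ∀ (D : Finset (ℤ × ℤ)) (η : Cfg),
    Good η → ∀ (c : ℤ × ℤ) (L d : ℤ), 1 ≤ d → 0 ≤ L → L ≤ Lam * d →
    (∀ (y : ℤ × ℤ) (a : ℤ), 1 ≤ a → bxx y a ⊆ bxx c (2 * L + 2 * d) → H562.QM.OneC y a D η) →
    ∀ G : Cfg → ℝ, (∀ ω, 0 ≤ G ω) → Ind (bxx c (2 * L + 2 * d)) G →
    Ex Q D η (fun ω => G ω * ((Bg D c L d ω).card : ℝ) ^ 2) ≤ C * Ex Q D η G

theorem m2c_of (hQ : 1 ≤ Q) (h : RSW Q) (Lam : ℕ) : ∃ C : ℝ, 0 < C ∧ M2c Q C Lam :=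
  H562.QM.mom2 hQ h Lam

theorem cf_mod (D : Finset (ℤ × ℤ)) (η : Cfg) (S : Finset (ℤ × ℤ)) :
    (fun v => if v ∈ D then cf D η S v else η v) = cf D η S := by
  funext v
  by_cases h : v ∈ D <;> simp [cf, h]

theorem M2c.use {C : ℝ} {Lam : ℕ} (h : M2c Q C Lam) (E : GQ K R D η p u)
    (hc : nm (c - u) + (2 * L + 2 * d) ≤ 8 * K * R) (hd : 1 ≤ d) (hL : 0 ≤ L) (hLd : L ≤ Lam * d)
    {G : Cfg → ℝ} (hG0 : ∀ ω, 0 ≤ G ω) {A : Finset (ℤ × ℤ)}
    (hA : ∀ v ∈ D, nm (v - c) ≤ 2 * L + 2 * d → v ∈ A) (hG : Ind A G) :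
    Ex Q D η (fun ω => G ω * ((Bg D c L d ω).card : ℝ) ^ 2) ≤ C * Ex Q D η G := by
  have h1 := h D η E.good c L d hd hL hLd (fun y a _ hy => E.fl.oneC fun v hv => by
      have := mem_bxx.1 (hy hv)
      have := nm_tri v c u
      omega) (fun ω => G (fun v => if v ∈ D then ω v else η v)) (fun ω => hG0 _) (by
      intro ω ω' h'
      refine hG _ _ fun v hv => ?_
      by_cases hvD : v ∈ D
      · rw [if_pos hvD, if_pos hvD]
        exact h' v fun hv' => hv (hA v hvD (mem_bxx.1 hv'))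
      · rw [if_neg hvD, if_neg hvD])
  have e1 : Ex Q D η (fun ω => G (fun v => if v ∈ D then ω v else η v) *
      ((Bg D c L d ω).card : ℝ) ^ 2) =
      Ex Q D η (fun ω => G ω * ((Bg D c L d ω).card : ℝ) ^ 2) :=
    Ex_congr fun S _ => by simp only [cf_mod]
  have e2 : Ex Q D η (fun ω => G (fun v => if v ∈ D then ω v else η v)) = Ex Q D η G :=
    Ex_congr fun S _ => by simp only [cf_mod]
  rw [e1, e2] at h1
  exact h1

theorem card_le_sq (n : ℕ) : (n : ℝ) ≤ (n : ℝ) ^ 2 := by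
  exact_mod_cast (by nlinarith [Nat.zero_le n] : n ≤ n ^ 2)

theorem M2c.use1 {C : ℝ} {Lam : ℕ} (hQ : 0 < Q) (h : M2c Q C Lam) (E : GQ K R D η p u)
    (hc : nm (c - u) + (2 * L + 2 * d) ≤ 8 * K * R) (hd : 1 ≤ d) (hL : 0 ≤ L) (hLd : L ≤ Lam * d)
    {G : Cfg → ℝ} (hG0 : ∀ ω, 0 ≤ G ω) {A : Finset (ℤ × ℤ)}
    (hA : ∀ v ∈ D, nm (v - c) ≤ 2 * L + 2 * d → v ∈ A) (hG : Ind A G) :
    Ex Q D η (fun ω => G ω * ((Bg D c L d ω).card : ℝ)) ≤ C * Ex Q D η G := by
  refine le_trans (Ex_mono hQ fun S _ => ?_) (h.use E hc hd hL hLd hG0 hA hG)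
  exact mul_le_mul_of_nonneg_left (card_le_sq _) (hG0 _)

/-- The bound of the derivative weights. -/
noncomputable def T0 (t : Fin 3 → ℝ) : ℝ := |t 0| + |t 1| + |t 2|

theorem T0_nonneg (t : Fin 3 → ℝ) : 0 ≤ T0 t := by unfold T0; positivity

open Classical in
theorem SP_le {P : Finset Ed → Prop} {g : Finset Ed → ℝ} (hg : ∀ A, |g A| ≤ 1) {n : ℝ}
    (h : (((pcs ω D).filter fun A => P A ∧ g A ≠ 0).card : ℝ) ≤ n) :
    |SP t D p P g ω| ≤ T0 t * n := by
  unfold SP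
  have h1 : ∑ A ∈ (pcs ω D).filter P, tt t D p A * g A =
      ∑ A ∈ (pcs ω D).filter (fun A => P A ∧ g A ≠ 0), tt t D p A * g A := by
    rw [← Finset.filter_filter]
    refine (Finset.sum_filter_of_ne fun A _ h => ?_).symm
    exact right_ne_zero_of_mul h
  rw [h1]
  calc |∑ A ∈ (pcs ω D).filter (fun A => P A ∧ g A ≠ 0), tt t D p A * g A|
      ≤ ∑ A ∈ (pcs ω D).filter (fun A => P A ∧ g A ≠ 0), |tt t D p A * g A| :=
        Finset.abs_sum_le_sum_abs _ _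
    _ ≤ ∑ _A ∈ (pcs ω D).filter (fun A => P A ∧ g A ≠ 0), T0 t := by
        refine Finset.sum_le_sum fun A _ => ?_
        rw [abs_mul]
        have h2 := abs_tt t D p A
        have h3 := hg A
        have h4 : 0 ≤ |tt t D p A| := abs_nonneg _
        calc |tt t D p A| * |g A| ≤ |tt t D p A| * 1 := mul_le_mul_of_nonneg_left h3 h4
          _ ≤ T0 t := by rw [mul_one]; exact h2
    _ = T0 t * (((pcs ω D).filter fun A => P A ∧ g A ≠ 0).card : ℝ) := by
        rw [Finset.sum_const, nsmul_eq_mul, mul_comm]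
    _ ≤ T0 t * n := mul_le_mul_of_nonneg_left h (T0_nonneg t)

/-! ### Rings around a site -/

/-- The class of a ring. -/
def Rg (D : Finset (ℤ × ℤ)) (c : ℤ × ℤ) (r L : ℤ) (A : Finset Ed) : Prop :=
  Nr D c L A ∧ ¬ Nr D c r A

theorem ringQ_Bg (E : Geo K R D p u) (hc : nm (c - u) + L ≤ R) (hcs : c ∈ sites D)
    (hd1 : 1 ≤ d) (hd : d = 1 ∨ K * (d + 1) ≤ r) (hdR : d ≤ R) (hA : A ∈ pcs ω D)
    (hR : Rg D c r L A) (hS : Sep D A c p) : A ∈ Bg D c L d ω := by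
  obtain ⟨hN, hfar⟩ := hR
  obtain ⟨e2, h2, h3, h4⟩ := far_hd hA (not_nr.1 hfar)
  rw [mem_Bg]
  refine ⟨hA, ⟨e2, h2, hN.hd h2 h3⟩, fun hs => ?_⟩
  rcases hd with rfl | hd
  · exact not_small_one hA (by simpa using hs)
  · have h5 := hN.hd h2 h3
    have h7 := nm_tri (hdv e2) c u
    have hj := E.jn (hdv e2) d (by omega) (by omega) hdR c hcs (by rw [nm_comm]; omega)
    refine not_sep (fun e he hm => ?_) hj hS
    have h10 := hs _ (mem_image_of_mem hdv hm) _ (mem_image_of_mem hdv h2)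
    have h11 : nm (hdv e - hdv e2) < d := by exact_mod_cast h10
    have h12 := (nm_hdv_tlv (hdv e2) e).2
    rcases he with he | he
    · omega
    · omega

theorem dd2_le (hr : 1 ≤ r) : dd (2 * K) r ≤ r := dd_le hr le_rfl

theorem dd2_or (hK : 1 ≤ K) : dd (2 * K) r = 1 ∨ K * (dd (2 * K) r + 1) ≤ r := by
  rcases dd_or (K := 2 * K) (r := r) (by omega) with h | h
  · exact Or.inl h
  · right
    have := dd_one (2 * K) r
    nlinarith

open Classical in
theorem ring_card (E : Geo K R D p u) (hc : nm (c - u) + L ≤ R) (hcs : c ∈ sites D)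
    (hr : 1 ≤ r) (hrL : r ≤ L) {P : Finset Ed → Prop} (hP : ∀ A, P A → Rg D c r L A) :
    (((pcs ω D).filter fun A => P A ∧ se D p A c ≠ 0).card : ℝ) ≤
      ((Bg D c L (dd (2 * K) r) ω).card : ℝ) := by
  have hsub : ((pcs ω D).filter fun A => P A ∧ se D p A c ≠ 0) ⊆
      Bg D c L (dd (2 * K) r) ω := by
    intro A hA
    rw [mem_filter] at hA
    have h1 := dd2_le (K := K) hr
    have h2 := nm_nonneg (c - u)
    exact ringQ_Bg E hc hcs (dd_one _ _) (dd2_or E.one_le) (by omega) hA.1 (hP A hA.2.1)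
      (se_ne hA.2.2)
  exact_mod_cast Finset.card_le_card hsub

theorem ring_Lam (hK : 1 ≤ K) (hL : L ≤ 300 * r) :
    L ≤ ((1200 * K).toNat : ℕ) * dd (2 * K) r := by
  rw [Int.toNat_of_nonneg (by omega)]
  have h1 : r < 2 * K * (r / (2 * K)) + 2 * K := Int.lt_mul_ediv_self_add (by omega)
  have h2 : r / (2 * K) ≤ dd (2 * K) r := le_max_right _ _
  have h3 := dd_one (2 * K) r
  nlinarith

/-- **First moment of a ring around a site.** -/
theorem ring_mom {C : ℝ} (hQ : 0 < Q) (h : M2c Q C (1200 * K).toNat) (E : GQ K R D η p u)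
    (hc : nm (c - u) + 4 * L ≤ R) (hcs : c ∈ sites D) (hr : 1 ≤ r) (hrL : r ≤ L)
    (hL : L ≤ 300 * r) {P : Finset Ed → Prop} (hP : ∀ A, P A → Rg D c r L A) {G : Cfg → ℝ} (hG0 : ∀ ω, 0 ≤ G ω) {A : Finset (ℤ × ℤ)}
    (hA : ∀ v ∈ D, nm (v - c) ≤ 4 * L → v ∈ A) (hG : Ind A G) :
    Ex Q D η (fun ω => G ω * |SP t D p P (fun A => se D p A c) ω|) ≤
      (T0 t * C) * Ex Q D η G := by
  have hK := E.geo.one_le
  have hKR := E.geo.KR
  have hL8 := E.geo.L8
  have hR1 := E.geo.R1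
  have h1 := dd2_le (K := K) hr
  have h2 := nm_nonneg (c - u)
  have h3 := h.use1 (d := dd (2 * K) r) (L := L) (c := c) hQ E (by omega) (dd_one _ _) (by omega)
    (ring_Lam hK hL) hG0 (A := A) (fun v hv hv2 => hA v hv (by omega)) hG
  calc Ex Q D η (fun ω => G ω * |SP t D p P (fun A => se D p A c) ω|)
      ≤ Ex Q D η (fun ω => T0 t * (G ω * ((Bg D c L (dd (2 * K) r) ω).card : ℝ))) := by
        refine Ex_mono hQ fun S _ => ?_
        have h4 := SP_le (t := t) (p := p) (D := D) (P := P)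
          (g := fun A => se D p A c) (fun A => abs_se)
          (ring_card (ω := cf D η S) E.geo (by omega) hcs hr hrL hP)
        have := mul_le_mul_of_nonneg_left h4 (hG0 (cf D η S))
        linarith
    _ = T0 t * Ex Q D η (fun ω => G ω * ((Bg D c L (dd (2 * K) r) ω).card : ℝ)) := Ex_mul_left _ _
    _ ≤ T0 t * (C * Ex Q D η G) := mul_le_mul_of_nonneg_left h3 (T0_nonneg t)
    _ = _ := by ring

/-- **First moment of the smallest pieces.** -/
theorem core_mom {C : ℝ} (hQ : 0 < Q) (h : M2c Q C (1200 * K).toNat) (E : GQ K R D η p u)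
    (hc : nm (c - u) + 4 ≤ R) {g : Finset Ed → ℝ} (hg : ∀ A, |g A| ≤ 1)
    {G : Cfg → ℝ} (hG0 : ∀ ω, 0 ≤ G ω) {A : Finset (ℤ × ℤ)}
    (hA : ∀ v ∈ D, nm (v - c) ≤ 4 → v ∈ A) (hG : Ind A G) :
    Ex Q D η (fun ω => G ω * |SP t D p (Nr D c 1) g ω|) ≤ (T0 t * C) * Ex Q D η G := by
  classical
  have hK := E.geo.one_le
  have hL8 := E.geo.L8
  have h2 := nm_nonneg (c - u)
  have h3 := h.use1 (d := 1) (L := 1) (c := c) hQ E (by omega) le_rfl zero_le_one (by
    rw [Int.toNat_of_nonneg (by omega)]; omega) hG0 (A := A)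
    (fun v hv hv2 => hA v hv (by omega)) hG
  calc Ex Q D η (fun ω => G ω * |SP t D p (Nr D c 1) g ω|)
      ≤ Ex Q D η (fun ω => T0 t * (G ω * ((Bg D c 1 1 ω).card : ℝ))) := by
        refine Ex_mono hQ fun S _ => ?_
        have h5 : (((pcs (cf D η S) D).filter fun A => Nr D c 1 A ∧ g A ≠ 0).card : ℝ) ≤
            ((Bg D c 1 1 (cf D η S)).card : ℝ) := by
          have hsub : ((pcs (cf D η S) D).filter fun A => Nr D c 1 A ∧ g A ≠ 0) ⊆
              Bg D c 1 1 (cf D η S) := by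
            intro A hA
            rw [mem_filter] at hA
            exact core_Bg hA.1 hA.2.1
          exact_mod_cast Finset.card_le_card hsub
        have h4 := SP_le (t := t) (p := p) (D := D) (P := Nr D c 1) (g := g) hg h5
        have := mul_le_mul_of_nonneg_left h4 (hG0 (cf D η S))
        linarith
    _ = T0 t * Ex Q D η (fun ω => G ω * ((Bg D c 1 1 ω).card : ℝ)) := Ex_mul_left _ _
    _ ≤ T0 t * (C * Ex Q D η G) := mul_le_mul_of_nonneg_left (by exact_mod_cast h3) (T0_nonneg t)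
    _ = _ := by ring

end Vale.Agent.P167.H365.NQ
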