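import Vale.Agent.P167.H365.Q.Mom

/-!
# P167, general `q`, block Q-NRED: moments of the near observables (far pieces, bulk)
-/

namespace Vale.Agent.P167.H365.NQ

open Finset Vale.Agent.P167.BR Vale.Agent.P167.FK Vale.Agent.P167.FKA
open Vale.Agent.P167.H562.QM (FltQ)
open Vale.Agent.P167.H166 (bxx mem_bxx)
open Vale.Agent.P167.H167 (Bg)
open Vale.Agent.P167.H192.Q (FlatA I2Q I3Q)

variable {Q : ℝ} {D D1 D2 : Finset (ℤ × ℤ)} {η : Cfg} {y u p c x : ℤ × ℤ} {a d r R K L m : ℤ}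
  {ω ω' : Cfg} {A : Finset Ed} {t : Fin 3 → ℝ}

/-- The indicator of a crossing. -/
noncomputable def i2 (y : ℤ × ℤ) (r R : ℤ) : Cfg → ℝ := {ω | TwoS y r R ω}.indicator 1

theorem i2_nonneg (y : ℤ × ℤ) (r R : ℤ) (ω : Cfg) : 0 ≤ i2 y r R ω := ind_nonneg _ _

theorem i2_one (h : TwoS y r R ω) : i2 y r R ω = 1 := by
  unfold i2
  rw [Set.indicator_of_mem (show ω ∈ {ω | TwoS y r R ω} from h)]
  rfl

theorem i2_congr (h : ∀ v ∈ hA y r R, ω v = ω' v) : i2 y r R ω = i2 y r R ω' := by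
  have h1 : ω ∈ {ω | TwoS y r R ω} ↔ ω' ∈ {ω | TwoS y r R ω} := twoS_congr h
  unfold i2
  by_cases h2 : ω ∈ {ω | TwoS y r R ω}
  · rw [Set.indicator_of_mem h2, Set.indicator_of_mem (h1.1 h2)]
    rfl
  · rw [Set.indicator_of_notMem h2, Set.indicator_of_notMem fun h3 => h2 (h1.2 h3)]

/-- The two-arm bound with fixed constants. -/
def I2c (Q C : ℝ) : Prop := ∀ (D : Finset (ℤ × ℤ)) (η : Cfg)
  (b : ℤ × ℤ) (r R : ℤ) (G : Cfg → ℝ), Good η → FlatA false D η b r R → 1 ≤ r → r ≤ R →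
  (∀ ω, 0 ≤ G ω) → Ind (hA b r R) G →
  Ex Q D η (fun ω => G ω * i2 b r R ω) ≤ C * ((r : ℝ) / R) * Ex Q D η G

theorem i2c_of (h : I2Q Q) : ∃ C : ℝ, 0 < C ∧ I2c Q C := by
  obtain ⟨C, hC, h⟩ := h
  exact ⟨C, hC, fun D η b r R G h1 h2 h3 h4 h5 h6 => h false D η b r R G h1 h2 h3 h4 h5 h6⟩

/-- **First moment of the pieces which go far.** -/
theorem far_mom {C C2 : ℝ} (hQ : 0 < Q) (hC : 0 < C) (hC2 : 0 < C2) (h : M2c Q C (1200 * K).toNat)
    (h2 : I2c Q C2) (E : GQ K R D η p u) {k : ℤ} (hk : 1 ≤ k) (hx : nm (x - u) + r ≤ R)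
    (hx2 : x.2 = u.2) (hkr : 4 * k + 1 ≤ r) {P : Finset Ed → Prop} {g : Finset Ed → ℝ}
    (hg : ∀ A, |g A| ≤ 1)
    (hP : ∀ ω : Cfg, ∀ A ∈ pcs ω D, P A → g A ≠ 0 → FarA D x r A ∧ VisI D x (k + 1) A)
    {G : Cfg → ℝ} (hG0 : ∀ ω, 0 ≤ G ω) (hG : Ind (hB x r) G) :
    Ex Q D η (fun ω => G ω * |SP t D p P g ω|) ≤
      (T0 t * (5 * C * C2) * ((k : ℝ) / r)) * Ex Q D η G := by
  classical
  have hK := E.geo.one_le
  have hL8 := E.geo.L8
  have h0 := nm_nonneg (x - u)
  have hF : Fl D x (r + 1) := E.geo.fl' (by omega) hx2 (by have := E.geo.R1; omega)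
  have hflt : FltQ D η x r false false := flt_shift E.fl (by omega) hx2
  set G1 : Cfg → ℝ := fun ω => G ω * i2 x (4 * k + 1) r ω with hG1
  have hG10 : ∀ ω, 0 ≤ G1 ω := fun ω => mul_nonneg (hG0 ω) (i2_nonneg _ _ _ _)
  have hG1I : Ind (hB x (4 * k)) G1 := by
    intro ω ω' h'
    simp only [hG1]
    rw [hG ω ω' fun v hv => h' v fun hv' => hv (by
      rw [mem_hB'] at hv' ⊢; omega), i2_congr fun v hv => h' v fun hv' => ?_]
    rw [mem_hA] at hv
    unfold hB at hv'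
    rw [mem_hA] at hv'
    omega
  have h3 := h.use1 (d := k) (L := k) (c := x) (G := G1) hQ E (by omega) hk (by omega) (by
    rw [Int.toNat_of_nonneg (by omega)]; nlinarith) hG10 (A := hB x (4 * k)) (fun v hv hv2 => by
      unfold hB
      rw [mem_hA]
      exact ⟨(hF v (by omega)).1 hv, nm_nonneg _, by omega⟩) hG1I
  have h4 := h2 D η x (4 * k + 1) r G E.good (flt_flatA hflt _) (by omega) hkr hG0
    (hG.mono fun v hv => by
      unfold hB
      rw [mem_hA] at hv ⊢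
      exact ⟨hv.1, nm_nonneg _, hv.2.2⟩)
  have hr0 : (0 : ℝ) < r := by exact_mod_cast (by omega : 0 < r)
  have hkr1 : (1 : ℝ) ≤ k := by exact_mod_cast hk
  have hEG : 0 ≤ Ex Q D η G := Ex_nonneg hQ fun _ _ => hG0 _
  calc Ex Q D η (fun ω => G ω * |SP t D p P g ω|)
      ≤ Ex Q D η (fun ω => T0 t * (G1 ω * ((Bg D x k k ω).card : ℝ))) := by
        refine Ex_mono hQ fun S _ => ?_
        set ω := cf D η S
        have h5 : (((pcs ω D).filter fun A => P A ∧ g A ≠ 0).card : ℝ) ≤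
            i2 x (4 * k + 1) r ω * ((Bg D x k k ω).card : ℝ) := by
          rcases Finset.eq_empty_or_nonempty ((pcs ω D).filter fun A => P A ∧ g A ≠ 0) with
            he | ⟨A0, hA0⟩
          · rw [he, Finset.card_empty, Nat.cast_zero]
            exact mul_nonneg (i2_nonneg _ _ _ _) (Nat.cast_nonneg _)
          · obtain ⟨h6, h7, h8⟩ := mem_filter.1 hA0
            obtain ⟨h9, e, h10, h11, h12⟩ := hP ω A0 h6 h7 h8
            obtain ⟨c, -, hc⟩ := exists_cro (a := 4 * k + 1) (m := r) hF hkr h6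
              ⟨e, h10, h11, by omega⟩ h9
            rw [i2_one ⟨c, hc⟩, one_mul]
            have hsub : ((pcs ω D).filter fun A => P A ∧ g A ≠ 0) ⊆ Bg D x k k ω := by
              intro A hA
              rw [mem_filter] at hA
              obtain ⟨h13, e, h14, h15, h16⟩ := hP ω A hA.1 hA.2.1 hA.2.2
              rw [mem_Bg]
              refine ⟨hA.1, ⟨e, h14, by omega⟩, fun hs => ?_⟩
              obtain ⟨e3, h17, h18, h19⟩ := far_hd hA.1 h13
              have h20 := hs _ (Finset.mem_image_of_mem hdv h17) _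
                (Finset.mem_image_of_mem hdv h14)
              have h21 : nm (hdv e3 - hdv e) < k := by exact_mod_cast h20
              have h22 := nm_tri (hdv e3) (hdv e) x
              omega
            exact_mod_cast Finset.card_le_card hsub
        have h6 := SP_le (t := t) (p := p) (D := D) (P := P) (g := g) hg h5
        have h7 := mul_le_mul_of_nonneg_left h6 (hG0 ω)
        calc G ω * |SP t D p P g ω| ≤ G ω * (T0 t * (i2 x (4 * k + 1) r ω *
              ((Bg D x k k ω).card : ℝ))) := h7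
          _ = _ := by simp only [hG1]; ring
    _ = T0 t * Ex Q D η (fun ω => G1 ω * ((Bg D x k k ω).card : ℝ)) := Ex_mul_left _ _
    _ ≤ T0 t * (C * Ex Q D η G1) := mul_le_mul_of_nonneg_left h3 (T0_nonneg t)
    _ ≤ T0 t * (C * (C2 * (((4 * k + 1 : ℤ) : ℝ) / r) * Ex Q D η G)) :=
        mul_le_mul_of_nonneg_left (mul_le_mul_of_nonneg_left h4 hC.le) (T0_nonneg t)
    _ ≤ T0 t * (C * (C2 * (5 * ((k : ℝ) / r)) * Ex Q D η G)) := by
        have h5 : ((4 * k + 1 : ℤ) : ℝ) / r ≤ 5 * ((k : ℝ) / r) := by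
          push_cast
          rw [← mul_div_assoc]
          exact div_le_div_of_nonneg_right (by linarith) hr0.le
        refine mul_le_mul_of_nonneg_left (mul_le_mul_of_nonneg_left
          (mul_le_mul_of_nonneg_right (mul_le_mul_of_nonneg_left h5 hC2.le) hEG) hC.le)
          (T0_nonneg t)
    _ = _ := by ring

/-! ### The bulk -/

theorem same_bulk (hD : ∀ v, nm (v - c) ≤ L + 1 → v ∈ D) (hL : 1 ≤ L) (hA : A ∈ pcs ω D)
    (hN : Nr D c L A) : Same D (Bq c (6 * L)) A := by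
  intro e he
  have h1 : hdv e ∈ D → nm (hdv e - c) ≤ L := fun h => hN.hd he h
  have h2 : tlv e ∈ D → nm (tlv e - c) ≤ L := fun h => by
    by_contra hcon
    push Not at hcon
    exact hN ⟨e, he, Or.inr ⟨h, hcon⟩⟩
  have h3 := nm_hdv_tlv c e
  have key : ∀ v : ℤ × ℤ, nm (v - c) ≤ L + 1 → (v ∈ D ↔ v ∈ Bq c (6 * L)) := by
    intro v hv
    refine ⟨fun _ => ?_, fun _ => hD v hv⟩
    rw [QM.consBq]
    rw [nm_le'] at hv
    simp only [Prod.fst_sub, Prod.snd_sub] at hv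
    omega
  rcases mem_eds.1 (subset_eds hA he) with h | h
  · have := h1 h
    exact ⟨key _ (by omega), key _ (by omega)⟩
  · have := h2 h
    exact ⟨key _ (by omega), key _ (by omega)⟩

/-- Second moment in the bulk, for any class of pieces. -/
theorem bulk_mom {C : ℝ} (hQ : 0 < Q) (h : M2c Q C (1200 * K).toNat) (hK : 1 ≤ K)
    (hD : ∀ v, nm (v - c) ≤ L + 1 → v ∈ D) (hd1 : 1 ≤ d) (hdL : d ≤ L)
    (hLd : L ≤ 1200 * K * d) {P : Finset Ed → Prop} {g : Finset Ed → ℝ}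
    (hg : ∀ A, |g A| ≤ 1) (hP : ∀ ω : Cfg, ∀ A ∈ pcs ω D, P A → g A ≠ 0 →
      Nr D c L A ∧ A ∈ Bg D c L d ω) {ξ : Cfg} (hξ : Good ξ) :
    Ex Q (Bq c (6 * L)) ξ (fun ω => SP t D p P g ω ^ 2) ≤ T0 t ^ 2 * C := by
  classical
  have h3 := h (Bq c (6 * L)) ξ hξ c L d hd1 (by omega) (by
    rw [Int.toNat_of_nonneg (by omega)]; exact hLd) (fun y a _ hy =>
      H562.QM.oneC_sub fun v hv => ?_) (fun _ => 1) (fun _ => zero_le_one) fun _ _ _ => rfl
  · rw [Ex_const hQ, mul_one] at h3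
    calc Ex Q (Bq c (6 * L)) ξ (fun ω => SP t D p P g ω ^ 2)
        ≤ Ex Q (Bq c (6 * L)) ξ
          (fun ω => T0 t ^ 2 * (1 * ((Bg (Bq c (6 * L)) c L d ω).card : ℝ) ^ 2)) := by
          refine Ex_mono hQ fun S _ => ?_
          set ω := cf (Bq c (6 * L)) ξ S
          have h5 : (((pcs ω D).filter fun A => P A ∧ g A ≠ 0).card : ℝ) ≤
              ((Bg (Bq c (6 * L)) c L d ω).card : ℝ) := by
            have hsub : ((pcs ω D).filter fun A => P A ∧ g A ≠ 0) ⊆
                Bg (Bq c (6 * L)) c L d ω := by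
              intro A hA
              rw [mem_filter] at hA
              obtain ⟨h6, h7⟩ := hP ω A hA.1 hA.2.1 hA.2.2
              rw [mem_Bg] at h7 ⊢
              exact ⟨(same_bulk hD (by omega) hA.1 h6).mem_pcs hA.1, h7.2⟩
            exact_mod_cast Finset.card_le_card hsub
          have h6 := SP_le (t := t) (p := p) (D := D) (P := P) (g := g) hg h5
          rw [one_mul, ← mul_pow, ← sq_abs]
          exact pow_le_pow_left₀ (abs_nonneg _) h6 2
      _ = T0 t ^ 2 * Ex Q (Bq c (6 * L)) ξ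
          (fun ω => 1 * ((Bg (Bq c (6 * L)) c L d ω).card : ℝ) ^ 2) := Ex_mul_left _ _
      _ ≤ _ := mul_le_mul_of_nonneg_left h3 (sq_nonneg _)
  · have := hy hv
    rw [mem_bxx, nm_le'] at this
    simp only [Prod.fst_sub, Prod.snd_sub] at this
    rw [QM.consBq]
    omega

end Vale.Agent.P167.H365.NQ
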