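import Vale.Agent.P167.H365.Q.NearF

/-!
# P167, general `q`, block Q-NRED: the near part, the small scales
-/

namespace Vale.Agent.P167.H365.NQ

open Finset Vale.Agent.P167.BR Vale.Agent.P167.FK Vale.Agent.P167.FKA
open Vale.Agent.P167.H562.QM (FltQ)
open Vale.Agent.P167.H166 (bxx mem_bxx)
open Vale.Agent.P167.H167 (Bg)
open Vale.Agent.P167.H192.Q (FlatA I2Q I3Q)

variable {Q : ℝ} {D H D1 D2 : Finset (ℤ × ℤ)} {η : Cfg} {y u p c x z z1 z2 : ℤ × ℤ}
  {a d r r' R K L m : ℤ} {ω ω' : Cfg} {A : Finset Ed} {t : Fin 3 → ℝ} {X Y N N' : Cfg → ℝ}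
  {M B : ℝ} {Cm C2 γ Ce : ℝ}

theorem mem_sites_flat (E : Geo K R D p u) (h : nm (c - u) ≤ 8 * K * R) (h2 : u.2 ≤ c.2) :
    c ∈ sites D := mem_sites_self ((E.fl c h).2 h2)

/-- The error of a ring around a site. -/
theorem ring_er (S : Cs Q K Cm C2 γ Ce) (h : XY Q K R D η p u X Y M)
    {P : Finset (ℤ × ℤ) → Finset Ed → Prop} (hP : ∀ D A, P D A → Rg D c r L A)
    (hsame : ∀ D1 D2 A, Same D1 D2 A → (P D1 A ↔ P D2 A)) (hy2 : y.2 = u.2) (hr : 1 ≤ r)
    (hrL : r ≤ L) (hL : L ≤ 300 * r) (hcy : 4 * L + nm (c - y) ≤ r') (hr'R : r' ≤ R / 2)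
    (hyr : nm (y - u) ≤ R / 2) (hc2 : u.2 ≤ c.2) :
    |er Q D η (HR K R u) X (SP t D p (P D) (fun A => se D p A c))| ≤
      Ce * ((r' : ℝ) / R) ^ (1 + γ) * (T0 t * Cm * M) := by
  have hL8 := h.gq.geo.L8
  have hn1 := nm_nonneg (c - y)
  have hn2 := nm_nonneg (y - u)
  have hcu := nm_tri c y u
  have hO : Obs K R u y r' P (fun D p A => se D p A c) :=
    ⟨fun D A hA => (hP D A hA).1.mono (by omega), hsame,
      intr_se (mem_sites_flat (geo_HR h.gq.geo.one_le h.gq.geo.R1) (by omega) hc2)⟩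
  have hLB := hO.locB (t := t) (B := T0 t * Cm) S.hQ0 h.gq (by omega) hy2
    (fun D' η' p' E' G hG0 hG => by
      refine ring_mom (t := t) (A := hB y r') S.hQ0 S.m2 E' (c := c) (L := L) (r := r) (by omega)
        (mem_sites_flat E'.geo (by omega) hc2) hr hrL hL (fun A => hP D' A) hG0
        (fun v hv hv2 => ?_) hG
      have h1 := nm_tri v c y
      have h2 := nm_tri v y u
      unfold hB
      rw [mem_hA, hy2]
      exact ⟨(E'.geo.fl v (by omega)).1 hv, nm_nonneg _, by omega⟩)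
  exact S.err K R D η p u X Y M h y r' _ _ hyr hy2 (by omega) hr'R hLB

/-- The error of the smallest pieces. -/
theorem core_er (S : Cs Q K Cm C2 γ Ce) (h : XY Q K R D η p u X Y M)
    {g : Finset (ℤ × ℤ) → ℤ × ℤ → Finset Ed → ℝ} (hg : ∀ D p A, |g D p A| ≤ 1)
    (hintr : ∀ D p, Geo K R D p u → ∀ ω : Cfg, ∀ A ∈ pcs ω D, Nr D u R A →
        g D p A = g (HR K R u) (pR K R u) A) (hy2 : y.2 = u.2)
    (hcy : 4 + nm (c - y) ≤ r') (hr'R : r' ≤ R / 2) (hyr : nm (y - u) ≤ R / 2) :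
    |er Q D η (HR K R u) X (SP t D p (Nr D c 1) (g D p))| ≤
      Ce * ((r' : ℝ) / R) ^ (1 + γ) * (T0 t * Cm * M) := by
  have hL8 := h.gq.geo.L8
  have hn1 := nm_nonneg (c - y)
  have hn2 := nm_nonneg (y - u)
  have hcu := nm_tri c y u
  have hO : Obs K R u y r' (fun D A => Nr D c 1 A) g :=
    ⟨fun D A hA => hA.mono (by omega), fun D1 D2 A h => h.nr, hintr⟩
  have hLB := hO.locB (t := t) (B := T0 t * Cm) S.hQ0 h.gq (by omega) hy2
    (fun D' η' p' E' G hG0 hG => by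
      refine core_mom (t := t) (A := hB y r') S.hQ0 S.m2 E' (c := c) (by omega)
        (hg D' p') hG0 (fun v hv hv2 => ?_) hG
      have h1 := nm_tri v c y
      have h2 := nm_tri v y u
      unfold hB
      rw [mem_hA, hy2]
      exact ⟨(E'.geo.fl v (by omega)).1 hv, nm_nonneg _, by omega⟩)
  exact S.err K R D η p u X Y M h y r' _ _ hyr hy2 (by omega) hr'R hLB

theorem same_nr2 (x : ℤ × ℤ) (a b : ℤ) (y : ℤ × ℤ) : ∀ D1 D2 A, Same D1 D2 A →
    ((Nr D1 x a A ∧ ¬ Nr D1 y b A) ↔ (Nr D2 x a A ∧ ¬ Nr D2 y b A)) := fun D1 D2 A h => by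
  rw [h.nr, h.nr]

/-- **The small scales, boundary site.** -/
theorem base_xQ (S : Cs Q K Cm C2 γ Ce) (t : Fin 3 → ℝ) : ∃ C : ℝ, 0 ≤ C ∧
    ∀ (R : ℤ) (D : Finset (ℤ × ℤ)) (η : Cfg) (p u : ℤ × ℤ)
      (X Y : Cfg → ℝ) (M : ℝ), XY Q K R D η p u X Y M → ∀ (k : ℕ) (x : ℤ × ℤ), 1 ≤ k →
      64 * (k : ℤ) ≤ R → nm (x - u) ≤ R / 2 → x.2 = u.2 →
    |er Q D η (HR K R u) X (SP t D p (Nr D x (8 * k)) (fun A => se D p A x))| ≤
      C * M * ((k : ℝ) / R) ^ (1 + γ) := by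
  have hγ := S.γ0
  have hCm := S.Cm0
  have hCe := S.Ce0
  have hT := T0_nonneg t
  obtain ⟨Cg, hCg, hg⟩ := geom (1 + γ) (by linarith)
  refine ⟨Ce * (T0 t * Cm) * (32 ^ (1 + γ) * (2 + Cg)), by positivity,
    fun R D η p u X Y M h k x hk hkR hx hx2 => ?_⟩
  obtain ⟨J, hJ1, hJ2⟩ := exists_log hk
  have hM := h.M0 S.hQ0
  have hR0 : (0 : ℝ) < R := by exact_mod_cast (by omega : 0 < R)
  have hkr : (1 : ℝ) ≤ k := by exact_mod_cast hk
  have hJz : (2 : ℤ) ^ J ≤ k := by exact_mod_cast hJ1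
  have hJz2 : (k : ℤ) < 2 * 2 ^ J := by
    have : (k : ℤ) < 2 ^ (J + 1) := by exact_mod_cast hJ2
    rwa [pow_succ, mul_comm] at this
  have hp1 : ∀ i : ℕ, (1 : ℤ) ≤ 2 ^ i := fun i => one_le_pow₀ (by norm_num)
  have hpJ : ∀ i : ℕ, i ≤ J → (2 : ℤ) ^ i ≤ 2 ^ J := fun i hi =>
    pow_le_pow_right₀ (by norm_num) hi
  have h4 : nm (x - x) = 0 := nm_self x
  -- core
  have core : |er Q D η (HR K R u) X (SP t D p (Nr D x (2 ^ 0)) (fun A => se D p A x))| ≤
      Ce * (((4 : ℤ) : ℝ) / R) ^ (1 + γ) * (T0 t * Cm * M) := by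
    have := core_er (t := t) (c := x) (y := x) (r' := 4) S h (g := fun D p A => se D p A x)
      (fun _ _ _ => abs_se) (intr_se (mem_sites_flat (geo_HR h.gq.geo.one_le h.gq.geo.R1)
        (by have := h.gq.geo.L8; have := nm_nonneg (x - u); omega) hx2.ge)) hx2 (by omega)
      (by omega) hx
    simpa using this
  -- rings
  have ring : ∀ i < J, |er Q D η (HR K R u) X (SP t D p (fun A => Nr D x (2 ^ (i + 1)) A ∧
      ¬ Nr D x (2 ^ i) A) (fun A => se D p A x))| ≤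
      Ce * (((8 * 2 ^ i : ℤ) : ℝ) / R) ^ (1 + γ) * (T0 t * Cm * M) := by
    intro i hi
    have h1 := hp1 i
    have h2 := hpJ (i + 1) (by omega)
    have h3 : (2 : ℤ) ^ (i + 1) = 2 * 2 ^ i := by rw [pow_succ, mul_comm]
    exact ring_er (t := t) (c := x) (y := x) (r := 2 ^ i) (L := 2 ^ (i + 1)) (r' := 8 * 2 ^ i) S h
      (P := fun D A => Nr D x (2 ^ (i + 1)) A ∧ ¬ Nr D x (2 ^ i) A) (fun D A h => h)
      (same_nr2 _ _ _ _) hx2 h1 (by omega) (by omega) (by omega) (by omega) hx hx2.ge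
  -- base
  have base : |er Q D η (HR K R u) X (SP t D p (fun A => Nr D x (8 * k) A ∧
      ¬ Nr D x (2 ^ J) A) (fun A => se D p A x))| ≤
      Ce * (((32 * k : ℤ) : ℝ) / R) ^ (1 + γ) * (T0 t * Cm * M) := by
    have h1 := hp1 J
    exact ring_er (t := t) (c := x) (y := x) (r := 2 ^ J) (L := 8 * k) (r' := 32 * k) S h
      (P := fun D A => Nr D x (8 * k) A ∧ ¬ Nr D x (2 ^ J) A) (fun D A h => h)
      (same_nr2 _ _ _ _) hx2 h1 (by omega) (by omega) (by omega) (by omega) hx hx2.ge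
  have e1 := er_split (Q := Q) (D := D) (η := η) (H := HR K R u) (X := X) (t := t) (p := p)
    (P := Nr D x (2 ^ J)) (P' := Nr D x (8 * k)) (fun A h => h.mono (by omega))
    (fun A => se D p A x)
  have e2 := er_chain (Q := Q) (η := η) (H := HR K R u) (X := X) (t := t) (D := D) (p := p)
    (fun A => se D p A x) (P := fun i => Nr D x (2 ^ i)) (fun j A h => h.mono (by
      have h3 : (2 : ℤ) ^ (j + 1) = 2 * 2 ^ j := by rw [pow_succ, mul_comm]
      have := hp1 j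
      omega)) J
  set T := ((32 * k : ℝ) / R) ^ (1 + γ) with hT'
  have hT0 : 0 ≤ T := by positivity
  have m1 : (((4 : ℤ) : ℝ) / R) ^ (1 + γ) ≤ T :=
    rpow_frac_mono (by norm_num) (by push_cast; linarith) hR0 (by linarith)
  have m3 : (((32 * k : ℤ) : ℝ) / R) ^ (1 + γ) = T := by push_cast; rfl
  have m4 : T = 32 ^ (1 + γ) * ((k : ℝ) / R) ^ (1 + γ) := by
    rw [hT', ← Real.mul_rpow (by norm_num) (by positivity)]
    congr 1; ring
  have hTm : 0 ≤ T0 t * Cm * M := by positivity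
  have hsum : ∑ i ∈ range J, Ce * (((8 * 2 ^ i : ℤ) : ℝ) / R) ^ (1 + γ) * (T0 t * Cm * M) ≤
      Ce * (Cg * T) * (T0 t * Cm * M) := by
    rw [← Finset.sum_mul, ← Finset.mul_sum]
    refine mul_le_mul_of_nonneg_right (mul_le_mul_of_nonneg_left ?_ hCe.le) hTm
    have e1 : ∀ i : ℕ, (((8 * 2 ^ i : ℤ) : ℝ) / R) ^ (1 + γ) =
        (8 / R) ^ (1 + γ) * ((2 : ℝ) ^ i) ^ (1 + γ) := fun i => by
      rw [← Real.mul_rpow (by positivity) (by positivity)]
      congr 1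
      push_cast
      ring
    simp only [e1]
    rw [← Finset.mul_sum]
    calc (8 / (R : ℝ)) ^ (1 + γ) * ∑ i ∈ range J, ((2 : ℝ) ^ i) ^ (1 + γ)
        ≤ (8 / R) ^ (1 + γ) * (Cg * ((2 : ℝ) ^ J) ^ (1 + γ)) :=
          mul_le_mul_of_nonneg_left (hg J) (by positivity)
      _ = Cg * (8 * (2 : ℝ) ^ J / R) ^ (1 + γ) := by
          rw [show (8 * (2 : ℝ) ^ J / R) = 8 / R * 2 ^ J by ring,
            Real.mul_rpow (by positivity) (by positivity)]
          ring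
      _ ≤ Cg * T := by
          refine mul_le_mul_of_nonneg_left ?_ hCg.le
          have : (2 : ℝ) ^ J ≤ k := by exact_mod_cast hJ1
          exact rpow_frac_mono (by positivity) (by linarith) hR0 (by linarith)
  rw [e1, e2]
  rw [m3] at base
  calc |er Q D η (HR K R u) X (SP t D p (Nr D x (2 ^ 0)) fun A => se D p A x) +
        ∑ i ∈ range J, er Q D η (HR K R u) X (SP t D p (fun A => Nr D x (2 ^ (i + 1)) A ∧
          ¬ Nr D x (2 ^ i) A) fun A => se D p A x) +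
        er Q D η (HR K R u) X (SP t D p (fun A => Nr D x (8 * k) A ∧ ¬ Nr D x (2 ^ J) A)
          fun A => se D p A x)|
      ≤ (Ce * T * (T0 t * Cm * M) + Ce * (Cg * T) * (T0 t * Cm * M)) +
        Ce * T * (T0 t * Cm * M) := by
        refine (abs_add_le _ _).trans (add_le_add ((abs_add_le _ _).trans (add_le_add
          (core.trans ?_) (((Finset.abs_sum_le_sum_abs _ _).trans (Finset.sum_le_sum fun i hi =>
          ring i (mem_range.1 hi))).trans hsum))) base)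
        exact mul_le_mul_of_nonneg_right (mul_le_mul_of_nonneg_left m1 hCe.le) hTm
    _ = _ := by rw [m4]; ring

/-- **The small scales, site at height `k`: outer part.** -/
theorem base_zQ (S : Cs Q K Cm C2 γ Ce) (t : Fin 3 → ℝ) : ∃ C : ℝ, 0 ≤ C ∧
    ∀ (R : ℤ) (D : Finset (ℤ × ℤ)) (η : Cfg) (p u : ℤ × ℤ)
      (X Y : Cfg → ℝ) (M : ℝ), XY Q K R D η p u X Y M → ∀ (k J : ℕ) (x c : ℤ × ℤ), 1 ≤ k →
      80 * (k : ℤ) ≤ R → nm (x - u) ≤ R / 2 → x.2 = u.2 → c.1 = x.1 → c.2 = x.2 + k →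
      2 ^ J ≤ k → k < 24 * 2 ^ J →
    |er Q D η (HR K R u) X (SP t D p (Nr D x (8 * k)) (fun A => se D p A c)) -
      er Q D η (HR K R u) X (SP t D p (Nr D c (2 ^ J)) (fun A => se D p A c))| ≤
      C * M * ((k : ℝ) / R) ^ (1 + γ) := by
  have hγ := S.γ0
  have hCm := S.Cm0
  have hCe := S.Ce0
  have hT := T0_nonneg t
  refine ⟨Ce * (T0 t * Cm) * 40 ^ (1 + γ), by positivity,
    fun R D η p u X Y M h k J x c hk hkR hx hx2 hc1 hc2 hJ1 hJ2 => ?_⟩
  have hR0 : (0 : ℝ) < R := by exact_mod_cast (by omega : 0 < R)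
  have hkr : (1 : ℝ) ≤ k := by exact_mod_cast hk
  have hcx : nm (c - x) = k := by
    simp only [nm, Prod.fst_sub, Prod.snd_sub, hc1, hc2, sub_self, abs_zero, add_sub_cancel_left,
      Nat.abs_cast, max_eq_right (Int.natCast_nonneg k)]
  have hxc : nm (x - c) = k := by rw [nm_comm, hcx]
  have hp1 : (1 : ℤ) ≤ 2 ^ J := one_le_pow₀ (by norm_num)
  have hJz : (2 : ℤ) ^ J ≤ k := by exact_mod_cast hJ1
  have hJz2 : (k : ℤ) < 24 * 2 ^ J := by exact_mod_cast hJ2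
  rw [er_split (Q := Q) (D := D) (η := η) (H := HR K R u) (X := X) (t := t) (p := p)
    (P := Nr D c (2 ^ J)) (P' := Nr D x (8 * k)) (fun A h => h.mono (by omega))
    (fun A => se D p A c), add_sub_cancel_left]
  have h1 := ring_er (t := t) (c := c) (y := x) (r := 2 ^ J) (L := 9 * k) (r' := 40 * k) S h
      (P := fun D A => Nr D x (8 * k) A ∧ ¬ Nr D c (2 ^ J) A)
      (fun D A h => ⟨h.1.mono (by omega), h.2⟩)
      (same_nr2 _ _ _ _) hx2 hp1 (by omega) (by omega) (by omega) (by omega) hx (by omega)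
  refine h1.trans (le_of_eq ?_)
  have e : (((40 * k : ℤ) : ℝ) / R) ^ (1 + γ) = 40 ^ (1 + γ) * ((k : ℝ) / R) ^ (1 + γ) := by
    rw [← Real.mul_rpow (by norm_num) (by positivity)]
    congr 1; push_cast; ring
  rw [e]
  ring

/-- **The small scales, stagger.** -/
theorem base_sQ (S : Cs Q K Cm C2 γ Ce) (t : Fin 3 → ℝ) : ∃ C : ℝ, 0 ≤ C ∧
    ∀ (R : ℤ) (D : Finset (ℤ × ℤ)) (η : Cfg) (p u : ℤ × ℤ)
      (X Y : Cfg → ℝ) (M : ℝ), XY Q K R D η p u X Y M → ∀ (x1 : ℤ), 16 ≤ R →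
      nm ((x1, u.2) - u) ≤ R / 2 →
    |er Q D η (HR K R u) X (SP t D p (Nr D (x1, u.2) 8) (sx D p x1))| ≤
      C * M * ((1 : ℝ) / R) ^ (1 + γ) := by
  classical
  have hγ := S.γ0
  have hCe := S.Ce0
  have hT := T0_nonneg t
  refine ⟨Ce * T0 t * 8 ^ (1 + γ), by positivity, fun R D η p u X Y M h x1 hR hx => ?_⟩
  have hR0 : (0 : ℝ) < R := by exact_mod_cast (by omega : 0 < R)
  have hn := nm_nonneg ((x1, u.2) - u)
  have hO : Obs K R u (x1, u.2) 8 (fun D A => Nr D (x1, u.2) 8 A) (fun D p => sx D p x1) :=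
    ⟨fun D A hA => hA, fun D1 D2 A h => h.nr, intr_sx x1⟩
  have hle : ∀ (D' : Finset (ℤ × ℤ)) (p' : ℤ × ℤ) (ω : Cfg),
      |SP t D' p' (Nr D' (x1, u.2) 8) (sx D' p' x1) ω| ≤ T0 t := by
    intro D' p' ω
    have h1 : (((pcs ω D').filter fun A => Nr D' (x1, u.2) 8 A ∧ sx D' p' x1 A ≠ 0).card : ℝ) ≤
        1 := by
      have : ((pcs ω D').filter fun A => Nr D' (x1, u.2) 8 A ∧ sx D' p' x1 A ≠ 0).card ≤ 1 := by
        rw [Finset.card_le_one]
        intro A hA B hB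
        rw [mem_filter] at hA hB
        have key : ∀ A, sx D' p' x1 A ≠ 0 → fe x1 ∈ A := fun A hA => by
          by_contra hcon
          exact hA (by unfold sx; rw [if_neg hcon])
        exact eq_of_mem_pcs hA.1 hB.1 (key A hA.2.2) (key B hB.2.2)
      exact_mod_cast this
    have := SP_le (t := t) (p := p') (D := D') (g := sx D' p' x1) (fun A => by
      unfold sx
      split_ifs
      · rw [abs_sgA]
      · simp) h1
    rwa [mul_one] at this
  have hLB := hO.locB (t := t) (B := T0 t) S.hQ0 h.gq (by omega) rfl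
    (fun D' η' p' E' G hG0 hG => by
      rw [← Ex_mul_left]
      refine Ex_mono S.hQ0 fun S' _ => ?_
      have := mul_le_mul_of_nonneg_left (hle D' p' (cf D' η' S')) (hG0 (cf D' η' S'))
      linarith)
  have h1 := S.err K R D η p u X Y M h (x1, u.2) 8 _ _ hx rfl (by omega) (by omega) hLB
  refine h1.trans (le_of_eq ?_)
  have e : (((8 : ℤ) : ℝ) / R) ^ (1 + γ) = 8 ^ (1 + γ) * ((1 : ℝ) / R) ^ (1 + γ) := by
    rw [← Real.mul_rpow (by norm_num) (by positivity)]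
    congr 1; push_cast; ring
  rw [e]
  ring

end Vale.Agent.P167.H365.NQ
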