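import Vale.Agent.P167.H365.Q.Blk

/-!
# P167, general `q`, block Q-NRED: the near part of a cell
-/

namespace Vale.Agent.P167.H365.NQ

open Finset Vale.Agent.P167.BR Vale.Agent.P167.FK Vale.Agent.P167.FKA
open Vale.Agent.P167.H562.QM (FltQ)
open Vale.Agent.P167.H166 (bxx mem_bxx)
open Vale.Agent.P167.H167 (Bg)
open Vale.Agent.P167.H192.Q (FlatA I2Q I3Q)

variable {Q : ℝ} {D H D1 D2 : Finset (ℤ × ℤ)} {η : Cfg} {y u p c x z z1 z2 : ℤ × ℤ}
  {a d r r' R K L m : ℤ} {ω ω' : Cfg} {A : Finset Ed} {t : Fin 3 → ℝ} {X Y N' : Cfg → ℝ}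
  {M B : ℝ} {Cm C2 γ Ce γb Cb : ℝ}

theorem SP_loc_bxx {P : Finset Ed → Prop} {g : Finset Ed → ℝ} (hP : ∀ A, P A → Nr D c L A) :
    Loc (bxx c L) (SP t D p P g) :=
  SP_loc fun A hA e he hd => mem_bxx.2 ((hP A hA).hd he hd)

/-- **All the small loops around the sites at height `k`.** -/
theorem loops_er (S : Cs Q K Cm C2 γ Ce) (hγb : 0 < γb) (hCb : 0 < Cb) (hBL : BL1 Q γb Cb)
    (t : Fin 3 → ℝ) : ∃ C : ℝ, 0 ≤ C ∧
    ∀ (R : ℤ) (D : Finset (ℤ × ℤ)) (η : Cfg) (p u : ℤ × ℤ)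
      (X Y : Cfg → ℝ) (M : ℝ), XY Q K R D η p u X Y M → ∀ (k J : ℕ) (w : ℤ) (I : Finset ℤ)
      (φ : ℤ → ℝ), 12 * 2 ^ J ≤ k → (k : ℤ) ≤ w → 8 * w ≤ R → (∀ x ∈ I, |x - u.1| ≤ w) →
      (∀ x, |φ x| ≤ 1) →
    |∑ x ∈ I, φ x * er Q D η (HR K R u) X (SP t D p (Nr D (x, u.2 + k) (2 ^ J))
      (fun A => se D p A (x, u.2 + k)))| ≤ C * M * (w * ((k : ℝ) / R) ^ (1 + γ)) := by
  have hγ := S.γ0
  have hCm := S.Cm0
  have hCe := S.Ce0
  have hT := T0_nonneg t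
  have hQ0 := S.hQ0
  obtain ⟨Cg, hCg, hg⟩ := geom γb hγb
  set B : ℝ := T0 t * Real.sqrt Cm with hBdef
  have hB0 : 0 ≤ B := by positivity
  have hB2 : B ^ 2 = T0 t ^ 2 * Cm := by
    rw [hBdef, mul_pow, Real.sq_sqrt hCm.le]
  refine ⟨16 * 4 ^ γ * Ce * Cb * B * (1 + Cg), by positivity,
    fun R D η p u X Y M h k J w I φ hJ hkw hwR hI hφ => ?_⟩
  have hM := h.M0 hQ0
  have hK := h.gq.geo.one_le
  have hR1 := h.gq.geo.R1
  have hL8 := h.gq.geo.L8
  have hJz : 12 * (2 : ℤ) ^ J ≤ k := by exact_mod_cast hJ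
  have hp1 : ∀ i : ℕ, (1 : ℤ) ≤ 2 ^ i := fun i => one_le_pow₀ (by norm_num)
  have hpJ : ∀ i : ℕ, i ≤ J → (2 : ℤ) ^ i ≤ 2 ^ J := fun i hi =>
    pow_le_pow_right₀ (by norm_num) hi
  have h1J := hp1 J
  have hk0 : (0 : ℤ) < k := by omega
  have hkr : (0 : ℝ) < k := by exact_mod_cast hk0
  have hw0 : (0 : ℝ) < w := by exact_mod_cast (by omega : 0 < w)
  have hR0 : (0 : ℝ) < R := by exact_mod_cast (by omega : 0 < R)
  have hcu : ∀ x ∈ I, nm ((x, u.2 + (k : ℤ)) - u) ≤ w := by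
    intro x hx
    have := abs_le.1 (hI x hx)
    rw [nm_le']
    simp only [Prod.fst_sub, Prod.snd_sub]
    omega
  have hin : ∀ x ∈ I, ∀ v : ℤ × ℤ, nm (v - (x, u.2 + (k : ℤ))) ≤ k → v ∈ D := by
    intro x hx v hv
    have h1 := nm_tri v (x, u.2 + (k : ℤ)) u
    have h2 := hcu x hx
    refine (h.gq.geo.fl v (by omega)).2 ?_
    rw [nm_le'] at hv
    simp only [Prod.fst_sub, Prod.snd_sub] at hv
    omega
  have hcs : ∀ x ∈ I, (x, u.2 + (k : ℤ)) ∈ sites D := fun x hx =>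
    mem_sites_self (hin x hx _ (by rw [nm_self]; omega))
  set U : ℝ := w * ((k : ℝ) / R) ^ (1 + γ) with hU
  have hU0 : 0 ≤ U := by positivity
  -- core
  have core : |∑ x ∈ I, φ x * er Q D η (HR K R u) X (SP t D p (Nr D (x, u.2 + k) (2 ^ 0))
      (fun A => se D p A (x, u.2 + k)))| ≤ 16 * 4 ^ γ * Ce * Cb * B * M * U := by
    have h1 := scale_er (L := 1) S hBL hCb h (k := k) (w := w) le_rfl (by omega) hkw hwR hI hφ
      (N := fun x => SP t D p (Nr D (x, u.2 + k) (2 ^ 0)) (fun A => se D p A (x, u.2 + k)))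
      (fun x hx => SP_loc_bxx fun A hA => by simpa using hA) hB0 (fun x hx ξ hξ => by
        rw [hB2]
        refine bulk_mom (d := 1) hQ0 S.m2 hK (fun v hv => hin x hx v (by omega)) le_rfl le_rfl
          (by omega) (fun A => abs_se) (fun ω A hA h1 _ => ?_) hξ
        rw [pow_zero] at h1
        exact ⟨h1, by have := core_Bg hA h1; simpa using this⟩)
    refine h1.trans ?_
    have h2 : ((3 * ((1 : ℤ) : ℝ) : ℝ) / k) ^ γb ≤ 1 := by
      refine Real.rpow_le_one (by positivity) ?_ hγb.le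
      rw [div_le_one hkr]
      have : (3 : ℤ) ≤ k := by omega
      push_cast
      rw [mul_one]
      exact_mod_cast this
    calc 16 * 4 ^ γ * Ce * Cb * B * M * (w * ((k : ℝ) / R) ^ (1 + γ) *
          ((3 * ((1 : ℤ) : ℝ) : ℝ) / k) ^ γb)
        ≤ 16 * 4 ^ γ * Ce * Cb * B * M * (w * ((k : ℝ) / R) ^ (1 + γ) * 1) := by gcongr
      _ = _ := by rw [hU]; ring
  -- rings
  have ring : ∀ i < J, |∑ x ∈ I, φ x * er Q D η (HR K R u) X (SP t D p
      (fun A => Nr D (x, u.2 + k) (2 ^ (i + 1)) A ∧ ¬ Nr D (x, u.2 + k) (2 ^ i) A)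
      (fun A => se D p A (x, u.2 + k)))| ≤
      16 * 4 ^ γ * Ce * Cb * B * M * (U * ((6 / k : ℝ) ^ γb * ((2 : ℝ) ^ i) ^ γb)) := by
    intro i hi
    have h1 := hp1 i
    have h2 := hpJ (i + 1) (by omega)
    have h3 : (2 : ℤ) ^ (i + 1) = 2 * 2 ^ i := by rw [pow_succ, mul_comm]
    have h4 := scale_er (L := 2 ^ (i + 1)) S hBL hCb h (k := k) (w := w) (by omega) (by omega) hkw
      hwR hI hφ (N := fun x => SP t D p
      (fun A => Nr D (x, u.2 + k) (2 ^ (i + 1)) A ∧ ¬ Nr D (x, u.2 + k) (2 ^ i) A)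
      (fun A => se D p A (x, u.2 + k)))
      (fun x hx => SP_loc_bxx fun A hA => hA.1) hB0 (fun x hx ξ hξ => by
        rw [hB2]
        have h5 := hcu x hx
        have h6 := dd2_le (K := K) h1
        have h7 := ring_Lam (K := K) (r := 2 ^ i) (L := 2 ^ (i + 1)) hK (by omega)
        rw [Int.toNat_of_nonneg (by omega)] at h7
        exact bulk_mom (d := dd (2 * K) (2 ^ i)) hQ0 S.m2 hK (fun v hv => hin x hx v (by omega))
          (dd_one _ _) (by omega) h7 (fun A => abs_se)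
          (fun ω A hA h8 h9 => ⟨h8.1, ringQ_Bg h.gq.geo (c := (x, u.2 + (k : ℤ))) (by omega)
            (hcs x hx) (dd_one _ _) (dd2_or hK) (by omega) hA h8 (se_ne h9)⟩) hξ)
    refine h4.trans (le_of_eq ?_)
    have e : ((3 * ((2 ^ (i + 1) : ℤ) : ℝ) : ℝ) / k) ^ γb =
        (6 / k : ℝ) ^ γb * ((2 : ℝ) ^ i) ^ γb := by
      rw [← Real.mul_rpow (by positivity) (by positivity)]
      congr 1
      push_cast
      ring
    rw [e, hU]
  have hsum : ∑ i ∈ range J, 16 * 4 ^ γ * Ce * Cb * B * M *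
      (U * ((6 / k : ℝ) ^ γb * ((2 : ℝ) ^ i) ^ γb)) ≤ 16 * 4 ^ γ * Ce * Cb * B * M * (U * Cg) := by
    rw [← Finset.mul_sum, ← Finset.mul_sum, ← Finset.mul_sum]
    have h6 : (6 / k : ℝ) ^ γb * ∑ i ∈ range J, ((2 : ℝ) ^ i) ^ γb ≤ Cg := by
      calc (6 / k : ℝ) ^ γb * ∑ i ∈ range J, ((2 : ℝ) ^ i) ^ γb
          ≤ (6 / k : ℝ) ^ γb * (Cg * ((2 : ℝ) ^ J) ^ γb) :=
            mul_le_mul_of_nonneg_left (hg J) (by positivity)
        _ = Cg * (6 / k * (2 : ℝ) ^ J) ^ γb := by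
            rw [Real.mul_rpow (by positivity) (by positivity)]
            ring
        _ ≤ Cg * 1 := by
            refine mul_le_mul_of_nonneg_left (Real.rpow_le_one (by positivity) ?_ hγb.le) hCg.le
            rw [div_mul_eq_mul_div, div_le_one hkr]
            have : (12 : ℝ) * 2 ^ J ≤ k := by exact_mod_cast hJ
            have h0 : (0 : ℝ) < 2 ^ J := by positivity
            linarith
        _ = Cg := mul_one _
    gcongr
  have e2 : ∑ x ∈ I, φ x * er Q D η (HR K R u) X (SP t D p (Nr D (x, u.2 + k) (2 ^ J))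
      (fun A => se D p A (x, u.2 + k))) =
      ∑ x ∈ I, φ x * er Q D η (HR K R u) X (SP t D p (Nr D (x, u.2 + k) (2 ^ 0))
      (fun A => se D p A (x, u.2 + k))) +
      ∑ i ∈ range J, ∑ x ∈ I, φ x * er Q D η (HR K R u) X (SP t D p
      (fun A => Nr D (x, u.2 + k) (2 ^ (i + 1)) A ∧ ¬ Nr D (x, u.2 + k) (2 ^ i) A)
      (fun A => se D p A (x, u.2 + k))) := by
    rw [Finset.sum_comm, ← Finset.sum_add_distrib]
    refine Finset.sum_congr rfl fun x _ => ?_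
    rw [← Finset.mul_sum, ← mul_add]
    congr 1
    exact er_chain (Q := Q) (η := η) (H := HR K R u) (X := X) (t := t) (D := D) (p := p)
      (fun A => se D p A (x, u.2 + k)) (P := fun i => Nr D (x, u.2 + k) (2 ^ i))
      (fun j A h => h.mono (by
        have h3 : (2 : ℤ) ^ (j + 1) = 2 * 2 ^ j := by rw [pow_succ, mul_comm]
        have := hp1 j
        rw [nm_self]
        omega)) J
  rw [e2]
  refine (abs_add_le _ _).trans ?_
  calc _ ≤ 16 * 4 ^ γ * Ce * Cb * B * M * U + 16 * 4 ^ γ * Ce * Cb * B * M * (U * Cg) :=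
        add_le_add core (((Finset.abs_sum_le_sum_abs _ _).trans (Finset.sum_le_sum fun i hi =>
          ring i (mem_range.1 hi))).trans hsum)
    _ = _ := by ring

end Vale.Agent.P167.H365.NQ
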