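import Vale.Agent.P167.H365.Q.NearC

/-!
# P167, general `q`, block Q-NRED: the near part of a cell, assembly
-/

namespace Vale.Agent.P167.H365.NQ

open Finset Vale.Agent.P167.BR Vale.Agent.P167.FK Vale.Agent.P167.FKA
open Vale.Agent.P167.H562.QM (FltQ)
open Vale.Agent.P167.H166 (bxx mem_bxx)

variable {Q : ℝ} {D H D1 D2 : Finset (ℤ × ℤ)} {η : Cfg} {y u p c x z z1 z2 : ℤ × ℤ}
  {a d r r' R K L m : ℤ} {ω ω' : Cfg} {A : Finset Ed} {t : Fin 3 → ℝ} {X Y N' : Cfg → ℝ}
  {M B : ℝ} {Cm C2 γ Ce γb Cb : ℝ}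

theorem sx_vis {x : ℤ} (hA : A ∈ pcs ω D) (hx : (x, (0 : ℤ)) ∈ D) (h : sx D p x A ≠ 0) :
    VisI D (x, 0) 1 A := by
  classical
  have hm : fe x ∈ A := by
    by_contra hcon
    exact h (by unfold sx; rw [if_neg hcon])
  have h0 : nm ((x, (0 : ℤ)) - (x, 0)) < 1 := by rw [nm_self]; norm_num
  by_cases hp : Even (x + (-1 : ℤ))
  · have ht : tlv (fe x) = (x, 0) := by simp [fe, tlv, hp]
    obtain ⟨e0, h1, -, h3⟩ := pred_mem hA hm (by rw [ht]; exact hx)
    exact ⟨e0, h1, by rw [h3, ht]; exact hx, by rw [h3, ht]; exact h0⟩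
  · have ht : hdv (fe x) = (x, 0) := by simp [fe, hdv, hp]
    exact ⟨_, hm, by rw [ht]; exact hx, by rw [ht]; exact h0⟩

theorem abs_sx (D : Finset (ℤ × ℤ)) (p : ℤ × ℤ) (x : ℤ) (A : Finset Ed) : |sx D p x A| ≤ 1 := by
  unfold sx
  split_ifs
  · rw [abs_sgA]
  · simp

/-- The near part of the flux at `x`. -/
noncomputable def NF (t : Fin 3 → ℝ) (D : Finset (ℤ × ℤ)) (p u : ℤ × ℤ) (m : ℤ) (k : ℕ) (x : ℤ) :
    Cfg → ℝ := SP t D p (Nr D u m) (dl D p (x, 0 + (k : ℤ)) (x, 0))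

/-- The near part of the stagger at `x`. -/
noncomputable def NS (t : Fin 3 → ℝ) (D : Finset (ℤ × ℤ)) (p u : ℤ × ℤ) (m : ℤ) (x : ℤ) :
    Cfg → ℝ := SP t D p (Nr D u m) (sx D p x)

/-- **The near part of a cell.** -/
theorem near_cell (S : Cs Q K Cm C2 γ Ce) (hγb : 0 < γb) (hCb : 0 < Cb) (hBL : BL1 Q γb Cb)
    (t : Fin 3 → ℝ) : ∃ C : ℝ, 0 ≤ C ∧
    ∀ (R : ℤ) (D : Finset (ℤ × ℤ)) (η : Cfg) (p u : ℤ × ℤ)
      (X Y : Cfg → ℝ) (M : ℝ), XY Q K R D η p u X Y M → u.2 = 0 → ∀ (k : ℕ) (w m : ℤ)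
      (I : Finset ℤ) (φ : ℤ → ℝ) (c Cc : ℝ), 12 ≤ k → 32 * (k : ℤ) ≤ w → 4 * w ≤ m → 4 * m ≤ R →
      (∀ x ∈ I, |x - u.1| ≤ w) → (∀ x, |φ x| ≤ 1) → |c| ≤ Cc * k →
    |∑ x ∈ I, φ x * (er Q D η (HR K R u) X (NF t D p u m k x) -
      c * er Q D η (HR K R u) X (NS t D p u m x))| ≤
      C * (1 + Cc) * M * (w * (((k : ℝ) / R) * ((m : ℝ) / R) ^ γ)) := by
  classical
  have hγ := S.γ0
  have hQ0 := S.hQ0
  obtain ⟨Cf, hCf, hfar⟩ := far_rings S t
  obtain ⟨Cx, hCx, hbx⟩ := base_xQ S t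
  obtain ⟨Cz, hCz, hbz⟩ := base_zQ S t
  obtain ⟨Cs', hCs', hbs⟩ := base_sQ S t
  obtain ⟨Cl, hCl, hbl⟩ := loops_er S hγb hCb hBL t
  refine ⟨3 * (Cf + Cx + Cz + Cs') + Cl, by positivity, ?_⟩
  intro R D η p u X Y M h hu2 k w m I φ c Cc hk hkw hwm hmR hI hφ hc
  have hM := h.M0 hQ0
  have hK := h.gq.geo.one_le
  have hL8 := h.gq.geo.L8
  have hkr : (1 : ℝ) ≤ k := by exact_mod_cast (by omega : 1 ≤ k)
  have hR0 : (0 : ℝ) < R := by exact_mod_cast (by omega : 0 < R)
  have hw0 : (1 : ℝ) ≤ w := by exact_mod_cast (by omega : 1 ≤ w)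
  have hm0 : (0 : ℝ) < m := by exact_mod_cast (by omega : 0 < m)
  have hkm : (k : ℝ) ≤ m := by exact_mod_cast (by omega : (k : ℤ) ≤ m)
  have hCc : 0 ≤ Cc := by
    by_contra hcon
    push Not at hcon
    have := abs_nonneg c
    nlinarith
  set T : ℝ := ((k : ℝ) / R) * ((m : ℝ) / R) ^ γ with hT
  set T1 : ℝ := ((1 : ℝ) / R) * ((m : ℝ) / R) ^ γ with hT1
  have hT0 : 0 ≤ T := by positivity
  have hT10 : 0 ≤ T1 := by positivity
  have hTT : k * T1 = T := by rw [hT, hT1]; ring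
  have hkT : ((k : ℝ) / R) ^ (1 + γ) ≤ T := by
    rw [pow_frac (by positivity) hR0 hγ]
    refine mul_le_mul_of_nonneg_left ?_ (by positivity)
    exact rpow_frac_mono (by positivity) hkm hR0 hγ.le
  have h1T : ((1 : ℝ) / R) ^ (1 + γ) ≤ T1 := by
    rw [pow_frac (by positivity) hR0 hγ]
    refine mul_le_mul_of_nonneg_left ?_ (by positivity)
    exact rpow_frac_mono (by positivity) (by linarith) hR0 hγ.le
  obtain ⟨J, hJ1, hJ2⟩ := exists_log (N := k / 12) (by omega)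
  have hJ12 : 12 * 2 ^ J ≤ k := by omega
  have hJ24 : k < 24 * 2 ^ J := by
    have : 2 ^ (J + 1) = 2 * 2 ^ J := by rw [pow_succ, mul_comm]
    omega
  have hcard : (I.card : ℝ) ≤ 3 * w := by
    have h4 : I ⊆ Icc (u.1 - w) (u.1 + w) := fun x hx => by
      have := abs_le.1 (hI x hx)
      rw [mem_Icc]
      omega
    have h5 := Finset.card_le_card h4
    rw [Int.card_Icc] at h5
    have h6 : (I.card : ℤ) ≤ 3 * w := by omega
    exact_mod_cast h6
  -- the terms
  have hu : ∀ x : ℤ, ((x, u.2) : ℤ × ℤ) = (x, 0) := fun x => by rw [hu2]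
  have hsit : ∀ x ∈ I, ∀ j : ℤ, 0 ≤ j → j ≤ k → ∀ D' p', Geo K R D' p' u → (x, j) ∈ D' := by
    intro x hx j hj1 hj2 D' p' E'
    have := abs_le.1 (hI x hx)
    refine (E'.fl _ ?_).2 (by simp only; omega)
    rw [nm_le']
    simp only [Prod.fst_sub, Prod.snd_sub]
    omega
  have hxR : ∀ x ∈ I, nm (((x, 0) : ℤ × ℤ) - u) ≤ R / 2 := by
    intro x hx
    have := abs_le.1 (hI x hx)
    rw [nm_le']
    simp only [Prod.fst_sub, Prod.snd_sub]
    omega
  have hxm : ∀ x ∈ I, |x - u.1| ≤ m / 4 := by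
    intro x hx
    have := hI x hx
    omega
  -- flux
  have flux : ∀ x ∈ I, |er Q D η (HR K R u) X (NF t D p u m k x) -
      er Q D η (HR K R u) X (SP t D p (Nr D (x, 0 + (k : ℤ)) (2 ^ J))
        (fun A => se D p A (x, 0 + (k : ℤ))))| ≤ (Cf + Cx + Cz) * M * T := by
    intro x hx
    have hHR := geo_HR (u := u) hK h.gq.geo.R1
    have b1 := hfar R D η p u X Y M h m x k (fun D p => dl D p (x, 0 + (k : ℤ)) (x, 0))
      (by omega) (by omega) hmR (hxm x hx) (fun D p A => abs_dl_le)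
      (fun D' p' E' ω A _ hA => by
        rw [hu]
        refine dl_vis (by omega) ?_ hA
        exact E'.fl' (by have := hxR x hx; omega) hu2.symm (by omega))
      (intr_dl (mem_sites_self (by
          rw [zero_add]; exact hsit x hx k (by omega) le_rfl _ _ hHR))
        (mem_sites_self (hsit x hx 0 le_rfl (by omega) _ _ hHR)))
    rw [hu] at b1
    have b2 := hbx R D η p u X Y M h k (x, 0) (by omega) (by omega) (hxR x hx) hu2.symm
    have b3 := hbz R D η p u X Y M h k J (x, 0) (x, 0 + (k : ℤ)) (by omega) (by omega) (hxR x hx)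
      hu2.symm rfl rfl (by omega) hJ24
    have e : er Q D η (HR K R u) X (SP t D p (Nr D (x, 0) (8 * k))
        (dl D p (x, 0 + (k : ℤ)) (x, 0))) =
        er Q D η (HR K R u) X (SP t D p (Nr D (x, 0) (8 * k))
          (fun A => se D p A (x, 0 + (k : ℤ)))) -
        er Q D η (HR K R u) X (SP t D p (Nr D (x, 0) (8 * k)) (fun A => se D p A (x, 0))) := by
      rw [← er_sub]
      congr 1
      funext ω
      unfold SP
      rw [← Finset.sum_sub_distrib]
      exact Finset.sum_congr rfl fun A _ => by unfold dl; ring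
    rw [e] at b1
    unfold NF
    generalize er Q D η (HR K R u) X (SP t D p (Nr D u m) (dl D p (x, 0 + (k : ℤ)) (x, 0))) = a1
      at b1 ⊢
    generalize er Q D η (HR K R u) X (SP t D p (Nr D (x, 0) (8 * k))
          (fun A => se D p A (x, 0 + (k : ℤ)))) = a2 at b1 b3
    generalize er Q D η (HR K R u) X (SP t D p (Nr D (x, 0) (8 * k))
      (fun A => se D p A (x, 0))) = a3 at b1 b2
    generalize er Q D η (HR K R u) X (SP t D p (Nr D (x, 0 + (k : ℤ)) (2 ^ J))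
        (fun A => se D p A (x, 0 + (k : ℤ)))) = a4 at b3 ⊢
    have b2' : |a3| ≤ Cx * M * T := b2.trans (mul_le_mul_of_nonneg_left hkT (by positivity))
    have b3' : |a2 - a4| ≤ Cz * M * T :=
      b3.trans (mul_le_mul_of_nonneg_left hkT (by positivity))
    have b1' : |a1 - (a2 - a3)| ≤ Cf * M * T := by
      refine b1.trans (le_of_eq ?_)
      rw [hT]; push_cast; ring
    calc |a1 - a4| = |(a1 - (a2 - a3)) + ((a2 - a4) - a3)| := by congr 1; ring
      _ ≤ |a1 - (a2 - a3)| + (|a2 - a4| + |a3|) :=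
          (abs_add_le _ _).trans (add_le_add le_rfl (abs_sub _ _))
      _ ≤ Cf * M * T + (Cz * M * T + Cx * M * T) := add_le_add b1' (add_le_add b3' b2')
      _ = _ := by ring
  -- stagger
  have stag : ∀ x ∈ I, |er Q D η (HR K R u) X (NS t D p u m x)| ≤ (Cf + Cs') * M * T1 := by
    intro x hx
    have b1 := hfar R D η p u X Y M h m x 1 (fun D p => sx D p x)
      le_rfl (by omega) hmR (hxm x hx) (fun D p A => abs_sx D p x A)
      (fun D' p' E' ω A hA hg => by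
        rw [hu]
        obtain ⟨e, he, h1, h2⟩ := sx_vis hA (hsit x hx 0 le_rfl (by omega) D' p' E') hg
        exact ⟨e, he, h1, by omega⟩)
      (intr_sx x)
    have b2 := hbs R D η p u X Y M h x (by omega) (by rw [hu]; exact hxR x hx)
    rw [hu] at b1 b2
    unfold NS
    rw [mul_one] at b1
    generalize er Q D η (HR K R u) X (SP t D p (Nr D u m) (sx D p x)) = a1 at b1 ⊢
    generalize er Q D η (HR K R u) X (SP t D p (Nr D (x, 0) 8) (sx D p x)) = a2 at b1 b2
    have b2' : |a2| ≤ Cs' * M * T1 := b2.trans (mul_le_mul_of_nonneg_left h1T (by positivity))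
    have b1' : |a1 - a2| ≤ Cf * M * T1 := by
      refine b1.trans (le_of_eq ?_)
      rw [hT1]; push_cast; ring
    calc |a1| = |(a1 - a2) + a2| := by congr 1; ring
      _ ≤ Cf * M * T1 + Cs' * M * T1 := (abs_add_le _ _).trans (add_le_add b1' b2')
      _ = _ := by ring
  have loops := hbl R D η p u X Y M h k J w I φ hJ12 (by omega) (by omega) hI hφ
  rw [hu2] at loops
  have e : ∑ x ∈ I, φ x * (er Q D η (HR K R u) X (NF t D p u m k x) -
      c * er Q D η (HR K R u) X (NS t D p u m x)) =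
      ∑ x ∈ I, (φ x * (er Q D η (HR K R u) X (NF t D p u m k x) -
        er Q D η (HR K R u) X (SP t D p (Nr D (x, 0 + (k : ℤ)) (2 ^ J))
        (fun A => se D p A (x, 0 + (k : ℤ))))) -
        φ x * (c * er Q D η (HR K R u) X (NS t D p u m x))) +
      ∑ x ∈ I, φ x * er Q D η (HR K R u) X (SP t D p (Nr D (x, 0 + (k : ℤ)) (2 ^ J))
        (fun A => se D p A (x, 0 + (k : ℤ)))) := by
    rw [← Finset.sum_add_distrib]
    exact Finset.sum_congr rfl fun x _ => by ring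
  rw [e]
  refine (abs_add_le _ _).trans ?_
  have b1 : |∑ x ∈ I, (φ x * (er Q D η (HR K R u) X (NF t D p u m k x) -
        er Q D η (HR K R u) X (SP t D p (Nr D (x, 0 + (k : ℤ)) (2 ^ J))
        (fun A => se D p A (x, 0 + (k : ℤ))))) -
        φ x * (c * er Q D η (HR K R u) X (NS t D p u m x)))| ≤
      3 * w * ((Cf + Cx + Cz) * M * T + Cc * ((Cf + Cs') * M * T)) := by
    calc _ ≤ ∑ x ∈ I, ((Cf + Cx + Cz) * M * T + Cc * ((Cf + Cs') * M * T)) := by
          refine (Finset.abs_sum_le_sum_abs _ _).trans (Finset.sum_le_sum fun x hx => ?_)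
          refine (abs_sub _ _).trans (add_le_add ?_ ?_)
          · rw [abs_mul]
            calc _ ≤ 1 * ((Cf + Cx + Cz) * M * T) :=
                  mul_le_mul (hφ x) (flux x hx) (abs_nonneg _) zero_le_one
              _ = _ := one_mul _
          · rw [abs_mul, abs_mul]
            calc |φ x| * (|c| * |er Q D η (HR K R u) X (NS t D p u m x)|)
                ≤ 1 * (Cc * k * ((Cf + Cs') * M * T1)) :=
                  mul_le_mul (hφ x) (mul_le_mul hc (stag x hx) (abs_nonneg _) (by positivity))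
                    (by positivity) zero_le_one
              _ = _ := by rw [← hTT]; ring
      _ = I.card * ((Cf + Cx + Cz) * M * T + Cc * ((Cf + Cs') * M * T)) := by
          rw [Finset.sum_const, nsmul_eq_mul]
      _ ≤ _ := mul_le_mul_of_nonneg_right hcard (by positivity)
  have b2 : Cl * M * (w * ((k : ℝ) / R) ^ (1 + γ)) ≤ Cl * M * (w * T) := by gcongr
  refine (add_le_add b1 (loops.trans b2)).trans ?_
  have hU : 0 ≤ M * (w * T) := by positivity
  have e3 : 3 * (w : ℝ) * ((Cf + Cx + Cz) * M * T + Cc * ((Cf + Cs') * M * T)) + Cl * M * (w * T) =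
      (3 * (Cf + Cx + Cz) + 3 * Cc * (Cf + Cs') + Cl) * (M * (w * T)) := by ring
  rw [e3]
  have e4 : (3 * (Cf + Cx + Cz + Cs') + Cl) * (1 + Cc) * M * (w * T) =
      ((3 * (Cf + Cx + Cz + Cs') + Cl) * (1 + Cc)) * (M * (w * T)) := by ring
  rw [e4]
  refine mul_le_mul_of_nonneg_right ?_ hU
  nlinarith [mul_nonneg hCc hCx, mul_nonneg hCc hCz, mul_nonneg hCc hCl, mul_nonneg hCc hCf,
    mul_nonneg hCc hCs']

end Vale.Agent.P167.H365.NQ
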