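import Vale.Agent.P167.H365.Q.Obs

/-!
# P167, general `q`, block Q-NRED: the near part, the large scales
-/

namespace Vale.Agent.P167.H365.NQ

open Finset Vale.Agent.P167.BR Vale.Agent.P167.FK Vale.Agent.P167.FKA
open Vale.Agent.P167.H562.QM (FltQ)
open Vale.Agent.P167.H166 (bxx mem_bxx)
open Vale.Agent.P167.H167 (Bg)
open Vale.Agent.P167.H192.Q (FlatA I2Q I3Q)

variable {Q : ℝ} {D H D1 D2 : Finset (ℤ × ℤ)} {η : Cfg} {y u p c x z z1 z2 : ℤ × ℤ}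
  {a d r R K L m : ℤ} {ω ω' : Cfg} {A : Finset Ed} {t : Fin 3 → ℝ} {X Y N N' : Cfg → ℝ} {M B : ℝ}

/-- The error estimate with fixed constants. -/
def ErB (Q γ C' : ℝ) : Prop := ∀ (K R : ℤ) (D : Finset (ℤ × ℤ)) (η : Cfg) (p u : ℤ × ℤ)
      (X Y : Cfg → ℝ) (M : ℝ), XY Q K R D η p u X Y M → ∀ (y : ℤ × ℤ) (r : ℤ) (N : Cfg → ℝ) (B : ℝ),
      nm (y - u) ≤ R / 2 → y.2 = u.2 → 1 ≤ r → r ≤ R / 2 →
      LocB Q D η (HR K R u) eta0 y r N B →
      |er Q D η (HR K R u) X N| ≤ C' * ((r : ℝ) / R) ^ (1 + γ) * (B * M)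

/-- The constants. -/
structure Cs (Q : ℝ) (K : ℤ) (Cm C2 γ Ce : ℝ) : Prop where
  hQ0 : 0 < Q
  hK : 1 ≤ K
  Cm0 : 0 < Cm
  C20 : 0 < C2
  γ0 : 0 < γ
  Ce0 : 0 < Ce
  m2 : M2c Q Cm (1200 * K).toNat
  i2 : I2c Q C2
  err : ErB Q γ Ce

theorem pow_frac {a R γ : ℝ} (ha : 0 ≤ a) (hR : 0 < R) (hγ : 0 < γ) :
    (a / R) ^ (1 + γ) = a / R * (a / R) ^ γ := by
  rcases ha.lt_or_eq with h | h
  · rw [Real.rpow_add (by positivity), Real.rpow_one]
  · rw [← h, zero_div, Real.zero_rpow (by linarith), zero_mul]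

/-- **The large scales.** -/
theorem far_rings {Cm C2 γ Ce : ℝ} (S : Cs Q K Cm C2 γ Ce) (t : Fin 3 → ℝ) :
    ∃ C : ℝ, 0 ≤ C ∧ ∀ (R : ℤ) (D : Finset (ℤ × ℤ)) (η : Cfg) (p u : ℤ × ℤ)
      (X Y : Cfg → ℝ) (M : ℝ), XY Q K R D η p u X Y M → ∀ (m x1 κ : ℤ)
      (g : Finset (ℤ × ℤ) → ℤ × ℤ → Finset Ed → ℝ), 1 ≤ κ → 32 * κ ≤ m → 4 * m ≤ R →
      |x1 - u.1| ≤ m / 4 → (∀ D p A, |g D p A| ≤ 1) →
      (∀ D p, Geo K R D p u → ∀ ω : Cfg, ∀ A ∈ pcs ω D, g D p A ≠ 0 →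
        VisI D (x1, u.2) (κ + 1) A) →
      (∀ D p, Geo K R D p u → ∀ ω : Cfg, ∀ A ∈ pcs ω D, Nr D u R A →
        g D p A = g (HR K R u) (pR K R u) A) →
      |er Q D η (HR K R u) X (SP t D p (Nr D u m) (g D p)) -
        er Q D η (HR K R u) X (SP t D p (Nr D (x1, u.2) (8 * κ)) (g D p))| ≤
      C * M * (((κ : ℝ) / R) * ((m : ℝ) / R) ^ γ) := by
  obtain ⟨Cg, hCg, hg⟩ := geom γ S.γ0
  have hT := T0_nonneg t
  have hγ := S.γ0
  have hQ0 := S.hQ0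
  have hCm := S.Cm0
  have hC2 := S.C20
  have hCe := S.Ce0
  set b : ℝ := T0 t * (5 * Cm * C2) with hb
  have hb0 : 0 ≤ b := by positivity
  refine ⟨Ce * b * (2 * 2 ^ γ * Cg) + 4 * Ce * b, by positivity, ?_⟩
  intro R D η p u X Y M h m x1 κ g hκ hκm hmR hxu hg1 hvis hintr
  have hM := h.M0 hQ0
  have hK := S.hK
  have hκr : (1 : ℝ) ≤ κ := by exact_mod_cast hκ
  have hR0 : (0 : ℝ) < R := by exact_mod_cast (by omega : 0 < R)
  have hm0 : (0 : ℝ) < m := by exact_mod_cast (by omega : 0 < m)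
  set x : ℤ × ℤ := (x1, u.2) with hxdef
  have hxu' : nm (x - u) ≤ m / 4 := by
    rw [nm_le']
    simp only [hxdef, Prod.fst_sub, Prod.snd_sub, sub_self]
    rw [abs_le] at hxu
    omega
  have hnmx := nm_nonneg (x - u)
  set T := ((κ : ℝ) / R) * ((m : ℝ) / R) ^ γ with hTdef
  have hT0 : 0 ≤ T := by positivity
  -- the scales
  obtain ⟨J, hJ1, hJ2⟩ := exists_log (N := ((m / 2) / (8 * κ)).toNat) (by
    have : 1 ≤ (m / 2) / (8 * κ) := by
      rw [Int.le_ediv_iff_mul_le (by omega)]; omega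
    omega)
  have hN0 : 0 ≤ (m / 2) / (8 * κ) := Int.ediv_nonneg (by omega) (by omega)
  have hJz : (2 : ℤ) ^ J ≤ (m / 2) / (8 * κ) := by
    have : ((2 ^ J : ℕ) : ℤ) ≤ (((m / 2) / (8 * κ)).toNat : ℤ) := by exact_mod_cast hJ1
    rw [Int.toNat_of_nonneg hN0] at this
    exact_mod_cast this
  have hJz2 : (m / 2) / (8 * κ) < 2 * 2 ^ J := by
    have : (((m / 2) / (8 * κ)).toNat : ℤ) < ((2 ^ (J + 1) : ℕ) : ℤ) := by
      exact_mod_cast hJ2
    rw [Int.toNat_of_nonneg hN0] at this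
    have h5 : ((2 ^ (J + 1) : ℕ) : ℤ) = 2 * 2 ^ J := by push_cast; ring
    omega
  have hup : (2 : ℤ) ^ J * (8 * κ) ≤ m / 2 := by
    calc (2 : ℤ) ^ J * (8 * κ) ≤ (m / 2) / (8 * κ) * (8 * κ) :=
          mul_le_mul_of_nonneg_right hJz (by omega)
      _ ≤ m / 2 := Int.ediv_mul_le _ (by omega)
  have hlo : m / 2 < 2 * (2 ^ J * (8 * κ)) := by
    have h5 : m / 2 < ((m / 2) / (8 * κ) + 1) * (8 * κ) := Int.lt_ediv_add_one_mul_self _
      (by omega)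
    have h6 : ((m / 2) / (8 * κ) + 1) * (8 * κ) ≤ (2 * 2 ^ J) * (8 * κ) :=
      mul_le_mul_of_nonneg_right (by omega) (by omega)
    calc m / 2 < (2 * 2 ^ J) * (8 * κ) := lt_of_lt_of_le h5 h6
      _ = _ := by ring
  have hp1 : ∀ i : ℕ, (1 : ℤ) ≤ 2 ^ i := fun i => one_le_pow₀ (by norm_num)
  have hpJ : ∀ i : ℕ, i ≤ J → (2 : ℤ) ^ i * (8 * κ) ≤ 2 ^ J * (8 * κ) := fun i hi =>
    mul_le_mul_of_nonneg_right (pow_le_pow_right₀ (by norm_num) hi) (by omega)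
  have hp8 : ∀ i : ℕ, 8 * κ ≤ 2 ^ i * (8 * κ) := fun i => by
    have := hp1 i
    nlinarith
  -- one ring
  have ring : ∀ i < J, |er Q D η (HR K R u) X (SP t D p (fun A => Nr D x (2 ^ (i + 1) * (8 * κ)) A ∧
      ¬ Nr D x (2 ^ i * (8 * κ)) A) (g D p))| ≤
      Ce * b * (2 * 2 ^ γ) * M * (((κ : ℝ) / R) * ((8 * κ / R) ^ γ * ((2 : ℝ) ^ i) ^ γ)) := by
    intro i hi
    have h1 := hp8 i
    have h4 := hpJ (i + 1) (by omega)
    have h6 := hp8 (i + 1)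
    have h3 : (2 : ℤ) ^ (i + 1) * (8 * κ) = 2 * (2 ^ i * (8 * κ)) := by ring
    have hO : Obs K R u x (2 ^ (i + 1) * (8 * κ)) (fun D A => Nr D x (2 ^ (i + 1) * (8 * κ)) A ∧
      ¬ Nr D x (2 ^ i * (8 * κ)) A) g :=
      ⟨fun _ _ h => h.1, fun D1 D2 A h => by rw [h.nr, h.nr], hintr⟩
    have hL := hO.locB (t := t) (B := b * ((κ : ℝ) / ((2 ^ i * (8 * κ) : ℤ) : ℝ))) hQ0 h.gq
      (by omega) rfl (fun D' η' p' E' G hG0 hG => by
        have := far_mom (t := t) (P := fun A => Nr D' x (2 ^ (i + 1) * (8 * κ)) A ∧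
          ¬ Nr D' x (2 ^ i * (8 * κ)) A) (g := g D' p') hQ0 hCm hC2 S.m2 S.i2 E' hκ
          (x := x) (r := 2 ^ i * (8 * κ)) (by omega) rfl (by omega) (hg1 D' p')
          (fun ω A hA h7 h8 => ⟨not_nr.1 h7.2, hvis D' p' E'.geo ω A hA h8⟩) hG0
          (hG.mono fun v hv => by
            unfold hB at hv ⊢
            rw [mem_hA] at hv ⊢
            exact ⟨hv.1, hv.2.1, by omega⟩)
        rw [hb]
        exact this)
    refine (S.err K R D η p u X Y M h x _ _ _ (by omega) rfl (by omega) (by omega) hL).trans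
      (le_of_eq ?_)
    rw [pow_frac (by
      have : (0 : ℤ) ≤ 2 ^ (i + 1) * (8 * κ) := by omega
      exact_mod_cast this) hR0 hγ]
    have e2 : (((2 ^ (i + 1) * (8 * κ) : ℤ) : ℝ) / R) = 2 * (8 * κ / R * 2 ^ i) := by
      push_cast; ring
    rw [e2, Real.mul_rpow (by norm_num) (by positivity), Real.mul_rpow (by positivity)
      (by positivity)]
    have e3 : (κ : ℝ) / ((2 ^ i * (8 * κ) : ℤ) : ℝ) = 1 / (8 * 2 ^ i) := by
      push_cast
      field_simp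
    rw [e3]
    field_simp
  have hsum : ∑ i ∈ range J, Ce * b * (2 * 2 ^ γ) * M *
        (((κ : ℝ) / R) * ((8 * κ / R) ^ γ * ((2 : ℝ) ^ i) ^ γ)) ≤
        Ce * b * (2 * 2 ^ γ * Cg) * M * T := by
    rw [← Finset.mul_sum, ← Finset.mul_sum, ← Finset.mul_sum]
    have h6 : (8 * (κ : ℝ) / R) ^ γ * ∑ i ∈ range J, ((2 : ℝ) ^ i) ^ γ ≤
        Cg * ((m : ℝ) / R) ^ γ := by
      calc (8 * (κ : ℝ) / R) ^ γ * ∑ i ∈ range J, ((2 : ℝ) ^ i) ^ γ
          ≤ (8 * (κ : ℝ) / R) ^ γ * (Cg * ((2 : ℝ) ^ J) ^ γ) :=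
            mul_le_mul_of_nonneg_left (hg J) (by positivity)
        _ = Cg * (8 * (κ : ℝ) / R * (2 : ℝ) ^ J) ^ γ := by
            rw [Real.mul_rpow (by positivity) (by positivity)]
            ring
        _ ≤ Cg * ((m : ℝ) / R) ^ γ := by
            refine mul_le_mul_of_nonneg_left (Real.rpow_le_rpow (by positivity) ?_ hγ.le) hCg.le
            have h7 : (2 : ℝ) ^ J * (8 * κ) ≤ m := by
              exact_mod_cast (by omega : (2 : ℤ) ^ J * (8 * κ) ≤ m)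
            calc 8 * (κ : ℝ) / R * 2 ^ J = (2 ^ J * (8 * κ)) / R := by ring
              _ ≤ m / R := div_le_div_of_nonneg_right h7 hR0.le
    calc Ce * b * (2 * 2 ^ γ) * M * (((κ : ℝ) / R) * ((8 * (κ : ℝ) / R) ^ γ *
          ∑ i ∈ range J, ((2 : ℝ) ^ i) ^ γ))
        ≤ Ce * b * (2 * 2 ^ γ) * M * (((κ : ℝ) / R) * (Cg * ((m : ℝ) / R) ^ γ)) := by gcongr
      _ = _ := by rw [hTdef]; ring
  -- the last ring
  have h8J := hp8 J
  have last : |er Q D η (HR K R u) X (SP t D p (fun A => Nr D u m A ∧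
      ¬ Nr D x (2 ^ J * (8 * κ)) A) (g D p))| ≤ 4 * Ce * b * M * T := by
    have h4 : nm (u - u) = 0 := by simp [nm]
    have hO : Obs K R u u m (fun D A => Nr D u m A ∧ ¬ Nr D x (2 ^ J * (8 * κ)) A) g :=
      ⟨fun _ _ h => h.1, fun D1 D2 A h => by rw [h.nr, h.nr], hintr⟩
    have hL := hO.locB (t := t) (B := b * ((κ : ℝ) / ((2 ^ J * (8 * κ) : ℤ) : ℝ))) hQ0 h.gq
      (by omega) rfl (fun D' η' p' E' G hG0 hG => by
        have := far_mom (t := t) (P := fun A => Nr D' u m A ∧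
          ¬ Nr D' x (2 ^ J * (8 * κ)) A) (g := g D' p') hQ0 hCm hC2 S.m2 S.i2 E' hκ
          (x := x) (r := 2 ^ J * (8 * κ)) (by omega) rfl (by omega) (hg1 D' p')
          (fun ω A hA h7 h8 => ⟨not_nr.1 h7.2, hvis D' p' E'.geo ω A hA h8⟩) hG0
          (hG.mono fun v hv => by
            unfold hB at hv ⊢
            rw [mem_hA] at hv ⊢
            have := nm_tri v x u
            exact ⟨hv.1, nm_nonneg _, by omega⟩)
        rw [hb]
        exact this)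
    refine (S.err K R D η p u X Y M h u _ _ _ (by omega) rfl (by omega) (by omega) hL).trans ?_
    have h5 : (κ : ℝ) / ((2 ^ J * (8 * κ) : ℤ) : ℝ) ≤ 4 * κ / m := by
      have h6 : m < 4 * (2 ^ J * (8 * κ)) := by omega
      have h7 : (m : ℝ) < 4 * ((2 ^ J * (8 * κ) : ℤ) : ℝ) := by exact_mod_cast h6
      rw [div_le_div_iff₀ (by linarith) hm0]
      nlinarith
    rw [pow_frac hm0.le hR0 hγ]
    calc Ce * ((m : ℝ) / R * ((m : ℝ) / R) ^ γ) * (b * ((κ : ℝ) / ((2 ^ J * (8 * κ) : ℤ) : ℝ)) * M)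
        ≤ Ce * ((m : ℝ) / R * ((m : ℝ) / R) ^ γ) * (b * (4 * κ / m) * M) := by gcongr
      _ = _ := by
          rw [hTdef]
          field_simp
  have hsub0 : ∀ A, Nr D x (2 ^ J * (8 * κ)) A → Nr D u m A := fun A h => h.mono (by omega)
  have e1 := er_split (Q := Q) (D := D) (η := η) (H := HR K R u) (X := X) (t := t) (p := p) hsub0
    (g D p)
  have e2 := er_chain (Q := Q) (η := η) (H := HR K R u) (X := X) (t := t) (D := D) (p := p)
    (g D p) (P := fun i => Nr D x (2 ^ i * (8 * κ))) (fun j A h => h.mono (by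
      have h3 : (2 : ℤ) ^ (j + 1) * (8 * κ) = 2 * (2 ^ j * (8 * κ)) := by ring
      have := hp8 j
      simp only [sub_self]
      have h4 : nm (0 : ℤ × ℤ) = 0 := by simp [nm]
      omega)) J
  have e0 : (2 : ℤ) ^ 0 * (8 * κ) = 8 * κ := by ring
  simp only [e0] at e2
  rw [e1, e2, add_assoc, add_sub_cancel_left]
  refine (abs_add_le _ _).trans ?_
  calc _ ≤ Ce * b * (2 * 2 ^ γ * Cg) * M * T + 4 * Ce * b * M * T :=
        add_le_add (((Finset.abs_sum_le_sum_abs _ _).trans (Finset.sum_le_sum fun i hi =>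
          ring i (mem_range.1 hi))).trans hsum) last
    _ = _ := by ring

end Vale.Agent.P167.H365.NQ
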