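import Vale.Agent.P167.H365.Q.Mom2

/-!
# P167, general `q`, block Q-NRED: the error of a near observable
-/

namespace Vale.Agent.P167.H365.NQ

open Finset Vale.Agent.P167.BR Vale.Agent.P167.FK Vale.Agent.P167.FKA
open Vale.Agent.P167.H562.QM (FltQ)
open Vale.Agent.P167.H166 (bxx mem_bxx)
open Vale.Agent.P167.H167 (Bg)
open Vale.Agent.P167.H192.Q (FlatA I2Q I3Q)

variable {Q : ℝ} {D H D1 D2 : Finset (ℤ × ℤ)} {η : Cfg} {y u p c x z z1 z2 : ℤ × ℤ}
  {a d r R K L m : ℤ} {ω ω' : Cfg} {A : Finset Ed} {t : Fin 3 → ℝ} {X Y N N' : Cfg → ℝ} {M B : ℝ}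

/-- The error of the observable `N`: reference mean in the domain `H` with free outside. -/
noncomputable def er (Q : ℝ) (D : Finset (ℤ × ℤ)) (η : Cfg) (H : Finset (ℤ × ℤ)) (X N : Cfg → ℝ) :
    ℝ := Ex Q D η (fun ω => N ω * X ω) - Ex Q H eta0 N * Ex Q D η X

theorem er_add : er Q D η H X (fun ω => N ω + N' ω) = er Q D η H X N + er Q D η H X N' := by
  unfold er
  simp only [add_mul]
  rw [Ex_add, Ex_add]
  ring

theorem er_sub : er Q D η H X (fun ω => N ω - N' ω) = er Q D η H X N - er Q D η H X N' := by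
  unfold er
  simp only [sub_mul]
  rw [Ex_sub, Ex_sub]
  ring

theorem er_mul (a : ℝ) : er Q D η H X (fun ω => a * N ω) = a * er Q D η H X N := by
  unfold er
  have e : (fun ω => a * N ω * X ω) = fun ω => a * (N ω * X ω) := by
    funext ω; ring
  rw [e, Ex_mul_left, Ex_mul_left]
  ring

theorem er_sum {ι : Type*} (I : Finset ι) (F : ι → Cfg → ℝ) :
    er Q D η H X (fun ω => ∑ i ∈ I, F i ω) = ∑ i ∈ I, er Q D η H X (F i) := by
  unfold er
  simp only [Finset.sum_mul]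
  rw [Ex_sum, Ex_sum, Finset.sum_mul, ← Finset.sum_sub_distrib]

/-- The functional and its majorant. -/
structure XY (Q : ℝ) (K R : ℤ) (D : Finset (ℤ × ℤ)) (η : Cfg) (p u : ℤ × ℤ) (X Y : Cfg → ℝ)
    (M : ℝ) : Prop where
  gq : GQ K R D η p u
  hX : ∀ y : ℤ × ℤ, nm (y - u) ≤ R → y.2 = u.2 → ∀ L ≤ R, OneCr D y L X
  hY : Ind (bxx u R) Y
  hXY : ∀ ω, |X ω| ≤ Y ω
  hM : Ex Q D η Y ≤ M

theorem XY.M0 (h : XY Q K R D η p u X Y M) (hQ : 0 < Q) : 0 ≤ M :=
  (Ex_nonneg hQ fun _ _ => (abs_nonneg _).trans (h.hXY _)).trans h.hM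

theorem er_bd {C3 α c₀ C₀ : ℝ} {K₀ : ℤ} (P : Cst Q C3 α c₀ C₀ K₀) :
    ∃ γ C' : ℝ, 0 < γ ∧ 0 < C' ∧ ∀ (K R : ℤ) (D : Finset (ℤ × ℤ)) (η : Cfg) (p u : ℤ × ℤ)
      (X Y : Cfg → ℝ) (M : ℝ), XY Q K R D η p u X Y M → ∀ (y : ℤ × ℤ) (r : ℤ) (N : Cfg → ℝ) (B : ℝ),
      nm (y - u) ≤ R / 2 → y.2 = u.2 → 1 ≤ r → r ≤ R / 2 →
      LocB Q D η (HR K R u) eta0 y r N B →
      |er Q D η (HR K R u) X N| ≤ C' * ((r : ℝ) / R) ^ (1 + γ) * (B * M) := by
  have hQ0 : 0 < Q := by linarith [P.hQ]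
  obtain ⟨γ, C', hγ, hC', hcore⟩ := core P
  refine ⟨γ, C' * 3 ^ (1 + γ), hγ, by positivity, ?_⟩
  intro K R D η p u X Y M h y r N B hy hy2 hr hrR hN
  have hR1 := h.gq.geo.R1
  have hL8 := h.gq.geo.L8
  have hg := gq_HR (u := u) h.gq.geo.one_le hR1
  have hYy : Ind (bxx y (R / 2)) Y := h.hY.mono fun v hv => by
    rw [mem_bxx] at hv ⊢
    have := nm_tri v y u
    omega
  have H : CH Q D η (HR K R u) eta0 y r (R / 2) X Y N B :=
    { hη := h.gq.good
      hF := flt_shift h.gq.fl (by omega) hy2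
      hη' := good_eta0
      hF' := flt_shift hg.fl (by omega) hy2
      hr := hr
      hrR := hrR
      hXY := h.hXY
      hY := hYy
      hX := h.hX y (by omega) hy2 _ (by omega)
      hN := hN }
  have h1 := hcore D η (HR K R u) eta0 y r (R / 2) X Y N B H
  have hB0 := H.B0 hQ0
  have hEY := H.EY hQ0
  have hR0 : (0 : ℝ) < R := by exact_mod_cast (by omega : 0 < R)
  have hR2 : (0 : ℝ) < ((R / 2 : ℤ) : ℝ) := by exact_mod_cast (by omega : 0 < R / 2)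
  have hr0 : (0 : ℝ) < r := by exact_mod_cast (by omega : 0 < r)
  have h3 : (R : ℝ) ≤ 3 * ((R / 2 : ℤ) : ℝ) := by exact_mod_cast (by omega : R ≤ 3 * (R / 2))
  have h4 : (r : ℝ) / ((R / 2 : ℤ) : ℝ) ≤ 3 * ((r : ℝ) / R) := by
    rw [div_le_iff₀ hR2]
    have : 3 * ((r : ℝ) / R) * ((R / 2 : ℤ) : ℝ) = r * (3 * ((R / 2 : ℤ) : ℝ) / R) := by
      field_simp
    rw [this]
    have h5 : 1 ≤ 3 * ((R / 2 : ℤ) : ℝ) / R := by rw [le_div_iff₀ hR0]; linarith
    nlinarith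
  refine h1.trans ?_
  calc C' * ((r : ℝ) / ((R / 2 : ℤ) : ℝ)) ^ (1 + γ) * (B * Ex Q D η Y)
      ≤ C' * (3 * ((r : ℝ) / R)) ^ (1 + γ) * (B * M) := by
        refine mul_le_mul (mul_le_mul_of_nonneg_left (Real.rpow_le_rpow (by positivity) h4
          (by linarith)) hC'.le) (mul_le_mul_of_nonneg_left h.hM hB0) (by positivity)
          (by positivity)
    _ = _ := by
        rw [Real.mul_rpow (by norm_num) (by positivity)]
        ring

/-! ### Intrinsic observables -/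

/-- A family of near observables. -/
structure Obs (K R : ℤ) (u y : ℤ × ℤ) (r : ℤ) (P : Finset (ℤ × ℤ) → Finset Ed → Prop)
    (g : Finset (ℤ × ℤ) → ℤ × ℤ → Finset Ed → ℝ) : Prop where
  near : ∀ D A, P D A → Nr D y r A
  same : ∀ D1 D2 A, Same D1 D2 A → (P D1 A ↔ P D2 A)
  intr : ∀ D p, Geo K R D p u → ∀ ω : Cfg, ∀ A ∈ pcs ω D, Nr D u R A →
    g D p A = g (HR K R u) (pR K R u) A

theorem nr_of (h : Nr D y r A) (hy : nm (y - u) + r ≤ R) : Nr D u R A := h.mono (by omega)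

theorem Obs.eqH {P : Finset (ℤ × ℤ) → Finset Ed → Prop}
    {g : Finset (ℤ × ℤ) → ℤ × ℤ → Finset Ed → ℝ} (O : Obs K R u y r P g) (E : Geo K R D p u)
    (hy : nm (y - u) + r ≤ R) : SP t D p (P D) (g D p) =
      SP t (HR K R u) (pR K R u) (P (HR K R u)) (g (HR K R u) (pR K R u)) := by
  have hR1 := E.R1
  funext ω
  exact E.SP_HR (m := R) (by omega) le_rfl (fun A h => nr_of (O.near D A h) hy)
    (fun A h => nr_of (O.near _ A h) hy) (fun ω A _ h => O.same _ _ A h)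
    (fun ω A hA h => O.intr D p E ω A hA h) ω

theorem SP_loc {P : Finset Ed → Prop} {g : Finset Ed → ℝ} {S : Finset (ℤ × ℤ)}
    (hQ : ∀ A, P A → ∀ e ∈ A, hdv e ∈ D → hdv e ∈ S) : Loc S (SP t D p P g) := by
  classical
  intro ω ω' h
  have h1 : (pcs ω D).filter P = (pcs ω' D).filter P := by
    ext A
    rw [mem_filter, mem_filter]
    constructor
    · rintro ⟨h1, h2⟩
      exact ⟨mem_pcs_agr h1 fun e he hd => h _ (hQ A h2 e he hd), h2⟩
    · rintro ⟨h1, h2⟩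
      exact ⟨mem_pcs_agr h1 fun e he hd => (h _ (hQ A h2 e he hd)).symm, h2⟩
  simp only [SP]
  rw [h1]

theorem Obs.loc {P : Finset (ℤ × ℤ) → Finset Ed → Prop}
    {g : Finset (ℤ × ℤ) → ℤ × ℤ → Finset Ed → ℝ} (O : Obs K R u y r P g) (E : Geo K R D p u)
    (hy : nm (y - u) + r ≤ R) (hy2 : y.2 = u.2) (g' : Finset Ed → ℝ) :
    Loc (hB y r) (SP t D p (P D) g') := by
  refine SP_loc fun A hA e he hd => ?_
  have h1 := (O.near D A hA).hd he hd
  have h2 := nm_tri (hdv e) y u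
  have hL8 := E.L8
  have hR1 := E.R1
  unfold hB
  rw [mem_hA]
  refine ⟨?_, nm_nonneg _, h1⟩
  rw [hy2]
  exact (E.fl _ (by omega)).1 hd

/-- **The bounds of a near observable.** -/
theorem Obs.locB {P : Finset (ℤ × ℤ) → Finset Ed → Prop}
    {g : Finset (ℤ × ℤ) → ℤ × ℤ → Finset Ed → ℝ} (hQ : 0 < Q) (O : Obs K R u y r P g)
    (E : GQ K R D η p u) (hy : nm (y - u) + r ≤ R) (hy2 : y.2 = u.2)
    (hbd : ∀ (D' : Finset (ℤ × ℤ)) (η' : Cfg) (p' : ℤ × ℤ), GQ K R D' η' p' u →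
      ∀ G : Cfg → ℝ, (∀ ω, 0 ≤ G ω) → Ind (hB y r) G →
      Ex Q D' η' (fun ω => G ω * |SP t D' p' (P D') (g D' p') ω|) ≤ B * Ex Q D' η' G) :
    LocB Q D η (HR K R u) eta0 y r (SP t D p (P D) (g D p)) B where
  loc := O.loc E.geo hy hy2 _
  bd := hbd D η p E
  bd' := by
    rw [O.eqH E.geo hy]
    have h := hbd _ _ _ (gq_HR (u := u) E.geo.one_le E.geo.R1) (fun _ => 1)
      (fun _ => zero_le_one) fun _ _ _ => rfl
    simp only [one_mul] at h
    rwa [Ex_const hQ, mul_one] at h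

theorem same_rg (h : Same D1 D2 A) : Rg D1 c r L A ↔ Rg D2 c r L A := by
  unfold Rg
  rw [h.nr, h.nr]

theorem intr_se (hz : z ∈ sites (HR K R u)) : ∀ D p, Geo K R D p u → ∀ ω : Cfg,
    ∀ A ∈ pcs ω D, Nr D u R A → se D p A z = se (HR K R u) (pR K R u) A z :=
  fun _ _ E _ _ hA hN => E.se_HR (by have := E.R1; omega) le_rfl hA hN hz

theorem intr_dl (h1 : z1 ∈ sites (HR K R u)) (h2 : z2 ∈ sites (HR K R u)) :
    ∀ D p, Geo K R D p u → ∀ ω : Cfg, ∀ A ∈ pcs ω D, Nr D u R A →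
      dl D p z1 z2 A = dl (HR K R u) (pR K R u) z1 z2 A := by
  intro D p E ω A hA hN
  unfold dl
  rw [intr_se h1 D p E ω A hA hN, intr_se h2 D p E ω A hA hN]

theorem intr_sx (x : ℤ) : ∀ D p, Geo K R D p u → ∀ ω : Cfg, ∀ A ∈ pcs ω D, Nr D u R A →
      sx D p x A = sx (HR K R u) (pR K R u) x A := by
  intro D p E ω A hA hN
  unfold sx
  rw [E.sgA_HR (by have := E.R1; omega) le_rfl hA hN]

/-! ### Chains -/

open Classical in
theorem SP_split {P P' : Finset Ed → Prop} (h : ∀ A, P A → P' A) (g : Finset Ed → ℝ) (ω : Cfg) :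
    SP t D p P' g ω = SP t D p P g ω + SP t D p (fun A => P' A ∧ ¬ P A) g ω := by
  unfold SP
  have e1 : ((pcs ω D).filter P').filter P = (pcs ω D).filter P := by
    ext A
    simp only [mem_filter]
    exact ⟨fun h' => ⟨h'.1.1, h'.2⟩, fun h' => ⟨⟨h'.1, h A h'.2⟩, h'.2⟩⟩
  have e2 : ((pcs ω D).filter P').filter (fun A => ¬ P A) =
      (pcs ω D).filter (fun A => P' A ∧ ¬ P A) := by
    ext A
    simp only [mem_filter, and_assoc]
  rw [← Finset.sum_filter_add_sum_filter_not ((pcs ω D).filter P') P, e1, e2]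
  congr!

theorem er_split {P P' : Finset Ed → Prop} (h : ∀ A, P A → P' A) (g : Finset Ed → ℝ) :
    er Q D η H X (SP t D p P' g) = er Q D η H X (SP t D p P g) +
      er Q D η H X (SP t D p (fun A => P' A ∧ ¬ P A) g) := by
  rw [← er_add]
  congr 1
  funext ω
  exact SP_split h g ω

theorem er_chain (g : Finset Ed → ℝ) {P : ℕ → Finset Ed → Prop}
    (hP : ∀ j A, P j A → P (j + 1) A) (J : ℕ) :
    er Q D η H X (SP t D p (P J) g) = er Q D η H X (SP t D p (P 0) g) +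
      ∑ j ∈ range J, er Q D η H X (SP t D p (fun A => P (j + 1) A ∧ ¬ P j A) g) := by
  induction J with
  | zero => simp
  | succ J ih => rw [er_split (hP J), ih, Finset.sum_range_succ]; ring

end Vale.Agent.P167.H365.NQ
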