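import Vale.Agent.P167.H365.Q.FarD

/-!
# P167, general `q`, block Q-NRED: the reference constants
-/

namespace Vale.Agent.P167.H365.NQ

open Finset Vale.Agent.P167.BR Vale.Agent.P167.FK Vale.Agent.P167.FKA
open Vale.Agent.P167.H562.QM (FltQ)
open Vale.Agent.P167.H166 (bxx mem_bxx)
open Vale.Agent.P167.H167 (Bg)
open Vale.Agent.P167.QM (Side HS)

variable {Q : ℝ} {D : Finset (ℤ × ℤ)} {η : Cfg} {p u y : ℤ × ℤ} {m R R' r K W x d : ℤ} {ω : Cfg}
  {t : Fin 3 → ℝ} {A : Finset Ed} {k : ℕ}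

/-! ### The flux is `o(k)` -/

theorem small_hd (hS : Small (d : ℝ) A) {e e' : Ed} (he : e ∈ A) (he' : e' ∈ A) :
    nm (hdv e - hdv e') < d := by
  have := hS _ (Finset.mem_image_of_mem hdv he) _ (Finset.mem_image_of_mem hdv he')
  exact_mod_cast this

theorem nm_bd {v : ℤ × ℤ} (h : nm v < d) : -d < v.1 ∧ v.1 < d ∧ -d < v.2 ∧ v.2 < d := by
  have h' : nm v ≤ d - 1 := by omega
  rw [nm_le'] at h'
  omega

theorem hdv_cases (e : Ed) : (∃ v, e = Sum.inl v ∧ (hdv e = v ∨ hdv e = (v.1 + 1, v.2))) ∨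
    (∃ v, e = Sum.inr v ∧ (hdv e = v ∨ hdv e = (v.1, v.2 + 1))) := by
  rcases e with ⟨a, b⟩ | ⟨a, b⟩
  · left
    refine ⟨_, rfl, ?_⟩
    by_cases hp : Even (a + b) <;> simp [hdv, hp]
  · right
    refine ⟨_, rfl, ?_⟩
    by_cases hp : Even (a + b) <;> simp [hdv, hp]

theorem hdv_inl' (a b : ℤ) : (hdv (Sum.inl (a, b)) = (a, b)) ∨ (hdv (Sum.inl (a, b)) = (a + 1, b)) := by
  by_cases hp : Even (a + b) <;> simp [hdv, hp]

theorem hdv_inr' (a b : ℤ) : (hdv (Sum.inr (a, b)) = (a, b)) ∨ (hdv (Sum.inr (a, b)) = (a, b + 1)) := by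
  by_cases hp : Even (a + b) <;> simp [hdv, hp]

/-- A small piece which separates the ends of the column crosses the column near the ends. -/
theorem small_dl (hd : 1 ≤ d)
    (hD : ∀ v : ℤ × ℤ, x ≤ v.1 → v.1 ≤ x + d + 2 → 0 ≤ v.2 → v.2 ≤ k → v ∈ D)
    (hS : Small (d : ℝ) A)
    (hno : ∀ j : ℤ, 0 ≤ j → j < k → (j ≤ 2 * d ∨ (k : ℤ) - 2 * d ≤ j) →
      Sum.inl (x - 1, j) ∉ A) :
    dl D p (x, 0 + (k : ℤ)) (x, 0) A = 0 := by
  have key : Jn D (fun e => e ∉ A) (x, 0) (x, 0 + (k : ℤ)) := by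
    by_cases h : ∃ j : ℤ, 0 ≤ j ∧ j < k ∧ Sum.inl (x - 1, j) ∈ A
    · obtain ⟨j, h0, hk, hj⟩ := h
      have hj1 : 2 * d < j := by
        by_contra hcon
        exact hno j h0 hk (Or.inl (by omega)) hj
      have hj2 : j < k - 2 * d := by
        by_contra hcon
        exact hno j h0 hk (Or.inr (by omega)) hj
      have hloc : ∀ e ∈ A, x - 1 - d < (hdv e).1 ∧ (hdv e).1 < x + d ∧ j - d < (hdv e).2 ∧
          (hdv e).2 < j + d := by
        intro e he
        have h1 := nm_bd (small_hd hS he hj)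
        simp only [Prod.fst_sub, Prod.snd_sub] at h1
        rcases hdv_inl' (x - 1) j with h2 | h2 <;> rw [h2] at h1 <;> simp only at h1 <;> omega
      have hmem : ∀ a b : ℤ, x ≤ a → a ≤ x + d + 2 → 0 ≤ b → b ≤ k → (a, b) ∈ D :=
        fun a b h1 h2 h3 h4 => hD (a, b) h1 h2 h3 h4
      have p1 : Jn D (fun e => e ∉ A) (x, 0) (x + d + 2, 0) := by
        refine jn_right' (by omega) fun i hi hi' => ⟨?_, fun he => ?_⟩
        · rw [mem_eds_inr, sub_add_cancel]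
          exact Or.inr (hmem i 0 hi (by omega) le_rfl (by omega))
        · have h1 := hloc _ he
          rcases hdv_inr' i (0 - 1) with h2 | h2 <;> rw [h2] at h1 <;> simp only at h1 <;> omega
      have p2 : Jn D (fun e => e ∉ A) (x + d + 2, 0) (x + d + 2, (k : ℤ)) := by
        refine jn_up' (by omega) fun i hi hi' => ⟨?_, fun he => ?_⟩
        · rw [mem_eds_inl, sub_add_cancel]
          exact Or.inr (hmem (x + d + 2) i (by omega) le_rfl hi (by omega))
        · have h1 := hloc _ he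
          rcases hdv_inl' (x + d + 2 - 1) i with h2 | h2 <;> rw [h2] at h1 <;> simp only at h1 <;>
            omega
      have p3 : Jn D (fun e => e ∉ A) (x, (k : ℤ)) (x + d + 2, (k : ℤ)) := by
        refine jn_right' (by omega) fun i hi hi' => ⟨?_, fun he => ?_⟩
        · rw [mem_eds_inr, sub_add_cancel]
          exact Or.inr (hmem i k hi (by omega) (by omega) le_rfl)
        · have h1 := hloc _ he
          rcases hdv_inr' i ((k : ℤ) - 1) with h2 | h2 <;> rw [h2] at h1 <;> simp only at h1 <;>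
            omega
      rw [zero_add]
      exact Jn.trans p1 (Jn.trans p2 (Jn.symm p3))
    · push Not at h
      refine jn_up k fun j hj => ⟨?_, ?_⟩
      · rw [mem_eds_inl, sub_add_cancel]
        exact Or.inr (hD _ le_rfl (by simp only; omega) (by simp only; omega)
          (by simp only; omega))
      · exact h (0 + (j : ℤ)) (by omega) (by omega)
  exact dl_zero (P := fun e => e ∉ A) (fun e he => he) (Jn.symm key)

open Classical in
/-- The number of the pieces which are seen by the flux. -/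
theorem card_dl (hd : 1 ≤ d) (hk : 1 ≤ k) (hF : Fl D (x, 0) (k + 1))
    (hD : ∀ v : ℤ × ℤ, x ≤ v.1 → v.1 ≤ x + d + 2 → 0 ≤ v.2 → v.2 ≤ k → v ∈ D)
    (P : Finset Ed → Prop) :
    ((((pcs ω D).filter fun A => P A ∧ dl D p (x, 0 + (k : ℤ)) (x, 0) A ≠ 0).card : ℕ) : ℝ) ≤
      ((Bg D (x, 0) k d ω).card : ℝ) + (4 * d + 1) := by
  set S : Finset ℤ := Icc 0 (2 * d) ∪ Icc ((k : ℤ) - 2 * d) (k - 1) with hS
  have hcS : (S.card : ℝ) ≤ 4 * d + 1 := by
    have h1 : (S.card : ℤ) ≤ 4 * d + 1 := by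
      have h2 := Finset.card_union_le (Icc 0 (2 * d)) (Icc ((k : ℤ) - 2 * d) ((k : ℤ) - 1))
      rw [← hS, Int.card_Icc, Int.card_Icc] at h2
      omega
    exact_mod_cast h1
  have hsub : ((pcs ω D).filter fun A => P A ∧ dl D p (x, 0 + (k : ℤ)) (x, 0) A ≠ 0) ⊆
      Bg D (x, 0) k d ω ∪ S.image (fun j => piece ω D (Sum.inl (x - 1, j))) := by
    intro A hA
    obtain ⟨hA, -, hne⟩ := mem_filter.1 hA
    rw [mem_union]
    by_cases hsm : Small (d : ℝ) A
    · right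
      rw [mem_image]
      by_contra hcon
      push Not at hcon
      refine hne (small_dl hd hD hsm fun j h0 hj hj2 he => hcon j ?_
        (eq_piece_of_mem hA he).symm)
      rw [hS, mem_union, mem_Icc, mem_Icc]
      omega
    · left
      rw [mem_Bg]
      obtain ⟨e, he, -, h2⟩ := dl_vis hk hF hne
      exact ⟨hA, ⟨e, he, by omega⟩, hsm⟩
  have h1 := Finset.card_le_card hsub
  have h2 := Finset.card_union_le (Bg D (x, 0) k d ω)
    (S.image (fun j => piece ω D (Sum.inl (x - 1, j))))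
  have h3 := Finset.card_image_le (s := S) (f := fun j => piece ω D (Sum.inl (x - 1, j)))
  have h4 : (((pcs ω D).filter fun A => P A ∧ dl D p (x, 0 + (k : ℤ)) (x, 0) A ≠ 0).card : ℝ) ≤
      ((Bg D (x, 0) k d ω).card : ℝ) + (S.card : ℝ) := by
    exact_mod_cast h1.trans (h2.trans (by omega))
  linarith

/-- **The mean flux is `o(k)`.** -/
theorem nf_small (hQ : 1 ≤ Q) (h : RSW Q) (t : Fin 3 → ℝ) {ε : ℝ} (hε : 0 < ε) : ∃ k0 : ℕ, 1 ≤ k0 ∧
    ∀ k : ℕ, k0 ≤ k → ∀ (K R : ℤ) (u : ℤ × ℤ) (m x : ℤ), 1 ≤ K → 4 * (k : ℤ) ≤ R → u.2 = 0 →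
    |x - u.1| ≤ R → |Ex Q (HR K R u) eta0 (NF t (HR K R u) (pR K R u) u m k x)| ≤ ε * k := by
  classical
  have hQ0 : 0 < Q := by linarith
  have hT0 := T0_nonneg t
  obtain ⟨n, hn⟩ := exists_nat_gt (8 * T0 t / ε + 1)
  have hn1 : (1 : ℝ) < n := by
    have : 0 ≤ 8 * T0 t / ε := by positivity
    linarith
  have hn1' : 1 < n := by exact_mod_cast hn1
  obtain ⟨C, hC, hm⟩ := m2c_of hQ h (2 * n)
  obtain ⟨k1, hk1⟩ := exists_nat_gt (2 * T0 t * (C + 1) / ε)
  refine ⟨max n k1, by omega, fun k hk K R u m x hK hkR hu hx => ?_⟩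
  have hkn : n ≤ k := le_trans (le_max_left _ _) hk
  have hkk : k1 ≤ k := le_trans (le_max_right _ _) hk
  have hR1 : 1 ≤ R := by omega
  have E := gq_HR (K := K) (R := R) (u := u) hK hR1
  have hL8 := E.geo.L8
  set d : ℤ := (k : ℤ) / n with hd
  have hn0 : (0 : ℤ) < n := by omega
  have hd1 : 1 ≤ d := by
    rw [hd, Int.le_ediv_iff_mul_le hn0]
    omega
  have hdk : d * n ≤ k := Int.ediv_mul_le _ (by omega)
  have hkd : (k : ℤ) < (d + 1) * n := Int.lt_ediv_add_one_mul_self _ hn0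
  have hdk' : d ≤ k := by nlinarith
  have hL : (k : ℤ) ≤ ((2 * n : ℕ) : ℤ) * d := by
    push_cast
    nlinarith
  have hxu : nm (((x, 0) : ℤ × ℤ) - u) ≤ R := by
    rw [nm_le']
    simp only [Prod.fst_sub, Prod.snd_sub, hu]
    rw [abs_le] at hx
    omega
  have hF : Fl (HR K R u) (x, 0) (k + 1) := E.geo.fl' hxu hu.symm (by omega)
  have hF2 : Fl (HR K R u) (x, 0) (4 * k) := E.geo.fl' hxu hu.symm (by omega)
  have hD : ∀ v : ℤ × ℤ, x ≤ v.1 → v.1 ≤ x + d + 2 → 0 ≤ v.2 → v.2 ≤ k → v ∈ HR K R u := by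
    intro v h1 h2 h3 h4
    refine (hF2 v ?_).2 h3
    rw [nm_le']
    simp only [Prod.fst_sub, Prod.snd_sub]
    omega
  have h1 := hm.use1 (c := (x, 0)) (L := k) (d := d) (G := fun _ => 1) hQ0 E (by
    have h5 : 8 * R ≤ 8 * K * R := hL8
    omega) hd1 (by omega) hL (fun _ => zero_le_one) (A := HR K R u) (fun v hv _ => hv)
    (fun _ _ _ => rfl)
  simp only [one_mul, Ex_const hQ0, mul_one] at h1
  have h2 : |Ex Q (HR K R u) eta0 (NF t (HR K R u) (pR K R u) u m k x)| ≤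
      T0 t * (C + (4 * d + 1)) := by
    calc _ ≤ Ex Q (HR K R u) eta0 (fun ω => |NF t (HR K R u) (pR K R u) u m k x ω|) :=
          abs_Ex_le hQ0 _
      _ ≤ Ex Q (HR K R u) eta0 (fun ω => T0 t * ((Bg (HR K R u) (x, 0) k d ω).card +
            (4 * d + 1))) := Ex_mono hQ0 fun S _ => by
          have h3 := card_dl (p := pR K R u) (ω := cf (HR K R u) eta0 S) hd1 (by omega) hF hD
            (Nr (HR K R u) u m)
          unfold NF
          exact SP_le (fun A => abs_dl_le) h3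
      _ = T0 t * (Ex Q (HR K R u) eta0 (fun ω => ((Bg (HR K R u) (x, 0) k d ω).card : ℝ)) +
            (4 * d + 1)) := by rw [Ex_mul_left, Ex_add, Ex_const hQ0]
      _ ≤ T0 t * (C + (4 * d + 1)) :=
          mul_le_mul_of_nonneg_left (by linarith) hT0
  refine h2.trans ?_
  have hkr : (k1 : ℝ) ≤ k := by exact_mod_cast hkk
  have e1 : T0 t * (C + 1) ≤ ε / 2 * k := by
    have h5 : 2 * T0 t * (C + 1) / ε < k := lt_of_lt_of_le hk1 hkr
    rw [div_lt_iff₀ hε] at h5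
    linarith
  have e2 : T0 t * (4 * d) ≤ ε / 2 * k := by
    have h5 : (d : ℝ) * n ≤ k := by exact_mod_cast hdk
    have h6 : 8 * T0 t / ε < n := by linarith
    rw [div_lt_iff₀ hε] at h6
    have h7 : (0 : ℝ) ≤ d := by exact_mod_cast (by omega : 0 ≤ d)
    calc T0 t * (4 * d) = (8 * T0 t) * d / 2 := by ring
      _ ≤ (n * ε) * d / 2 := by
          have := mul_le_mul_of_nonneg_right h6.le h7
          linarith
      _ = ε / 2 * (d * n) := by ring
      _ ≤ ε / 2 * k := mul_le_mul_of_nonneg_left h5 (by positivity)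
  linarith

/-! ### The stagger -/

theorem Geo.sub (E : Geo K R D p u) (hy : nm (y - u) + R' ≤ R) (hy2 : y.2 = u.2) (hR' : 1 ≤ R') :
    Geo K R' D p y where
  one_le := E.one_le
  R1 := hR'
  fl := by
    intro v hv
    rw [hy2]
    refine E.fl v ?_
    have h1 := nm_tri v y u
    have h2 := E.one_le
    have h0 := nm_nonneg (y - u)
    nlinarith
  jn := by
    intro y' r hy' h0 hr z hz h
    refine E.jn y' r ?_ h0 ?_ z hz h
    · have := nm_tri y' y u
      omega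
    · have := nm_nonneg (y - u)
      omega
  jt := E.jt
  pot := E.pot

theorem sx_one (x : ℤ) (P : Finset Ed → Prop) (ω : Cfg) :
    |SP t D p P (sx D p x) ω| ≤ T0 t := by
  classical
  have h : (((pcs ω D).filter fun A => P A ∧ sx D p x A ≠ 0).card : ℝ) ≤ 1 := by
    have h1 : ((pcs ω D).filter fun A => P A ∧ sx D p x A ≠ 0).card ≤ 1 := by
      rw [Finset.card_le_one]
      intro A hA B hB
      rw [mem_filter] at hA hB
      have mem : ∀ A, sx D p x A ≠ 0 → fe x ∈ A := fun A h => by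
        by_contra hcon
        exact h (by unfold sx; rw [if_neg hcon])
      exact eq_of_mem_pcs hA.1 hB.1 (mem A hA.2.2) (mem B hB.2.2)
    exact_mod_cast h1
  have := SP_le (t := t) (p := p) (fun A => abs_sx D p x A) h
  rwa [mul_one] at this

/-- **The mean of the stagger.** -/
theorem ns_ref {Cm C2 C3 α c₀ C₀ : ℝ} {K₀ : ℤ} (P : Cst Q C3 α c₀ C₀ K₀) (hCm : 0 < Cm)
    (hC2 : 0 < C2) (hm2 : M2c Q Cm (1200 * K).toNat) (h2 : I2c Q C2) (hK : 1 ≤ K)
    (t : Fin 3 → ℝ) : ∃ C : ℝ, 0 ≤ C ∧ ∀ (R : ℤ) (u : ℤ × ℤ) (m x : ℤ) (k : ℕ), u.2 = 0 →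
    5 ≤ k → |x - u.1| + k ≤ m → m ≤ R → |x - u.1| + R / 2 ≤ R → K₀ * (k + 1) ≤ R / 2 →
    |Ex Q (HR K R u) eta0 (NS t (HR K R u) (pR K R u) u m x) - sref Q t K (R / 2) k 0| ≤
      C * (1 / k + ((k : ℝ) / R) ^ (1 + c₀)) := by
  classical
  have hQ0 : 0 < Q := by linarith [P.hQ]
  have hT0 := T0_nonneg t
  have hc := P.hc
  have hC := P.hC
  refine ⟨T0 t * (5 * Cm * C2) + C₀ * 6 ^ (1 + c₀) * T0 t, by positivity, ?_⟩
  intro R u m x k hu hk hxm hmR hxR hKR
  have hK0 := P.hK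
  have hkK : (k : ℤ) + 1 ≤ K₀ * (k + 1) := by nlinarith
  have hR1 : 1 ≤ R := by omega
  have hR2 : 1 ≤ R / 2 := by omega
  have E := gq_HR (K := K) (R := R) (u := u) hK hR1
  have hxa := abs_nonneg (x - u.1)
  have hxu : nm (((x, 0) : ℤ × ℤ) - u) ≤ |x - u.1| := by
    rw [nm_le']
    simp only [Prod.fst_sub, Prod.snd_sub, hu]
    have h1 := le_abs_self (x - u.1)
    have h3 := neg_abs_le (x - u.1)
    omega
  have hxD : (x, (0 : ℤ)) ∈ HR K R u := by
    have hL8 := E.geo.L8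
    refine (E.geo.fl _ (by omega)).2 ?_
    rw [hu]
  -- the class
  set N1 := SP t (HR K R u) (pR K R u) (Nr (HR K R u) (x, 0) k) (sx (HR K R u) (pR K R u) x)
    with hN1
  have hcls : ∀ A, Nr (HR K R u) (x, 0) k A → Nr (HR K R u) u m A := by
    intro A hA
    refine hA.mono ?_
    omega
  have b1 : |Ex Q (HR K R u) eta0 (NS t (HR K R u) (pR K R u) u m x) -
      Ex Q (HR K R u) eta0 N1| ≤ T0 t * (5 * Cm * C2) * (1 / k) := by
    rw [← Ex_sub]
    have e1 : ∀ ω, NS t (HR K R u) (pR K R u) u m x ω - N1 ω =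
        SP t (HR K R u) (pR K R u) (fun A => Nr (HR K R u) u m A ∧ ¬ Nr (HR K R u) (x, 0) k A)
          (sx (HR K R u) (pR K R u) x) ω := by
      intro ω
      unfold NS
      rw [SP_split hcls, hN1]
      ring
    simp only [e1]
    have h3 := far_mom (t := t) (x := (x, 0)) (k := 1) (r := k)
      (P := fun A => Nr (HR K R u) u m A ∧ ¬ Nr (HR K R u) (x, 0) k A)
      (g := sx (HR K R u) (pR K R u) x) hQ0 hCm hC2 hm2 h2 E le_rfl (by omega) hu.symm (by omega)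
      (fun A => abs_sx _ _ _ _) (fun ω A hA hP hg => by
        refine ⟨not_not.1 hP.2, ?_⟩
        obtain ⟨e, he, h4, h5⟩ := sx_vis hA hxD hg
        exact ⟨e, he, h4, by omega⟩) (G := fun _ => 1) (fun _ => zero_le_one) (fun _ _ _ => rfl)
    simp only [one_mul, Ex_const hQ0, mul_one] at h3
    refine (abs_Ex_le hQ0 _).trans (h3.trans (le_of_eq ?_))
    push_cast
    ring
  -- the domain
  have E' : Geo K (R / 2) (HR K R u) (pR K R u) (x, 0) :=
    E.geo.sub (by omega) hu.symm hR2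
  have E2 := gq_HR (K := K) (R := R / 2) (u := ((x, 0) : ℤ × ℤ)) hK hR2
  have O : Obs K (R / 2) (x, 0) (x, 0) k (fun D => Nr D (x, 0) k) (fun D p => sx D p x) :=
    { near := fun D A h => h
      same := fun D1 D2 A h => h.nr
      intr := intr_sx x }
  have hnn := nm_self ((x, 0) : ℤ × ℤ)
  have e2 : N1 = SP t (HR K (R / 2) (x, 0)) (pR K (R / 2) (x, 0))
      (Nr (HR K (R / 2) (x, 0)) (x, 0) k)
      (sx (HR K (R / 2) (x, 0)) (pR K (R / 2) (x, 0)) x) := O.eqH E' (by omega)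
  have hloc : Loc (hB (x, 0) k) N1 := O.loc E' (by omega) rfl _
  have hsref : sref Q t K (R / 2) k 0 = Ex Q (HR K (R / 2) (x, 0)) eta0 N1 := by
    rw [sref_eq hQ0 hK hR2 (by omega) (by omega) 0 x, e2]
    rfl
  have hL8 := E'.L8
  have hflt1 : FltQ (HR K R u) eta0 (x, 0) (R / 2) false false :=
    flt_shift E.fl (by have := E.geo.L8; omega) hu.symm
  have hflt2 : FltQ (HR K (R / 2) (x, 0)) eta0 (x, 0) (R / 2) false false :=
    flt_shift E2.fl (by omega) rfl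
  have hrel := (P.hrel (x, 0) (k + 1) (R / 2) (by omega) hKR (HR K R u) eta0
    (flt_side hflt1 le_rfl) good_eta0 N1 (fun ω ω' h => hloc ω ω' fun v hv => h v (HS_of_hB hv))).1
    (HR K (R / 2) (x, 0)) eta0 (flt_side hflt2 le_rfl) good_eta0
  have hN1le : Ex Q (HR K R u) eta0 (fun ω => |N1 ω|) ≤ T0 t := by
    rw [← Ex_const (D := HR K R u) (η := eta0) hQ0 (T0 t)]
    exact Ex_mono hQ0 fun S _ => sx_one x _ _
  have hN10 : 0 ≤ Ex Q (HR K R u) eta0 (fun ω => |N1 ω|) := Ex_nonneg hQ0 fun _ _ => abs_nonneg _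
  have hR0 : (0 : ℝ) < R := by exact_mod_cast (by omega : 0 < R)
  have hR20 : (0 : ℝ) < ((R / 2 : ℤ) : ℝ) := by exact_mod_cast (by omega : 0 < R / 2)
  have h3 : (R : ℝ) ≤ 3 * ((R / 2 : ℤ) : ℝ) := by exact_mod_cast (by omega : R ≤ 3 * (R / 2))
  have hkr : (1 : ℝ) ≤ k := by exact_mod_cast (by omega : 1 ≤ k)
  have hfrac : (((k : ℤ) + 1 : ℤ) : ℝ) / ((R / 2 : ℤ) : ℝ) ≤ 6 * ((k : ℝ) / R) := by
    rw [div_le_iff₀ hR20]
    have e3 : 6 * ((k : ℝ) / R) * ((R / 2 : ℤ) : ℝ) = 2 * k * (3 * ((R / 2 : ℤ) : ℝ) / R) := by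
      field_simp
      ring
    rw [e3]
    have h5 : 1 ≤ 3 * ((R / 2 : ℤ) : ℝ) / R := by rw [le_div_iff₀ hR0]; linarith
    push_cast
    nlinarith
  have b2 : |Ex Q (HR K R u) eta0 N1 - sref Q t K (R / 2) k 0| ≤
      C₀ * 6 ^ (1 + c₀) * T0 t * ((k : ℝ) / R) ^ (1 + c₀) := by
    rw [hsref]
    refine hrel.trans ?_
    calc C₀ * ((((k : ℤ) + 1 : ℤ) : ℝ) / ((R / 2 : ℤ) : ℝ)) ^ (1 + c₀) *
          Ex Q (HR K R u) eta0 (fun ω => |N1 ω|)
        ≤ C₀ * (6 * ((k : ℝ) / R)) ^ (1 + c₀) * T0 t := by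
          refine mul_le_mul (mul_le_mul_of_nonneg_left (Real.rpow_le_rpow ?_ hfrac
            (by linarith)) hC.le) hN1le hN10 (by positivity)
          push_cast
          positivity
      _ = _ := by
          rw [Real.mul_rpow (by norm_num) (by positivity)]
          ring
  have q1 : (0 : ℝ) ≤ 1 / k := by positivity
  have q2 : 0 ≤ ((k : ℝ) / R) ^ (1 + c₀) := by positivity
  have q3 : 0 ≤ T0 t * (5 * Cm * C2) := by positivity
  have q4 : 0 ≤ C₀ * 6 ^ (1 + c₀) * T0 t := by positivity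
  calc |Ex Q (HR K R u) eta0 (NS t (HR K R u) (pR K R u) u m x) - sref Q t K (R / 2) k 0|
      = |(Ex Q (HR K R u) eta0 (NS t (HR K R u) (pR K R u) u m x) - Ex Q (HR K R u) eta0 N1) +
          (Ex Q (HR K R u) eta0 N1 - sref Q t K (R / 2) k 0)| := by congr 1; ring
    _ ≤ T0 t * (5 * Cm * C2) * (1 / k) +
          C₀ * 6 ^ (1 + c₀) * T0 t * ((k : ℝ) / R) ^ (1 + c₀) :=
        (abs_add_le _ _).trans (add_le_add b1 b2)
    _ ≤ _ := by nlinarith [mul_nonneg q3 q2, mul_nonneg q4 q1]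

end Vale.Agent.P167.H365.NQ
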